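import Crest.Agent.R232.ExpMom

/-! # Row 232, piece BAD: contribution of the bad event

`|s|^p ≤ C₁ B^p exp(|s|/(2B))` (`u^p ≤ C₁ e^{u/2}` for `u ≥ 0`), and on the bad event some `e'` has
`|rs (x e')| > tB`, so `1 ≤ ∑_{e'} e^{-t/2} exp(|rs (x e')|/(2B))`. Then
`exp(u/2) exp(v/2) ≤ (exp u + exp v)/2` and `exp_mom` give
`≤ ∑_{e'} C₁ B^p e^{-t/2} · 2e`. -/

set_option autoImplicit false

namespace Crest.Agent.R232

theorem BADaux.pow_le (p : ℝ) (hp : 1 < p) (u : ℝ) (hu : 0 ≤ u) :
    u ^ p ≤ (2 * p) ^ p * Real.exp (u / 2) := by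
  have hp0 : 0 < 2 * p := by linarith
  have h1 : u / (2 * p) ≤ Real.exp (u / (2 * p)) := by
    have := Real.add_one_le_exp (u / (2 * p)); linarith
  have h2 : u = 2 * p * (u / (2 * p)) := by field_simp
  have h3 : u ^ p = (2 * p) ^ p * (u / (2 * p)) ^ p := by
    rw [← Real.mul_rpow hp0.le (div_nonneg hu hp0.le), ← h2]
  rw [h3]
  refine mul_le_mul_of_nonneg_left ?_ (Real.rpow_nonneg hp0.le p)
  calc (u / (2 * p)) ^ p ≤ (Real.exp (u / (2 * p))) ^ p :=
        Real.rpow_le_rpow (div_nonneg hu hp0.le) h1 (by linarith)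
    _ = Real.exp (u / 2) := by
        rw [← Real.exp_mul]
        congr 1
        have : p ≠ 0 := by linarith
        field_simp

open Classical in
theorem bad_event (p : ℝ) (hp : 1 < p) :
    ∃ C : ℝ, 0 ≤ C ∧ ∀ (E : Type) [Fintype E] (N : ℕ) (δ : ℝ), 0 ≤ δ → δ ≤ 1 →
      ∀ (x : E → Fin N → ℝ) (B : ℝ), 0 < B → (∀ e i, |x e i| ≤ B) →
      (∀ e, δ * ∑ i, (x e i) ^ 2 ≤ B ^ 2) → ∀ (t : ℝ), 0 ≤ t → ∀ e : E,
      Ex δ (fun η => if (∀ e', |rs (x e') η| ≤ t * B) then 0 else |rs (x e) η| ^ p) ≤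
        C * Fintype.card E * B ^ p * Real.exp (-(t / 2)) := by
  refine ⟨(2 * p) ^ p * (2 * Real.exp 1), ?_, ?_⟩
  · have : (0 : ℝ) ≤ (2 * p) ^ p := Real.rpow_nonneg (by linarith) p
    positivity
  intro E _ N δ h0 h1 x B hB hx hx2 t ht e
  have hC1 : (0 : ℝ) ≤ (2 * p) ^ p := Real.rpow_nonneg (by linarith) p
  have hBp : 0 < B ^ p := Real.rpow_pos_of_pos hB p
  set A : ℝ := (2 * p) ^ p * B ^ p * Real.exp (-(t / 2)) with hA
  have hA0 : 0 ≤ A := by positivity
  have key : ∀ η : Fin N → SignType,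
      (if (∀ e', |rs (x e') η| ≤ t * B) then 0 else |rs (x e) η| ^ p) ≤
        ∑ e', A / 2 * (Real.exp (|rs (x e) η| / B) + Real.exp (|rs (x e') η| / B)) := by
    intro η
    split_ifs with hcase
    · exact Finset.sum_nonneg fun e' _ => by positivity
    · push Not at hcase
      obtain ⟨e', he'⟩ := hcase
      refine le_trans ?_ (Finset.single_le_sum (f := fun e' => A / 2 *
        (Real.exp (|rs (x e) η| / B) + Real.exp (|rs (x e') η| / B)))
        (fun e' _ => by positivity) (Finset.mem_univ e'))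
      set s := |rs (x e) η| with hs
      set s' := |rs (x e') η| with hs'
      have hs0 : 0 ≤ s := abs_nonneg _
      have e1 : s ^ p = B ^ p * (s / B) ^ p := by
        rw [← Real.mul_rpow hB.le (div_nonneg hs0 hB.le), mul_div_cancel₀ _ hB.ne']
      have e2 := BADaux.pow_le p hp (s / B) (div_nonneg hs0 hB.le)
      have e3 : 1 ≤ Real.exp (-(t / 2)) * Real.exp (s' / B / 2) := by
        rw [← Real.exp_add]
        apply Real.one_le_exp
        have : t ≤ s' / B := by rw [le_div_iff₀ hB]; exact he'.le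
        linarith
      have e4 : Real.exp (s / B / 2) * Real.exp (s' / B / 2) ≤
          (Real.exp (s / B) + Real.exp (s' / B)) / 2 := by
        have a1 : Real.exp (s / B) = Real.exp (s / B / 2) ^ 2 := by
          rw [← Real.exp_nat_mul]; congr 1; push_cast; ring
        have a2 : Real.exp (s' / B) = Real.exp (s' / B / 2) ^ 2 := by
          rw [← Real.exp_nat_mul]; congr 1; push_cast; ring
        rw [a1, a2]
        nlinarith [sq_nonneg (Real.exp (s / B / 2) - Real.exp (s' / B / 2))]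
      calc s ^ p = B ^ p * (s / B) ^ p := e1
        _ ≤ B ^ p * ((2 * p) ^ p * Real.exp (s / B / 2)) :=
            mul_le_mul_of_nonneg_left e2 hBp.le
        _ ≤ B ^ p * ((2 * p) ^ p * Real.exp (s / B / 2)) *
              (Real.exp (-(t / 2)) * Real.exp (s' / B / 2)) :=
            le_mul_of_one_le_right (by positivity) e3
        _ = A * (Real.exp (s / B / 2) * Real.exp (s' / B / 2)) := by rw [hA]; ring
        _ ≤ A * ((Real.exp (s / B) + Real.exp (s' / B)) / 2) :=
            mul_le_mul_of_nonneg_left e4 hA0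
        _ = _ := by ring
  calc Ex δ (fun η => if (∀ e', |rs (x e') η| ≤ t * B) then 0 else |rs (x e) η| ^ p)
      ≤ Ex δ (fun η => ∑ e', A / 2 * (Real.exp (|rs (x e) η| / B) +
          Real.exp (|rs (x e') η| / B))) := Ex_mono h0 h1 key
    _ = ∑ e', A / 2 * (Ex δ (fun η => Real.exp (|rs (x e) η| / B)) +
          Ex δ (fun η => Real.exp (|rs (x e') η| / B))) := by
        rw [Ex_sum]
        exact Finset.sum_congr rfl fun e' _ => by rw [Ex_const_mul, Ex_add]
    _ ≤ ∑ _e' : E, A / 2 * (2 * Real.exp 1 + 2 * Real.exp 1) := by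
        refine Finset.sum_le_sum fun e' _ => mul_le_mul_of_nonneg_left ?_ (by positivity)
        exact add_le_add (exp_mom N δ h0 h1 (x e) B hB (hx e) (hx2 e))
          (exp_mom N δ h0 h1 (x e') B hB (hx e') (hx2 e'))
    _ = _ := by
        rw [Finset.sum_const, Finset.card_univ, nsmul_eq_mul, hA]
        ring

end Crest.Agent.R232
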