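import Crest.Agent.R232.Tent

/-! # Row 232, piece BDX: pointwise bounds of the level functions

Let `w = 2^{-l} vlev m l (f ω e)`. If `w ≠ 0` then `0 < bin f - l < 2m`, so
`2 ≤ 2^{-l}|f| < 2^{-l} 2^{bin f + 1} ≤ 2^{2m}` and `|w| ≤ 2^{-l}|f|`. Hence `|w| ≤ 2^{2m}` always,
and `w² ≤ (2^{-l}|f|)² ≤ 2^{2m} (2^{-l}|f|)^p` (as `u^{2-p} ≤ u ≤ 2^{2m}` if `1 < p ≤ 2`, `u ≥ 1`, and
`u^{2-p} ≤ 1` if `p > 2`), so `2^{lp} ∑_ω w² ≤ 2^{2m} ∑ |f|^p ≤ 2^{2m} ≤ (2^{2m})²`. Then use the two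
bounds in `IsSup` (linearity: `P(c h) = c P h`). -/

set_option autoImplicit false

namespace Crest.Agent.R232

theorem BDXaux.pt (p : ℝ) (hp : 1 < p) (m : ℕ) (l : ℤ) (a : ℝ) :
    |(2 : ℝ) ^ (-(l : ℝ)) * vlev m l a| ≤ 2 ^ (2 * m) ∧
    ((2 : ℝ) ^ (-(l : ℝ)) * vlev m l a) ^ 2 ≤
      2 ^ (2 * m) * ((2 : ℝ) ^ (-((l : ℝ) * p)) * |a| ^ p) := by
  have h2l : (0 : ℝ) < (2 : ℝ) ^ (-(l : ℝ)) := Real.rpow_pos_of_pos two_pos _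
  have hnn : (0 : ℝ) ≤ 2 ^ (2 * m) * ((2 : ℝ) ^ (-((l : ℝ) * p)) * |a| ^ p) := by positivity
  by_cases ha : a = 0
  · subst ha
    simp only [vlev, mul_zero, abs_zero]
    refine ⟨by positivity, ?_⟩
    simpa using hnn
  by_cases hk : bin a - l ≤ 0 ∨ 2 * (m : ℤ) ≤ bin a - l
  · simp only [vlev, tent_eq_zero m _ hk, zero_mul, mul_zero, abs_zero]
    refine ⟨by positivity, ?_⟩
    simpa using hnn
  push Not at hk
  obtain ⟨hk1, hk2⟩ := hk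
  have hapos : 0 < |a| := abs_pos.2 ha
  have hlow : (2 : ℝ) ^ (bin a) ≤ |a| := Int.zpow_log_le_self (b := 2) (by norm_num) hapos
  have hup : |a| < (2 : ℝ) ^ (bin a + 1) := Int.lt_zpow_succ_log_self (b := 2) (by norm_num) |a|
  set u : ℝ := (2 : ℝ) ^ (-(l : ℝ)) * |a| with hu
  have hconv : (2 : ℝ) ^ (-(l : ℝ)) = (2 : ℝ) ^ (-l) := by
    rw [← Real.rpow_intCast]; push_cast; rfl
  have hu1 : 1 ≤ u := by
    rw [hu, hconv]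
    calc (1 : ℝ) ≤ (2 : ℝ) ^ (-l + bin a) := by
          apply one_le_zpow₀ (by norm_num); omega
      _ = (2 : ℝ) ^ (-l) * (2 : ℝ) ^ (bin a) := zpow_add₀ (by norm_num) _ _
      _ ≤ _ := mul_le_mul_of_nonneg_left hlow (by positivity)
  have hu2 : u ≤ 2 ^ (2 * m) := by
    rw [hu, hconv]
    calc (2 : ℝ) ^ (-l) * |a| ≤ (2 : ℝ) ^ (-l) * (2 : ℝ) ^ (bin a + 1) :=
          mul_le_mul_of_nonneg_left hup.le (by positivity)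
      _ = (2 : ℝ) ^ (-l + (bin a + 1)) := (zpow_add₀ (by norm_num) _ _).symm
      _ ≤ (2 : ℝ) ^ ((2 * m : ℕ) : ℤ) := by
          apply zpow_le_zpow_right₀ (by norm_num); push_cast; omega
      _ = _ := zpow_natCast _ _
  have habs : |(2 : ℝ) ^ (-(l : ℝ)) * vlev m l a| ≤ u := by
    rw [vlev, abs_mul, abs_mul, abs_of_pos h2l, abs_of_nonneg (tent_nonneg m _), hu]
    refine mul_le_mul_of_nonneg_left ?_ h2l.le
    calc tent m (bin a - l) * |a| ≤ 1 * |a| :=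
          mul_le_mul_of_nonneg_right (tent_le_one m _) (abs_nonneg a)
      _ = |a| := one_mul _
  refine ⟨habs.trans hu2, ?_⟩
  have hup' : u ≤ u ^ p := by
    calc u = u ^ (1 : ℝ) := (Real.rpow_one u).symm
      _ ≤ u ^ p := Real.rpow_le_rpow_of_exponent_le hu1 hp.le
  have hup'' : u ^ p = (2 : ℝ) ^ (-((l : ℝ) * p)) * |a| ^ p := by
    rw [hu, Real.mul_rpow h2l.le (abs_nonneg a), ← Real.rpow_mul (by norm_num)]
    congr 2; ring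
  rw [← hup'']
  calc ((2 : ℝ) ^ (-(l : ℝ)) * vlev m l a) ^ 2 = |(2 : ℝ) ^ (-(l : ℝ)) * vlev m l a| ^ 2 :=
        (sq_abs _).symm
    _ ≤ u ^ 2 := pow_le_pow_left₀ (abs_nonneg _) habs 2
    _ = u * u := sq u
    _ ≤ 2 ^ (2 * m) * u ^ p := mul_le_mul hu2 hup' (by linarith) (by positivity)

theorem bddx {E : Type} [Fintype E] (p : ℝ) (hp : 1 < p) (Λ : ℝ) (hΛ : 0 ≤ Λ)
    (P : (E → ℝ) →ₗ[ℝ] (E → ℝ)) (hP : IsSup Λ P) (N : ℕ) (f : Fin N → E → ℝ)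
    (hf : ∀ e, ∑ ω, |f ω e| ^ p ≤ 1) (m : ℕ) (l : ℤ) (e : E) :
    (∀ ω, |(2 : ℝ) ^ (-(l : ℝ)) * P (fun e' => vlev m l (f ω e')) e| ≤ Λ * 2 ^ (2 * m)) ∧
    (2 : ℝ) ^ ((l : ℝ) * p) * ∑ ω, ((2 : ℝ) ^ (-(l : ℝ)) * P (fun e' => vlev m l (f ω e')) e) ^ 2 ≤
      (Λ * 2 ^ (2 * m)) ^ 2 := by
  have hlin : ∀ ω, (2 : ℝ) ^ (-(l : ℝ)) * P (fun e' => vlev m l (f ω e')) e =
      P (fun e' => (2 : ℝ) ^ (-(l : ℝ)) * vlev m l (f ω e')) e := by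
    intro ω
    have h1 : (fun e' => (2 : ℝ) ^ (-(l : ℝ)) * vlev m l (f ω e')) =
        (2 : ℝ) ^ (-(l : ℝ)) • (fun e' => vlev m l (f ω e')) := by
      funext e'; simp
    rw [h1, map_smul]; simp
  constructor
  · intro ω
    rw [hlin]
    exact hP.sup _ _ (fun e' => (BDXaux.pt p hp m l (f ω e')).1) e
  · simp only [hlin]
    have h1 := hP.supl2 N (fun ω e' => (2 : ℝ) ^ (-(l : ℝ)) * vlev m l (f ω e'))
      (2 ^ (2 * m) * (2 : ℝ) ^ (-((l : ℝ) * p))) (fun e' => by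
        calc ∑ ω, ((2 : ℝ) ^ (-(l : ℝ)) * vlev m l (f ω e')) ^ 2
            ≤ ∑ ω, 2 ^ (2 * m) * ((2 : ℝ) ^ (-((l : ℝ) * p)) * |f ω e'| ^ p) :=
              Finset.sum_le_sum fun ω _ => (BDXaux.pt p hp m l (f ω e')).2
          _ = 2 ^ (2 * m) * (2 : ℝ) ^ (-((l : ℝ) * p)) * ∑ ω, |f ω e'| ^ p := by
              rw [Finset.mul_sum]; exact Finset.sum_congr rfl fun ω _ => by ring
          _ ≤ 2 ^ (2 * m) * (2 : ℝ) ^ (-((l : ℝ) * p)) * 1 :=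
              mul_le_mul_of_nonneg_left (hf e') (by positivity)
          _ = _ := mul_one _) e
    have hpos : (0 : ℝ) < (2 : ℝ) ^ ((l : ℝ) * p) := Real.rpow_pos_of_pos two_pos _
    have hinv : (2 : ℝ) ^ ((l : ℝ) * p) * (2 : ℝ) ^ (-((l : ℝ) * p)) = 1 := by
      rw [← Real.rpow_add two_pos]; simp
    calc (2 : ℝ) ^ ((l : ℝ) * p) *
          ∑ ω, (P (fun e' => (2 : ℝ) ^ (-(l : ℝ)) * vlev m l (f ω e')) e) ^ 2
        ≤ (2 : ℝ) ^ ((l : ℝ) * p) * (Λ ^ 2 * (2 ^ (2 * m) * (2 : ℝ) ^ (-((l : ℝ) * p)))) :=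
          mul_le_mul_of_nonneg_left h1 hpos.le
      _ = ((2 : ℝ) ^ ((l : ℝ) * p) * (2 : ℝ) ^ (-((l : ℝ) * p))) * (Λ ^ 2 * 2 ^ (2 * m)) := by ring
      _ = Λ ^ 2 * 2 ^ (2 * m) := by rw [hinv, one_mul]
      _ ≤ Λ ^ 2 * (2 ^ (2 * m)) ^ 2 := by
          refine mul_le_mul_of_nonneg_left ?_ (sq_nonneg Λ)
          have : (1 : ℝ) ≤ 2 ^ (2 * m) := one_le_pow₀ (by norm_num)
          nlinarith
      _ = _ := by ring

end Crest.Agent.R232
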