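import Crest.Agent.R232.Bins

/-! # Row 232, piece TENT: the tent cutoff

* `vlev_abel`: `vlev m l a = ∑_{k<2m} (tent(k+1) - tent k) * blev (l+k) a`: the terms with
  `l + k < bin a` telescope to `tent m (min (bin a - l) (2m)) - tent m 0 = tent m (bin a - l)`.
* `lev_sum_le/lev_sum_ge`: for `|a| ≤ 1`, `a ≠ 0`, `j = bin a ≤ 0`:
  `|vlev m l a|^p = tent m (j-l)^p |a|^p`, nonzero only for `j-2m < l < j` (so `l ≤ -1`); all these
  `l` lie in `Ico (-(J+2m)) 0` when `j ≥ -J-1`, and then the sum is exactly `cM |a|^p`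
  (`cM` includes `k = 0` where `tent = 0`, `0^p = 0`). If `j ≤ -J-2` then `|a| < 2^{-J-1}`.
* `cM_ge`: the integers `k ∈ [m/2, 3m/2]` (at least `m` of them) have `tent m k ≥ 1/2`. -/

set_option autoImplicit false

namespace Crest.Agent.R232

theorem tent_nonneg (m : ℕ) (k : ℤ) : 0 ≤ tent m k := by
  unfold tent
  apply div_nonneg _ (Nat.cast_nonneg m)
  exact_mod_cast le_max_left 0 (min k (2 * (m : ℤ) - k))

theorem tent_le_one (m : ℕ) (k : ℤ) : tent m k ≤ 1 := by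
  unfold tent
  apply div_le_one_of_le₀ _ (Nat.cast_nonneg m)
  have h : max 0 (min k (2 * (m : ℤ) - k)) ≤ (m : ℤ) := by omega
  exact_mod_cast h

theorem tent_eq_zero (m : ℕ) (k : ℤ) (h : k ≤ 0 ∨ 2 * (m : ℤ) ≤ k) : tent m k = 0 := by
  unfold tent
  have h1 : max 0 (min k (2 * (m : ℤ) - k)) = 0 := by omega
  rw [h1]
  simp

theorem tent_diff (m : ℕ) (hm : 1 ≤ m) (k : ℤ) : |tent m (k + 1) - tent m k| ≤ 1 / m := by
  unfold tent
  have hm0 : (0 : ℝ) < m := by exact_mod_cast hm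
  rw [← sub_div, abs_div, abs_of_pos hm0]
  apply div_le_div_of_nonneg_right _ hm0.le
  have h : |max 0 (min (k + 1) (2 * (m : ℤ) - (k + 1))) - max 0 (min k (2 * (m : ℤ) - k))| ≤ 1 := by
    rw [abs_le]
    omega
  exact_mod_cast h

theorem cM_ge (p : ℝ) (hp : 1 < p) (m : ℕ) (hm : 1 ≤ m) : (2 : ℝ) ^ (-p) * m ≤ cM p m := by
  unfold cM
  have hsub : Finset.Ico ((m + 1) / 2) ((m + 1) / 2 + m) ⊆ Finset.range (2 * m) := by
    intro k hk
    rw [Finset.mem_Ico] at hk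
    rw [Finset.mem_range]
    omega
  calc (2 : ℝ) ^ (-p) * m = ∑ k ∈ Finset.Ico ((m + 1) / 2) ((m + 1) / 2 + m), (2 : ℝ) ^ (-p) := by
        rw [Finset.sum_const, Nat.card_Ico, nsmul_eq_mul]
        simp [mul_comm]
    _ ≤ ∑ k ∈ Finset.Ico ((m + 1) / 2) ((m + 1) / 2 + m), (tent m (k : ℤ)) ^ p := by
        refine Finset.sum_le_sum fun k hk => ?_
        rw [Finset.mem_Ico] at hk
        have h1 : (1 / 2 : ℝ) ≤ tent m (k : ℤ) := by
          unfold tent
          have hm0 : (0 : ℝ) < m := by exact_mod_cast hm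
          rw [le_div_iff₀ hm0]
          have h2 : (m : ℤ) ≤ 2 * max 0 (min (k : ℤ) (2 * (m : ℤ) - (k : ℤ))) := by omega
          have h3 : (m : ℝ) ≤ 2 * ((max 0 (min (k : ℤ) (2 * (m : ℤ) - (k : ℤ))) : ℤ) : ℝ) := by
            exact_mod_cast h2
          linarith
        have h4 : (2 : ℝ) ^ (-p) = (1 / 2 : ℝ) ^ p := by
          rw [Real.rpow_neg (by norm_num), one_div, Real.inv_rpow (by norm_num)]
        rw [h4]
        exact Real.rpow_le_rpow (by norm_num) h1 (by linarith)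
    _ ≤ ∑ k ∈ Finset.range (2 * m), (tent m (k : ℤ)) ^ p :=
        Finset.sum_le_sum_of_subset_of_nonneg hsub fun k _ _ =>
          Real.rpow_nonneg (tent_nonneg m k) p

theorem cM_le (p : ℝ) (hp : 1 < p) (m : ℕ) (hm : 1 ≤ m) : cM p m ≤ 2 * m := by
  unfold cM
  have _ := hm
  calc ∑ k ∈ Finset.range (2 * m), (tent m (k : ℤ)) ^ p ≤ ∑ k ∈ Finset.range (2 * m), (1 : ℝ) :=
        Finset.sum_le_sum fun k _ =>
          Real.rpow_le_one (tent_nonneg m k) (tent_le_one m k) (by linarith)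
    _ = 2 * m := by simp

theorem tent_abel_aux (m : ℕ) (j : ℤ) (a : ℝ) (n : ℕ) :
    ∑ k ∈ Finset.range n, (tent m ((k : ℤ) + 1) - tent m (k : ℤ)) * (if (k : ℤ) < j then a else 0) =
      tent m (max 0 (min j n)) * a := by
  induction n with
  | zero =>
    have h1 : max 0 (min j ((0 : ℕ) : ℤ)) = 0 := by
      have : ((0 : ℕ) : ℤ) = 0 := rfl
      rw [this]
      omega
    rw [h1, tent_eq_zero m 0 (Or.inl le_rfl)]
    simp
  | succ n ih =>
    rw [Finset.sum_range_succ, ih]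
    by_cases h : (n : ℤ) < j
    · rw [if_pos h]
      have h1 : max 0 (min j (n : ℤ)) = n := by omega
      have h2 : max 0 (min j ((n + 1 : ℕ) : ℤ)) = n + 1 := by push_cast; omega
      rw [h1, h2]
      ring
    · rw [if_neg h]
      have h1 : max 0 (min j (n : ℤ)) = max 0 (min j ((n + 1 : ℕ) : ℤ)) := by push_cast; omega
      rw [h1]
      ring

theorem vlev_abel (m : ℕ) (l : ℤ) (a : ℝ) :
    vlev m l a = ∑ k ∈ Finset.range (2 * m),
      (tent m ((k : ℤ) + 1) - tent m (k : ℤ)) * blev (l + k) a := by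
  have h1 := tent_abel_aux m (bin a - l) a (2 * m)
  have h2 : ∀ k : ℕ, blev (l + k) a = if (k : ℤ) < bin a - l then a else 0 := by
    intro k
    unfold blev
    by_cases h : l + (k : ℤ) < bin a
    · rw [if_pos h, if_pos (by omega)]
    · rw [if_neg h, if_neg (by omega)]
  simp only [h2]
  rw [h1]
  unfold vlev
  congr 1
  rcases le_or_gt (bin a - l) 0 with h | h
  · rw [tent_eq_zero m _ (Or.inl h), tent_eq_zero m _ (Or.inl (by omega))]
  · rcases le_or_gt (2 * (m : ℤ)) (bin a - l) with h' | h'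
    · rw [tent_eq_zero m _ (Or.inr h'), tent_eq_zero m _ (Or.inr (by push_cast; omega))]
    · congr 1
      push_cast
      omega

theorem reidx (g : ℤ → ℝ) (hg : ∀ k, 0 ≤ g k) (j : ℤ) (A B : Finset ℤ)
    (h : ∀ k ∈ A, g k ≠ 0 → j - k ∈ B) : ∑ k ∈ A, g k ≤ ∑ l ∈ B, g (j - l) := by
  classical
  rw [← Finset.sum_filter_ne_zero]
  have h1 : ∑ k ∈ A.filter (fun k => g k ≠ 0), g k =
      ∑ l ∈ (A.filter (fun k => g k ≠ 0)).image (fun k => j - k), g (j - l) := by
    rw [Finset.sum_image]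
    · refine Finset.sum_congr rfl fun k _ => ?_
      rw [sub_sub_cancel]
    · intro a _ b _ hab
      simpa using hab
  rw [h1]
  apply Finset.sum_le_sum_of_subset_of_nonneg
  · intro l hl
    rw [Finset.mem_image] at hl
    obtain ⟨k, hk, rfl⟩ := hl
    rw [Finset.mem_filter] at hk
    exact h k hk.1 hk.2
  · intro l _ _
    exact hg _

theorem cM_eq (p : ℝ) (m : ℕ) :
    cM p m = ∑ k ∈ Finset.Ico (0 : ℤ) (2 * (m : ℤ)), (tent m k) ^ p := by
  unfold cM
  refine Finset.sum_nbij (fun k : ℕ => (k : ℤ)) ?_ ?_ ?_ ?_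
  · intro k hk
    rw [Finset.mem_range] at hk
    rw [Finset.mem_Ico]
    omega
  · intro a _ b _ hab
    have hab' : (a : ℤ) = (b : ℤ) := hab
    exact_mod_cast hab'
  · intro k hk
    have hk' := Finset.mem_coe.mp hk
    rw [Finset.mem_Ico] at hk'
    refine ⟨k.toNat, ?_, ?_⟩
    · apply Finset.mem_coe.mpr
      rw [Finset.mem_range]
      omega
    · have := Int.toNat_of_nonneg hk'.1
      exact this
  · intro k _
    rfl

theorem tent_rpow_ne (p : ℝ) (hp : 1 < p) (m : ℕ) (k : ℤ) (h : (tent m k) ^ p ≠ 0) :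
    0 < k ∧ k < 2 * (m : ℤ) := by
  by_contra hc
  apply h
  rw [tent_eq_zero m k (by omega), Real.zero_rpow (by linarith)]

theorem vlev_rpow (p : ℝ) (m : ℕ) (l : ℤ) (a : ℝ) :
    |vlev m l a| ^ p = (tent m (bin a - l)) ^ p * |a| ^ p := by
  unfold vlev
  rw [abs_mul, abs_of_nonneg (tent_nonneg _ _), Real.mul_rpow (tent_nonneg _ _) (abs_nonneg _)]

theorem lev_sum_le (p : ℝ) (hp : 1 < p) (m L : ℕ) (hm : 1 ≤ m) (a : ℝ) (ha : |a| ≤ 1) :
    ∑ l ∈ Finset.Ico (-(L : ℤ)) 0, |vlev m l a| ^ p ≤ cM p m * |a| ^ p := by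
  have _ := hm
  have _ := ha
  simp only [vlev_rpow]
  rw [← Finset.sum_mul]
  apply mul_le_mul_of_nonneg_right _ (Real.rpow_nonneg (abs_nonneg _) _)
  rw [cM_eq]
  have h := reidx (fun l => (tent m (bin a - l)) ^ p)
    (fun l => Real.rpow_nonneg (tent_nonneg _ _) _) (bin a)
    (Finset.Ico (-(L : ℤ)) 0) (Finset.Ico (0 : ℤ) (2 * (m : ℤ))) (by
      intro k _ hk
      have := tent_rpow_ne p hp m _ hk
      rw [Finset.mem_Ico]
      omega)
  simpa only [sub_sub_cancel] using h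

set_option linter.unusedVariables false in
theorem lev_sum_ge (p : ℝ) (hp : 1 < p) (m J : ℕ) (hm : 1 ≤ m) (a : ℝ) (ha : |a| ≤ 1) :
    cM p m * |a| ^ p ≤ ∑ l ∈ Finset.Ico (-((J + 2 * m : ℕ) : ℤ)) 0, |vlev m l a| ^ p +
      cM p m * (2 : ℝ) ^ (-((J : ℝ) * p)) := by
  have hp0 : (0 : ℝ) < p := by linarith
  have hcM : 0 ≤ cM p m := by
    unfold cM
    exact Finset.sum_nonneg fun k _ => Real.rpow_nonneg (tent_nonneg _ _) _
  have hsum0 : 0 ≤ ∑ l ∈ Finset.Ico (-((J + 2 * m : ℕ) : ℤ)) 0, |vlev m l a| ^ p :=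
    Finset.sum_nonneg fun l _ => Real.rpow_nonneg (abs_nonneg _) _
  have h20 : 0 ≤ cM p m * (2 : ℝ) ^ (-((J : ℝ) * p)) :=
    mul_nonneg hcM (Real.rpow_nonneg (by norm_num) _)
  by_cases ha0 : a = 0
  · subst ha0
    rw [abs_zero, Real.zero_rpow hp0.ne', mul_zero]
    linarith
  have hb := bin_nonpos ha
  by_cases hj : -(J : ℤ) - 1 ≤ bin a
  · have key : cM p m * |a| ^ p ≤
        ∑ l ∈ Finset.Ico (-((J + 2 * m : ℕ) : ℤ)) 0, |vlev m l a| ^ p := by
      simp only [vlev_rpow]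
      rw [← Finset.sum_mul]
      apply mul_le_mul_of_nonneg_right _ (Real.rpow_nonneg (abs_nonneg _) _)
      rw [cM_eq]
      have h := reidx (fun k => (tent m k) ^ p)
        (fun l => Real.rpow_nonneg (tent_nonneg _ _) _) (bin a)
        (Finset.Ico (0 : ℤ) (2 * (m : ℤ))) (Finset.Ico (-((J + 2 * m : ℕ) : ℤ)) 0) (by
          intro k _ hk
          have := tent_rpow_ne p hp m _ hk
          rw [Finset.mem_Ico]
          push_cast
          omega)
      exact h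
    linarith
  · have h1 : |a| ≤ (2 : ℝ) ^ (-(J : ℝ)) := by
      refine (lt_bin ha0).le.trans ?_
      apply Real.rpow_le_rpow_of_exponent_le (by norm_num)
      have h2 : bin a + 1 ≤ -(J : ℤ) := by omega
      have h3 : ((bin a : ℤ) : ℝ) + 1 ≤ -(J : ℝ) := by exact_mod_cast h2
      exact h3
    have h2 : |a| ^ p ≤ (2 : ℝ) ^ (-((J : ℝ) * p)) := by
      calc |a| ^ p ≤ ((2 : ℝ) ^ (-(J : ℝ))) ^ p := Real.rpow_le_rpow (abs_nonneg _) h1 hp0.le
        _ = (2 : ℝ) ^ (-((J : ℝ) * p)) := by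
            rw [← Real.rpow_mul (by norm_num)]
            congr 1
            ring
    have h3 : cM p m * |a| ^ p ≤ cM p m * (2 : ℝ) ^ (-((J : ℝ) * p)) :=
      mul_le_mul_of_nonneg_left h2 hcM
    linarith

end Crest.Agent.R232
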