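import Crest.Agent.R232.MainOne
import Crest.Agent.R232.Tent

/-! # Row 232, piece MSUM: the main term summed over the levels

For one level `l < 0` apply `main_one` with `δ = 2^{lp}`, `a i = 2^{-l} vlev m l (f i)`,
`b i = if l < bin (f i) then 2^{-l} |f i| else 0` (`b i = 0` or `≥ 2` since
`|f i| ≥ 2^{bin}  ≥ 2^{l+1}`; if `f i = 0` then `b i = 0`); `|a i| ≤ b i` as `0 ≤ tent ≤ 1` and
`tent m k = 0` for `k ≤ 0`; `δ ∑ b^p ≤ ∑|f i|^p ≤ 1`; `δ ∑ |a|^p = ∑ |vlev|^p`. The error is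
`≤ C ∑_l δ_l ∑_i b i = C ∑_i |f i| ∑_{l < bin (f i)} 2^{l(p-1)} ≤ C C' ∑ |f i|^p` (`geom_below`,
`s = p-1`).
`main_sum'` combines with `lev_sum_le`, `lev_sum_ge`. -/

set_option autoImplicit false

namespace Crest.Agent.R232

namespace MSumaux

theorem one_level (p : ℝ) (hp : 1 < p) (C : ℝ)
    (hC : ∀ (N : ℕ) (δ : ℝ), 0 ≤ δ → δ ≤ 1 → ∀ a b : Fin N → ℝ,
      (∀ i, b i = 0 ∨ 1 ≤ b i) → (∀ i, |a i| ≤ b i) → δ * ∑ i, (b i) ^ p ≤ 1 →
      |Ex δ (fun η => |rs a η| ^ p) - δ * ∑ i, |a i| ^ p| ≤ C * (δ * ∑ i, b i))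
    (N : ℕ) (f : Fin N → ℝ) (hf : ∑ i, |f i| ^ p ≤ 1) (m : ℕ) (l : ℤ) (hl : l < 0) :
    |Ex ((2 : ℝ) ^ ((l : ℝ) * p))
          (fun η => |rs (fun i => (2 : ℝ) ^ (-(l : ℝ)) * vlev m l (f i)) η| ^ p)
        - ∑ i, |vlev m l (f i)| ^ p| ≤
      C * ∑ i, (if l < bin (f i) then |f i| * (2 : ℝ) ^ ((l : ℝ) * (p - 1)) else 0) := by
  have hp0 : 0 < p := by linarith
  have h2 : (0 : ℝ) < 2 := by norm_num
  have hl' : (l : ℝ) < 0 := by exact_mod_cast hl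
  have hδ0 : (0 : ℝ) ≤ (2 : ℝ) ^ ((l : ℝ) * p) := (Real.rpow_pos_of_pos h2 _).le
  have hδ1 : (2 : ℝ) ^ ((l : ℝ) * p) ≤ 1 :=
    Real.rpow_le_one_of_one_le_of_nonpos (by norm_num) (by nlinarith)
  have hq0 : (0 : ℝ) < (2 : ℝ) ^ (-(l : ℝ)) := Real.rpow_pos_of_pos h2 _
  have hmul : ∀ x : ℝ, 0 ≤ x →
      (2 : ℝ) ^ ((l : ℝ) * p) * ((2 : ℝ) ^ (-(l : ℝ)) * x) ^ p = x ^ p := by
    intro x hx
    rw [Real.mul_rpow hq0.le hx, ← Real.rpow_mul h2.le, ← mul_assoc, ← Real.rpow_add h2]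
    rw [show (l : ℝ) * p + -(l : ℝ) * p = 0 by ring, Real.rpow_zero, one_mul]
  have key := hC N ((2 : ℝ) ^ ((l : ℝ) * p)) hδ0 hδ1
    (fun i => (2 : ℝ) ^ (-(l : ℝ)) * vlev m l (f i))
    (fun i => if l < bin (f i) then (2 : ℝ) ^ (-(l : ℝ)) * |f i| else 0) ?_ ?_ ?_
  · have e1 : (2 : ℝ) ^ ((l : ℝ) * p) * ∑ i, |(2 : ℝ) ^ (-(l : ℝ)) * vlev m l (f i)| ^ p
        = ∑ i, |vlev m l (f i)| ^ p := by
      rw [Finset.mul_sum]
      refine Finset.sum_congr rfl fun i _ => ?_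
      rw [abs_mul, abs_of_pos hq0, hmul _ (abs_nonneg _)]
    have e2 : (2 : ℝ) ^ ((l : ℝ) * p) *
        ∑ i, (if l < bin (f i) then (2 : ℝ) ^ (-(l : ℝ)) * |f i| else 0) =
        ∑ i, (if l < bin (f i) then |f i| * (2 : ℝ) ^ ((l : ℝ) * (p - 1)) else 0) := by
      rw [Finset.mul_sum]
      refine Finset.sum_congr rfl fun i _ => ?_
      split_ifs
      · rw [← mul_assoc, ← Real.rpow_add h2, mul_comm]
        congr 2
        ring
      · simp
    rw [e1, e2] at key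
    exact key
  · intro i
    by_cases h : l < bin (f i)
    · simp only [h, if_true]
      by_cases h0 : f i = 0
      · left; simp [h0]
      · right
        have h1 := bin_le h0
        have h3 : (1 : ℝ) ≤ (2 : ℝ) ^ (-(l : ℝ)) * (2 : ℝ) ^ ((bin (f i) : ℤ) : ℝ) := by
          rw [← Real.rpow_add h2]
          refine Real.one_le_rpow (by norm_num) ?_
          have : (l : ℝ) < (bin (f i) : ℝ) := by exact_mod_cast h
          linarith
        exact h3.trans (mul_le_mul_of_nonneg_left h1 hq0.le)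
    · left; simp [h]
  · intro i
    have ht0 := tent_nonneg m (bin (f i) - l)
    have ht1 := tent_le_one m (bin (f i) - l)
    by_cases h : l < bin (f i)
    · simp only [h, if_true]
      rw [abs_mul, abs_of_pos hq0]
      refine mul_le_mul_of_nonneg_left ?_ hq0.le
      rw [vlev, abs_mul, abs_of_nonneg ht0]
      exact mul_le_of_le_one_left (abs_nonneg _) ht1
    · simp only [h, if_false]
      have : tent m (bin (f i) - l) = 0 := tent_eq_zero m _ (Or.inl (by omega))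
      rw [vlev, this]
      simp
  · refine le_trans ?_ hf
    rw [Finset.mul_sum]
    refine Finset.sum_le_sum fun i _ => ?_
    by_cases h : l < bin (f i)
    · simp only [h, if_true]
      rw [hmul _ (abs_nonneg _)]
    · simp only [h, if_false]
      rw [Real.zero_rpow hp0.ne', mul_zero]
      exact Real.rpow_nonneg (abs_nonneg _) _

end MSumaux

theorem main_sum (p : ℝ) (hp : 1 < p) :
    ∃ C : ℝ, 0 ≤ C ∧ ∀ (N : ℕ) (f : Fin N → ℝ), ∑ i, |f i| ^ p ≤ 1 → ∀ m L : ℕ, 1 ≤ m →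
      |∑ l ∈ Finset.Ico (-(L : ℤ)) 0, (Ex ((2 : ℝ) ^ ((l : ℝ) * p))
          (fun η => |rs (fun i => (2 : ℝ) ^ (-(l : ℝ)) * vlev m l (f i)) η| ^ p)
        - ∑ i, |vlev m l (f i)| ^ p)| ≤ C := by
  obtain ⟨C, hC0, hC⟩ := main_one p hp
  obtain ⟨C', hC0', hC'⟩ := geom_below (p - 1) (by linarith)
  refine ⟨C * C', by positivity, fun N f hf m L _ => ?_⟩
  refine (Finset.abs_sum_le_sum_abs _ _).trans ?_
  have h1 : ∀ l ∈ Finset.Ico (-(L : ℤ)) 0,
      |Ex ((2 : ℝ) ^ ((l : ℝ) * p))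
          (fun η => |rs (fun i => (2 : ℝ) ^ (-(l : ℝ)) * vlev m l (f i)) η| ^ p)
        - ∑ i, |vlev m l (f i)| ^ p| ≤
      C * ∑ i, (if l < bin (f i) then |f i| * (2 : ℝ) ^ ((l : ℝ) * (p - 1)) else 0) :=
    fun l hl => MSumaux.one_level p hp C hC N f hf m l (Finset.mem_Ico.1 hl).2
  refine (Finset.sum_le_sum h1).trans ?_
  rw [← Finset.mul_sum]
  refine mul_le_mul_of_nonneg_left ?_ hC0
  rw [Finset.sum_comm]
  have h2 : ∀ i ∈ (Finset.univ : Finset (Fin N)),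
      ∑ l ∈ Finset.Ico (-(L : ℤ)) 0,
        (if l < bin (f i) then |f i| * (2 : ℝ) ^ ((l : ℝ) * (p - 1)) else 0) ≤
      C' * |f i| ^ p := by
    intro i _
    by_cases h0 : f i = 0
    · have : ∑ l ∈ Finset.Ico (-(L : ℤ)) 0,
        (if l < bin (f i) then |f i| * (2 : ℝ) ^ ((l : ℝ) * (p - 1)) else 0) = 0 := by
        refine Finset.sum_eq_zero fun l _ => ?_
        simp [h0]
      rw [this]
      exact mul_nonneg hC0' (Real.rpow_nonneg (abs_nonneg _) _)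
    · rw [← Finset.sum_filter, ← Finset.mul_sum]
      have h3 := hC' (Finset.Ico (-(L : ℤ)) 0) (f i) h0
      refine (mul_le_mul_of_nonneg_left h3 (abs_nonneg _)).trans_eq ?_
      have h4 : 0 < |f i| := abs_pos.2 h0
      rw [mul_comm, mul_assoc]
      congr 1
      nth_rewrite 2 [← Real.rpow_one |f i|]
      rw [← Real.rpow_add h4]
      congr 1
      ring
  refine (Finset.sum_le_sum h2).trans ?_
  rw [← Finset.mul_sum]
  exact mul_le_of_le_one_right hC0' hf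

theorem main_sum' (p : ℝ) (hp : 1 < p) :
    ∃ C : ℝ, 0 ≤ C ∧ ∀ (N : ℕ) (f : Fin N → ℝ), ∑ i, |f i| ^ p ≤ 1 → ∀ m J : ℕ, 1 ≤ m →
      |∑ l ∈ Finset.Ico (-((J + 2 * m : ℕ) : ℤ)) 0, Ex ((2 : ℝ) ^ ((l : ℝ) * p))
          (fun η => |rs (fun i => (2 : ℝ) ^ (-(l : ℝ)) * vlev m l (f i)) η| ^ p)
        - cM p m * ∑ i, |f i| ^ p| ≤ C + cM p m * (N * (2 : ℝ) ^ (-((J : ℝ) * p))) := by
  obtain ⟨C, hC0, hC⟩ := main_sum p hp
  refine ⟨C, hC0, fun N f hf m J hm => ?_⟩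
  have h1 := hC N f hf m (J + 2 * m) hm
  rw [Finset.sum_sub_distrib, Finset.sum_comm (s := Finset.Ico (-((J + 2 * m : ℕ) : ℤ)) 0)
    (t := (Finset.univ : Finset (Fin N)))] at h1
  have hp0 : 0 < p := by linarith
  have hfi : ∀ i, |f i| ≤ 1 := by
    intro i
    have h2 : |f i| ^ p ≤ 1 :=
      (Finset.single_le_sum (f := fun i => |f i| ^ p)
        (fun i _ => Real.rpow_nonneg (abs_nonneg _) _) (Finset.mem_univ i)).trans hf
    by_contra h
    push Not at h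
    have := Real.one_lt_rpow h hp0
    linarith
  have h3 : ∑ i, ∑ l ∈ Finset.Ico (-((J + 2 * m : ℕ) : ℤ)) 0, |vlev m l (f i)| ^ p ≤
      cM p m * ∑ i, |f i| ^ p := by
    rw [Finset.mul_sum]
    exact Finset.sum_le_sum fun i _ => lev_sum_le p hp m (J + 2 * m) hm (f i) (hfi i)
  have h4 : cM p m * ∑ i, |f i| ^ p ≤
      ∑ i, ∑ l ∈ Finset.Ico (-((J + 2 * m : ℕ) : ℤ)) 0, |vlev m l (f i)| ^ p +
        cM p m * (N * (2 : ℝ) ^ (-((J : ℝ) * p))) := by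
    rw [Finset.mul_sum]
    refine (Finset.sum_le_sum fun i _ => lev_sum_ge p hp m J hm (f i) (hfi i)).trans_eq ?_
    rw [Finset.sum_add_distrib]
    simp only [Finset.sum_const, Finset.card_univ, Fintype.card_fin, nsmul_eq_mul]
    ring
  rw [abs_le] at h1 ⊢
  constructor <;> linarith [h1.1, h1.2]

end Crest.Agent.R232
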