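import Crest.Agent.R232.Lap

/-! # Row 232, piece OPER: the projection `Π` and `T = 1 - Π`

* `PiOp_isGrad`: `u x = ∑_{e'} (Mm x e'.1 - Mm x e'.2)/d(e') * ν e' * h e'`.
* `TOp_grad`: `Π(grad g)(e) = (1/d(e)) ∑_{e'} ν e'/d(e')² (b_eᵀ M b_{e'}) (g e'.1 - g e'.2)
   = (1/d(e)) ∑_z (M e.1 z - M e.2 z) ∑_w cond z w (g z - g w)` (regroup; this is
   `∑_{e'} ν e'/d² b_{e'} b_{e'}ᵀ = L`), then `Mm_lap`. On the diagonal both sides are 0.
* `PiOp_isSup`: Cauchy-Schwarz with the weights `|G| ν` (row sums `≤ Λ`).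
* `two`: `∑ ν (h - Πh) Πh' = 0` since `Πh' = grad u`, `Π` is symmetric for `∑ ν · ·` (`G_symm`), and
  `Π grad u = grad u`. So `∑ ν h² = ∑ ν (Th)² + ∑ ν (Πh)²`.
* `one`: Fubini and `G_symm`. -/

set_option autoImplicit false

namespace Crest.Agent.R232

variable {V : Type} [Fintype V] [DecidableEq V] (d : V → V → ℝ) (ν : V × V → ℝ)

theorem PiOp_isGrad (h : V × V → ℝ) : ∃ u : V → ℝ, PiOp d ν h = grad d u := by
  refine ⟨fun x => ∑ e' : V × V, (Mm d ν x e'.1 - Mm d ν x e'.2) / d e'.1 e'.2 * ν e' * h e', ?_⟩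
  funext e
  rw [PiOp_apply]
  unfold grad
  rw [← Finset.sum_sub_distrib, Finset.sum_div]
  refine Finset.sum_congr rfl fun e' _ => ?_
  unfold G
  rw [div_mul_eq_div_div_swap]
  ring

theorem TOp_grad (hd : IsDist d) (hν : ∀ e, 0 < ν e) (g : V → ℝ) : TOp d ν (grad d g) = 0 := by
  funext e
  rw [TOp_apply, PiOp_apply, Pi.zero_apply, sub_eq_zero]
  symm
  have h1 : ∀ e' : V × V, G d ν e e' * ν e' * grad d g e' =
      (1 / d e.1 e.2) * ((Mm d ν e.1 e'.1 - Mm d ν e.2 e'.1) *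
          (ν e' / (d e'.1 e'.2) ^ 2 * (g e'.1 - g e'.2)) +
        (Mm d ν e.1 e'.2 - Mm d ν e.2 e'.2) *
          (ν e' / (d e'.1 e'.2) ^ 2 * (g e'.2 - g e'.1))) := by
    intro e'
    unfold G grad
    by_cases h0 : d e'.1 e'.2 = 0
    · simp [h0]
    · by_cases h0' : d e.1 e.2 = 0
      · simp [h0']
      · field_simp
        ring
  simp only [h1]
  rw [← Finset.mul_sum, Finset.sum_add_distrib]
  have h2 : ∑ e' : V × V, (Mm d ν e.1 e'.1 - Mm d ν e.2 e'.1) *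
      (ν e' / (d e'.1 e'.2) ^ 2 * (g e'.1 - g e'.2)) =
      ∑ z, ∑ w, (Mm d ν e.1 z - Mm d ν e.2 z) * (ν (z, w) / (d z w) ^ 2 * (g z - g w)) :=
    Fintype.sum_prod_type _
  have h3 : ∑ e' : V × V, (Mm d ν e.1 e'.2 - Mm d ν e.2 e'.2) *
      (ν e' / (d e'.1 e'.2) ^ 2 * (g e'.2 - g e'.1)) =
      ∑ z, ∑ w, (Mm d ν e.1 z - Mm d ν e.2 z) * (ν (w, z) / (d z w) ^ 2 * (g z - g w)) := by
    rw [Fintype.sum_prod_type_right]
    refine Finset.sum_congr rfl fun z _ => Finset.sum_congr rfl fun w _ => ?_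
    rw [hd.symm z w]
  rw [h2, h3, ← Finset.sum_add_distrib]
  have h4 : ∑ z, (∑ w, (Mm d ν e.1 z - Mm d ν e.2 z) * (ν (z, w) / (d z w) ^ 2 * (g z - g w)) +
      ∑ w, (Mm d ν e.1 z - Mm d ν e.2 z) * (ν (w, z) / (d z w) ^ 2 * (g z - g w))) =
      ∑ z, (Mm d ν e.1 z - Mm d ν e.2 z) * ∑ w, cond d ν z w * (g z - g w) := by
    refine Finset.sum_congr rfl fun z _ => ?_
    rw [← Finset.sum_add_distrib, Finset.mul_sum]
    refine Finset.sum_congr rfl fun w _ => ?_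
    unfold cond
    ring
  rw [h4, Mm_lap d ν hd hν g]
  unfold grad
  ring

set_option linter.unusedVariables false in
theorem PiOp_isSup (hν : ∀ e, 0 < ν e) (Λ : ℝ) (hΛ : 0 ≤ Λ)
    (hb : ∀ e, ∑ e', ν e' * |G d ν e e'| ≤ Λ) : IsSup Λ (PiOp d ν) := by
  constructor
  · intro h B hB e
    have hB0 : 0 ≤ B := (abs_nonneg _).trans (hB e)
    rw [PiOp_apply]
    calc |∑ e', G d ν e e' * ν e' * h e'| ≤ ∑ e', |G d ν e e' * ν e' * h e'| :=
          Finset.abs_sum_le_sum_abs _ _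
      _ ≤ ∑ e', ν e' * |G d ν e e'| * B := by
          refine Finset.sum_le_sum fun e' _ => ?_
          rw [abs_mul, abs_mul, abs_of_pos (hν e'), mul_comm |G d ν e e'|]
          exact mul_le_mul_of_nonneg_left (hB e')
            (mul_nonneg (hν e').le (abs_nonneg _))
      _ = (∑ e', ν e' * |G d ν e e'|) * B := by rw [Finset.sum_mul]
      _ ≤ Λ * B := mul_le_mul_of_nonneg_right (hb e) hB0
  · intro N h B hB e
    have hB0 : 0 ≤ B := (Finset.sum_nonneg fun ω _ => sq_nonneg _).trans (hB e)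
    have h1 : ∀ ω, (PiOp d ν (h ω) e) ^ 2 ≤
        (∑ e', ν e' * |G d ν e e'|) * ∑ e', ν e' * |G d ν e e'| * (h ω e') ^ 2 := by
      intro ω
      rw [PiOp_apply]
      apply Finset.sum_sq_le_sum_mul_sum_of_sq_le_mul
      · intro e' _
        exact mul_nonneg (hν e').le (abs_nonneg _)
      · intro e' _
        exact mul_nonneg (mul_nonneg (hν e').le (abs_nonneg _)) (sq_nonneg _)
      · intro e' _
        apply le_of_eq
        have := sq_abs (G d ν e e')
        calc (G d ν e e' * ν e' * h ω e') ^ 2 = (G d ν e e') ^ 2 * (ν e') ^ 2 * (h ω e') ^ 2 := by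
              ring
          _ = |G d ν e e'| ^ 2 * (ν e') ^ 2 * (h ω e') ^ 2 := by rw [this]
          _ = _ := by ring
    calc ∑ ω, (PiOp d ν (h ω) e) ^ 2 ≤
        ∑ ω, (∑ e', ν e' * |G d ν e e'|) * ∑ e', ν e' * |G d ν e e'| * (h ω e') ^ 2 :=
          Finset.sum_le_sum fun ω _ => h1 ω
      _ = (∑ e', ν e' * |G d ν e e'|) * ∑ e', ν e' * |G d ν e e'| * ∑ ω, (h ω e') ^ 2 := by
          rw [← Finset.mul_sum, Finset.sum_comm]
          congr 1
          refine Finset.sum_congr rfl fun e' _ => ?_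
          rw [Finset.mul_sum]
      _ ≤ (∑ e', ν e' * |G d ν e e'|) * ∑ e', ν e' * |G d ν e e'| * B := by
          refine mul_le_mul_of_nonneg_left (Finset.sum_le_sum fun e' _ => ?_)
            (Finset.sum_nonneg fun e' _ => mul_nonneg (hν e').le (abs_nonneg _))
          exact mul_le_mul_of_nonneg_left (hB e') (mul_nonneg (hν e').le (abs_nonneg _))
      _ = (∑ e', ν e' * |G d ν e e'|) ^ 2 * B := by rw [← Finset.sum_mul]; ring
      _ ≤ Λ ^ 2 * B := by
          refine mul_le_mul_of_nonneg_right ?_ hB0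
          exact pow_le_pow_left₀ (Finset.sum_nonneg fun e' _ =>
            mul_nonneg (hν e').le (abs_nonneg _)) (hb e) 2

theorem PiOp_adj (hd : IsDist d) (hν : ∀ e, 0 < ν e) (h k : V × V → ℝ) :
    ∑ e, ν e * (PiOp d ν h e * k e) = ∑ e, ν e * (h e * PiOp d ν k e) := by
  have h1 : ∑ e, ν e * (PiOp d ν h e * k e) =
      ∑ e, ∑ e', ν e * ν e' * G d ν e e' * h e' * k e := by
    refine Finset.sum_congr rfl fun e _ => ?_
    rw [PiOp_apply, Finset.sum_mul, Finset.mul_sum]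
    exact Finset.sum_congr rfl fun e' _ => by ring
  have h2 : ∑ e, ν e * (h e * PiOp d ν k e) =
      ∑ e, ∑ e', ν e * ν e' * G d ν e e' * k e' * h e := by
    refine Finset.sum_congr rfl fun e _ => ?_
    rw [PiOp_apply, Finset.mul_sum, Finset.mul_sum]
    exact Finset.sum_congr rfl fun e' _ => by ring
  rw [h1, h2, Finset.sum_comm]
  refine Finset.sum_congr rfl fun e _ => Finset.sum_congr rfl fun e' _ => ?_
  rw [G_symm d ν hd hν e' e]
  ring

theorem PiOp_idem (hd : IsDist d) (hν : ∀ e, 0 < ν e) (h : V × V → ℝ) :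
    PiOp d ν (PiOp d ν h) = PiOp d ν h := by
  obtain ⟨u, hu⟩ := PiOp_isGrad d ν h
  have h1 := TOp_grad d ν hd hν u
  rw [← hu] at h1
  funext e
  have h2 := congrFun h1 e
  rw [TOp_apply, Pi.zero_apply] at h2
  linarith

theorem TOp_isT (hd : IsDist d) (hν : ∀ e, 0 < ν e) (Λ : ℝ) (hΛ : 0 ≤ Λ)
    (hb : ∀ e, ∑ e', ν e' * |G d ν e e'| ≤ Λ) : IsT ν (1 + Λ) (TOp d ν) := by
  have hS := PiOp_isSup d ν hν Λ hΛ hb
  refine ⟨hν, by linarith, ⟨?_, ?_⟩, ?_, ?_⟩
  · intro h B hB e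
    rw [TOp_apply]
    have h1 := hS.sup h B hB e
    have h2 := hB e
    calc |h e - PiOp d ν h e| ≤ |h e| + |PiOp d ν h e| := abs_sub _ _
      _ ≤ (1 + Λ) * B := by linarith
  · intro N h B hB e
    have hB0 : 0 ≤ B := (Finset.sum_nonneg fun ω _ => sq_nonneg _).trans (hB e)
    have h1 := hS.supl2 N h B hB e
    have h2 := hB e
    have h3 : (∑ ω, h ω e * PiOp d ν (h ω) e) ^ 2 ≤ (Λ * B) ^ 2 := by
      calc (∑ ω, h ω e * PiOp d ν (h ω) e) ^ 2 ≤
          (∑ ω, (h ω e) ^ 2) * ∑ ω, (PiOp d ν (h ω) e) ^ 2 := Finset.sum_mul_sq_le_sq_mul_sq _ _ _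
        _ ≤ B * (Λ ^ 2 * B) := mul_le_mul h2 h1 (Finset.sum_nonneg fun ω _ => sq_nonneg _) hB0
        _ = (Λ * B) ^ 2 := by ring
    have h4 : |∑ ω, h ω e * PiOp d ν (h ω) e| ≤ Λ * B :=
      abs_le_of_sq_le_sq h3 (mul_nonneg hΛ hB0)
    have h5 : ∑ ω, (TOp d ν (h ω) e) ^ 2 = ∑ ω, (h ω e) ^ 2 -
        2 * ∑ ω, h ω e * PiOp d ν (h ω) e + ∑ ω, (PiOp d ν (h ω) e) ^ 2 := by
      rw [Finset.mul_sum, ← Finset.sum_sub_distrib, ← Finset.sum_add_distrib]
      refine Finset.sum_congr rfl fun ω _ => ?_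
      rw [TOp_apply]
      ring
    rw [h5]
    have h6 := neg_abs_le (∑ ω, h ω e * PiOp d ν (h ω) e)
    nlinarith
  · intro h
    have h1 : ∑ e, ν e * (TOp d ν h e) ^ 2 = ∑ e, ν e * (h e) ^ 2 -
        2 * ∑ e, ν e * (h e * PiOp d ν h e) + ∑ e, ν e * (PiOp d ν h e * PiOp d ν h e) := by
      rw [Finset.mul_sum, ← Finset.sum_sub_distrib, ← Finset.sum_add_distrib]
      refine Finset.sum_congr rfl fun e _ => ?_
      rw [TOp_apply]
      ring
    have h2 : ∑ e, ν e * (PiOp d ν h e * PiOp d ν h e) = ∑ e, ν e * (h e * PiOp d ν h e) := by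
      rw [PiOp_adj d ν hd hν h (PiOp d ν h), PiOp_idem d ν hd hν h]
    have h3 : 0 ≤ ∑ e, ν e * (PiOp d ν h e * PiOp d ν h e) :=
      Finset.sum_nonneg fun e _ => mul_nonneg (hν e).le (mul_self_nonneg _)
    rw [h1]
    linarith
  · intro h
    have h1 : ∑ e, ν e * |PiOp d ν h e| ≤ Λ * ∑ e, ν e * |h e| := by
      calc ∑ e, ν e * |PiOp d ν h e| ≤ ∑ e, ∑ e', ν e' * |h e'| * (ν e * |G d ν e' e|) := by
            refine Finset.sum_le_sum fun e _ => ?_
            rw [PiOp_apply]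
            calc ν e * |∑ e', G d ν e e' * ν e' * h e'| ≤
                ν e * ∑ e', |G d ν e e' * ν e' * h e'| :=
                  mul_le_mul_of_nonneg_left (Finset.abs_sum_le_sum_abs _ _) (hν e).le
              _ = ∑ e', ν e' * |h e'| * (ν e * |G d ν e' e|) := by
                  rw [Finset.mul_sum]
                  refine Finset.sum_congr rfl fun e' _ => ?_
                  rw [abs_mul, abs_mul, abs_of_pos (hν e'), G_symm d ν hd hν e e']
                  ring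
        _ = ∑ e', ν e' * |h e'| * ∑ e, ν e * |G d ν e' e| := by
            rw [Finset.sum_comm]
            exact Finset.sum_congr rfl fun e' _ => by rw [Finset.mul_sum]
        _ ≤ ∑ e', ν e' * |h e'| * Λ :=
            Finset.sum_le_sum fun e' _ => mul_le_mul_of_nonneg_left (hb e')
              (mul_nonneg (hν e').le (abs_nonneg _))
        _ = Λ * ∑ e, ν e * |h e| := by rw [← Finset.sum_mul]; ring
    calc ∑ e, ν e * |TOp d ν h e| ≤ ∑ e, (ν e * |h e| + ν e * |PiOp d ν h e|) := by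
          refine Finset.sum_le_sum fun e _ => ?_
          rw [TOp_apply, ← mul_add]
          exact mul_le_mul_of_nonneg_left (abs_sub _ _) (hν e).le
      _ = ∑ e, ν e * |h e| + ∑ e, ν e * |PiOp d ν h e| := Finset.sum_add_distrib
      _ ≤ (1 + Λ) * ∑ e, ν e * |h e| := by linarith

end Crest.Agent.R232
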