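import Crest.Agent.R232.Err
import Crest.Agent.R232.MainSum
import Crest.Agent.R232.Bad
import Crest.Agent.R232.BddX
import Crest.Agent.R232.Oper

/-! # Row 232, piece AVG: the averaged embedding (assembly of the random construction)

`f ω = grad d (z ω)`, `T = TOp d ν`, `P = PiOp d ν`, `T (f ω) = 0` (`TOp_grad`), `IsT ν (1+Λ) T`,
`IsSup Λ P`. Levels `l ∈ Ico (-(J+2m)) 0`, `δ_l = 2^{lp} ∈ [0,1]`. `P (v_l ω) = grad d (F l ω)`
(`PiOp_isGrad`). Put `c = cM p m`, `Ln = J+2m`, `R = (Ln/c)^{1/p}`, `B = Λ 2^{2m}`,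
`S_l(e,η) = rs (fun ω => 2^{-l} P(v_l ω) e) η`, `Z_l` the same with `v_l ω e`, `R_l` with `T(v_l ω) e`;
`S_l = Z_l - R_l` (`rs_sub`, `TOp_apply`).
`good_l η := ∀ e, |S_l(e,η)| ≤ t B`. `φ_{l,η} = if good then R * ∑_ω η_ω 2^{-l} F l ω else 0`; its
gradient is `R S_l(·,η)` or `0`, so it is `R t B`-Lipschitz (on the diagonal trivially).
`w = ∑_l ∑_η (1/Ln) (∏ wt δ_l (η i)) • (|grad φ_{l,η}|^p)` is a convex combination
(`Convex.sum_mem` / `convex_convexHull`), and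
`w e = (1/c) ∑_l Ex δ_l (if good then |S_l|^p else 0)`.
`|w e - t e| ≤ (1/c) ∑_l Ex(if good then 0 else |S_l|^p) + (1/c) ∑_l |Ex|S_l|^p - Ex|Z_l|^p|
   + |(1/c) ∑_l Ex|Z_l|^p - t e|`, `t e = ∑_ω |f ω e|^p ≤ 1`:
1st: `bad_event` with `bddx` (`Ln` terms); 2nd: `pert` with `θ` (constant `Cθ`):
`≤ θ (1/c)∑ Ex|Z_l|^p + Cθ (1/c) ∑ Ex|R_l|^p`; 3rd: `main_sum'`: `≤ C/c + N 2^{-Jp}`; the same
bound from above, `(1/c)∑_l Ex|Z_l|^p ≤ 1 + C/c` (use `main_sum` and `lev_sum_le`).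
Sum with `ν₀ ≤ ν` and use `err`: `∑_e ν₀ (1/c) ∑_l Ex |R_l|^p ≤ (1/c) C (1+Λ)^γ ∑ ν`. -/

set_option autoImplicit false

namespace Crest.Agent.R232

theorem cM_pos (p : ℝ) (hp : 1 < p) (m : ℕ) (hm : 1 ≤ m) : 0 < cM p m :=
  lt_of_lt_of_le (mul_pos (Real.rpow_pos_of_pos (by norm_num) _) (by exact_mod_cast hm))
    (cM_ge p hp m hm)

/-- the gradient of a random combination of potentials -/
theorem grad_comb {V : Type} (d : V → V → ℝ) {N : ℕ} (R s : ℝ) (F : Fin N → V → ℝ)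
    (η : Fin N → SignType) (e : V × V) :
    grad d (fun x => R * rs (fun ω => s * F ω x) η) e =
      R * rs (fun ω => s * grad d (F ω) e) η := by
  unfold grad
  have : rs (fun ω => s * ((F ω e.1 - F ω e.2) / d e.1 e.2)) η =
      (rs (fun ω => s * F ω e.1) η - rs (fun ω => s * F ω e.2) η) / d e.1 e.2 := by
    unfold rs
    rw [← Finset.sum_sub_distrib, Finset.sum_div]
    exact Finset.sum_congr rfl fun ω _ => by ring
  rw [this]; ring

theorem avg_param (p : ℝ) (hp : 1 < p) (hp2 : p ≠ 2) :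
    ∃ C : ℝ, 0 ≤ C ∧ ∀ θ : ℝ, 0 < θ → ∃ Cθ : ℝ, 0 ≤ Cθ ∧
      ∀ (V : Type) [Fintype V] [DecidableEq V] [Nonempty V] (d : V → V → ℝ), IsDist d →
      ∀ (N : ℕ) (z : Fin N → V → ℝ), (∀ e, ∑ ω, |grad d (z ω) e| ^ p ≤ 1) →
      ∀ (ν : V × V → ℝ), (∀ e, 0 < ν e) → ∑ e, ν e ≤ 3 →
      ∀ Λ : ℝ, 1 ≤ Λ → (∀ e, ∑ e', ν e' * |G d ν e e'| ≤ Λ) →
      ∀ ν₀ : V × V → ℝ, (∀ e, 0 ≤ ν₀ e) → (∀ e, ν₀ e ≤ ν e) → ∑ e, ν₀ e = 1 →
      ∀ (m J : ℕ) (t : ℝ), 1 ≤ m → (1 + Λ) ^ gam p ≤ m → 0 ≤ t →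
      ∃ w ∈ convexHull ℝ (Wset p d
          ((((J + 2 * m : ℕ) : ℝ) / cM p m) ^ (1 / p) * (t * (Λ * 2 ^ (2 * m))))),
        ∑ e, ν₀ e * |w e - ∑ ω, |grad d (z ω) e| ^ p| ≤
          θ * (1 + C / cM p m) + Cθ * (1 + Λ) ^ gam p / cM p m + C / cM p m
            + N * (2 : ℝ) ^ (-((J : ℝ) * p))
            + (((J + 2 * m : ℕ) : ℝ) / cM p m) * (C * Fintype.card (V × V) *
                (Λ * 2 ^ (2 * m)) ^ p * Real.exp (-(t / 2))) := by
  classical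
  obtain ⟨C1, hC1, herr⟩ := err p hp hp2
  obtain ⟨C2, hC2, hmain⟩ := main_sum' p hp
  obtain ⟨C2', hC2', hmainS⟩ := main_sum p hp
  obtain ⟨C3, hC3, hbad⟩ := bad_event p hp
  refine ⟨C2 + C2' + C3, by positivity, fun θ hθ => ?_⟩
  obtain ⟨C4, hC4, hpert⟩ := pert p hp θ hθ
  refine ⟨3 * C4 * C1, by positivity, ?_⟩
  intro V _ _ _ d hd N z hz ν hν hνs Λ hΛ hb ν₀ hν0 hν0ν hν01 m J t hm hγ ht
  have hp0 : 0 < p := by linarith
  have hΛ0 : 0 ≤ Λ := by linarith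
  have hT := TOp_isT d ν hd hν Λ hΛ0 hb
  have hP := PiOp_isSup d ν hν Λ hΛ0 hb
  obtain ⟨Ln, hLn⟩ : ∃ Ln : ℕ, Ln = J + 2 * m := ⟨_, rfl⟩
  have hLn1 : 1 ≤ Ln := by omega
  have hLnpos : (0 : ℝ) < Ln := by exact_mod_cast hLn1
  set 𝓛 : Finset ℤ := Finset.Ico (-(Ln : ℤ)) 0 with h𝓛
  have hcard : (𝓛.card : ℝ) = Ln := by
    rw [h𝓛, Int.card_Ico]; simp
  have hc := cM_pos p hp m hm
  set c := cM p m with hcdef
  set B : ℝ := Λ * 2 ^ (2 * m) with hBdef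
  have hBpos : 0 < B := by positivity
  set δ : ℤ → ℝ := fun l => (2 : ℝ) ^ ((l : ℝ) * p) with hδ
  have hδ0 : ∀ l, 0 ≤ δ l := fun l => by positivity
  have hδ1 : ∀ l ∈ 𝓛, δ l ≤ 1 := by
    intro l hl
    rw [h𝓛, Finset.mem_Ico] at hl
    apply Real.rpow_le_one_of_one_le_of_nonpos (by norm_num)
    have : (l : ℝ) ≤ 0 := by exact_mod_cast hl.2.le
    nlinarith
  set f : Fin N → V × V → ℝ := fun ω => grad d (z ω) with hf
  set v : ℤ → Fin N → V × V → ℝ := fun l ω e => vlev m l (f ω e) with hv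
  set X : ℤ → V × V → Fin N → ℝ := fun l e ω => (2 : ℝ) ^ (-(l : ℝ)) * PiOp d ν (v l ω) e with hX
  set Zx : ℤ → V × V → Fin N → ℝ := fun l e ω => (2 : ℝ) ^ (-(l : ℝ)) * v l ω e with hZx
  set Rx : ℤ → V × V → Fin N → ℝ := fun l e ω => (2 : ℝ) ^ (-(l : ℝ)) * TOp d ν (v l ω) e with hRx
  have hXZR : ∀ l e η, rs (X l e) η = rs (Zx l e) η + -rs (Rx l e) η := by
    intro l e η
    have : X l e = fun ω => Zx l e ω - Rx l e ω := by
      funext ω; simp only [hX, hZx, hRx, TOp_apply]; ring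
    rw [this, rs_sub]; ring
  have hFex : ∀ l ω, ∃ u : V → ℝ, PiOp d ν (v l ω) = grad d u := fun l ω => PiOp_isGrad d ν _
  choose F hF using hFex
  obtain ⟨R, hR⟩ : ∃ R : ℝ, R = ((Ln : ℝ) / c) ^ (1 / p) := ⟨_, rfl⟩
  have hR0 : 0 ≤ R := by rw [hR]; positivity
  have hRp : R ^ p = Ln / c := by
    rw [hR, ← Real.rpow_mul (by positivity)]
    rw [one_div, inv_mul_cancel₀ hp0.ne', Real.rpow_one]
  set φ : ℤ → (Fin N → SignType) → V → ℝ := fun l η =>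
    if (∀ e, |rs (X l e) η| ≤ t * B) then
      (fun x => R * rs (fun ω => (2 : ℝ) ^ (-(l : ℝ)) * F l ω x) η) else 0 with hφ
  have hgrad : ∀ l η e, grad d (φ l η) e =
      if (∀ e, |rs (X l e) η| ≤ t * B) then R * rs (X l e) η else 0 := by
    intro l η e
    simp only [hφ]
    split_ifs with h
    · rw [grad_comb]
      simp only [hX, hF]
    · simp [grad]
  have hlip : ∀ l η, ∀ i j, |φ l η i - φ l η j| ≤ (R * (t * B)) * d i j := by
    intro l η i j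
    by_cases hij : i = j
    · subst hij; simp [hd.diag]
    have hdp := hd.pos i j hij
    have h1 : |grad d (φ l η) (i, j)| ≤ R * (t * B) := by
      rw [hgrad]
      split_ifs with h
      · rw [abs_mul, abs_of_nonneg hR0]
        exact mul_le_mul_of_nonneg_left (h (i, j)) hR0
      · simp only [abs_zero]; positivity
    unfold grad at h1
    rw [abs_div, abs_of_pos hdp, div_le_iff₀ hdp] at h1
    exact h1
  set W := Wset p d ((((J + 2 * m : ℕ) : ℝ) / c) ^ (1 / p) * (t * B)) with hW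
  have hWmem : ∀ l η, (fun e => |grad d (φ l η) e| ^ p) ∈ W := by
    intro l η
    rw [hW, ← hLn, ← hR]
    exact ⟨φ l η, hlip l η, fun e => rfl⟩
  set g : ℤ → (Fin N → SignType) → V × V → ℝ := fun l η e => |grad d (φ l η) e| ^ p with hg
  set wl : ℤ → V × V → ℝ := fun l => ∑ η : Fin N → SignType, (∏ i, wt (δ l) (η i)) • g l η with hwl
  have hwl_mem : ∀ l ∈ 𝓛, wl l ∈ convexHull ℝ W := by
    intro l hl
    refine (convex_convexHull ℝ W).sum_mem (fun η _ => wprod_nonneg (hδ0 l) (hδ1 l hl) η)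
      (wprod_sum N (δ l)) (fun η _ => subset_convexHull ℝ W (hWmem l η))
  refine ⟨∑ l ∈ 𝓛, (1 / (Ln : ℝ)) • wl l, ?_, ?_⟩
  · refine (convex_convexHull ℝ W).sum_mem (fun l _ => by positivity) ?_ hwl_mem
    rw [Finset.sum_const, nsmul_eq_mul, hcard]
    field_simp
  -- the value of `w`
  set good : ℤ → (Fin N → SignType) → Prop := fun l η => ∀ e, |rs (X l e) η| ≤ t * B with hgood
  set Sp : ℤ → V × V → ℝ := fun l e => Ex (δ l) (fun η => |rs (X l e) η| ^ p) with hSp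
  set Zp : ℤ → V × V → ℝ := fun l e => Ex (δ l) (fun η => |rs (Zx l e) η| ^ p) with hZp
  set Rp : ℤ → V × V → ℝ := fun l e => Ex (δ l) (fun η => |rs (Rx l e) η| ^ p) with hRp'
  set Bp : ℤ → V × V → ℝ := fun l e => Ex (δ l) (fun η =>
    if (∀ e', |rs (X l e') η| ≤ t * B) then 0 else |rs (X l e) η| ^ p) with hBp
  have hwval : ∀ e, (∑ l ∈ 𝓛, (1 / (Ln : ℝ)) • wl l) e = (1 / c) * ∑ l ∈ 𝓛, (Sp l e - Bp l e) := by
    intro e
    rw [Finset.sum_apply, Finset.mul_sum]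
    refine Finset.sum_congr rfl fun l _ => ?_
    have h1 : wl l e = (Ln / c) * (Sp l e - Bp l e) := by
      simp only [hwl, hSp, hBp]
      rw [Finset.sum_apply, ← Ex_sub, ← Ex_const_mul]
      unfold Ex
      refine Finset.sum_congr rfl fun η _ => ?_
      simp only [Pi.smul_apply, smul_eq_mul]
      congr 1
      simp only [hg, hgrad]
      split_ifs with h
      · rw [abs_mul, abs_of_nonneg hR0, Real.mul_rpow hR0 (abs_nonneg _), hRp, sub_zero]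
      · rw [abs_zero, Real.zero_rpow hp0.ne', sub_self, mul_zero]
    rw [Pi.smul_apply, smul_eq_mul, h1]
    field_simp
  -- estimates for one `e`
  obtain ⟨te, hte⟩ : ∃ te : V × V → ℝ, ∀ e, te e = ∑ ω, |grad d (z ω) e| ^ p := ⟨_, fun e => rfl⟩
  have hSZ : ∀ l ∈ 𝓛, ∀ e, |Sp l e - Zp l e| ≤ θ * Zp l e + C4 * Rp l e := by
    intro l hl e
    simp only [hSp, hZp, hRp']
    rw [← Ex_sub, ← Ex_const_mul, ← Ex_const_mul, ← Ex_add]
    refine (abs_Ex_le (hδ0 l) (hδ1 l hl) _).trans (Ex_mono (hδ0 l) (hδ1 l hl) fun η => ?_)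
    have := hpert (rs (Zx l e) η) (-rs (Rx l e) η)
    rw [hXZR]
    rw [abs_neg] at this
    exact this
  have hZ1 : ∀ e, |∑ l ∈ 𝓛, Zp l e - c * te e| ≤ C2 + c * (N * (2 : ℝ) ^ (-((J : ℝ) * p))) := by
    intro e
    have := hmain N (fun ω => f ω e) (hz e) m J hm
    rw [← hLn] at this
    rw [hte]
    exact this
  have hZ2 : ∀ e, ∑ l ∈ 𝓛, Zp l e ≤ C2' + c := by
    intro e
    have h1 := hmainS N (fun ω => f ω e) (hz e) m Ln hm
    have h2 := (abs_le.1 h1).2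
    rw [Finset.sum_sub_distrib] at h2
    have h3 : ∑ l ∈ 𝓛, ∑ i, |vlev m l (f i e)| ^ p ≤ c := by
      rw [Finset.sum_comm]
      calc ∑ i, ∑ l ∈ 𝓛, |vlev m l (f i e)| ^ p ≤ ∑ i, c * |f i e| ^ p := by
            refine Finset.sum_le_sum fun i _ => ?_
            refine lev_sum_le p hp m Ln hm (f i e) ?_
            -- |f i e| ≤ 1
            have h4 : |f i e| ^ p ≤ 1 := by
              refine le_trans ?_ (hz e)
              exact Finset.single_le_sum (f := fun ω => |grad d (z ω) e| ^ p)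
                (fun j _ => by positivity) (Finset.mem_univ i)
            by_contra h5
            push Not at h5
            have := Real.one_lt_rpow h5 hp0
            linarith
        _ = c * ∑ i, |f i e| ^ p := by rw [Finset.mul_sum]
        _ ≤ c * 1 := mul_le_mul_of_nonneg_left (hz e) hc.le
        _ = c := mul_one c
    have h5 : ∑ l ∈ 𝓛, Zp l e ≤ C2' + ∑ l ∈ 𝓛, ∑ i, |vlev m l (f i e)| ^ p := by
      have : ∑ l ∈ 𝓛, Zp l e - ∑ l ∈ 𝓛, ∑ i, |vlev m l (f i e)| ^ p ≤ C2' := h2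
      linarith
    linarith
  have hBpb : ∀ l ∈ 𝓛, ∀ e, Bp l e ≤ C3 * Fintype.card (V × V) * B ^ p * Real.exp (-(t / 2)) := by
    intro l hl e
    have hbdd : ∀ e, _ := fun e => bddx p hp Λ hΛ0 (PiOp d ν) hP N f hz m l e
    have h1 := hbad (V × V) N (δ l) (hδ0 l) (hδ1 l hl) (X l) B hBpos
      (fun e i => (hbdd e).1 i) (fun e => (hbdd e).2) t ht e
    simp only [hBp]
    convert h1 using 2
  have hBp0 : ∀ l ∈ 𝓛, ∀ e, 0 ≤ Bp l e := by
    intro l hl e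
    refine Ex_nonneg (hδ0 l) (hδ1 l hl) fun η => ?_
    split_ifs
    · exact le_refl _
    · positivity
  have hRp0 : ∀ l ∈ 𝓛, ∀ e, 0 ≤ Rp l e := fun l hl e =>
    Ex_nonneg (hδ0 l) (hδ1 l hl) fun η => by positivity
  set bd : ℝ := C3 * Fintype.card (V × V) * B ^ p * Real.exp (-(t / 2)) with hbd
  have hone : ∀ e, |(∑ l ∈ 𝓛, (1 / (Ln : ℝ)) • wl l) e - te e| ≤
      (Ln / c) * bd + θ * (1 + C2' / c) + (C4 / c) * ∑ l ∈ 𝓛, Rp l e + (C2 / c
        + N * (2 : ℝ) ^ (-((J : ℝ) * p))) := by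
    intro e
    rw [hwval]
    have e1 : (1 / c) * ∑ l ∈ 𝓛, (Sp l e - Bp l e) - te e =
        -((1 / c) * ∑ l ∈ 𝓛, Bp l e) + (1 / c) * ∑ l ∈ 𝓛, (Sp l e - Zp l e)
          + (1 / c) * (∑ l ∈ 𝓛, Zp l e - c * te e) := by
      rw [Finset.sum_sub_distrib, Finset.sum_sub_distrib]
      field_simp
      ring
    rw [e1]
    have hc1 : 0 ≤ 1 / c := by positivity
    have b1 : |-((1 / c) * ∑ l ∈ 𝓛, Bp l e)| ≤ (Ln / c) * bd := by
      rw [abs_neg, abs_of_nonneg (mul_nonneg hc1 (Finset.sum_nonneg fun l hl => hBp0 l hl e))]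
      calc (1 / c) * ∑ l ∈ 𝓛, Bp l e ≤ (1 / c) * ∑ l ∈ 𝓛, bd :=
            mul_le_mul_of_nonneg_left (Finset.sum_le_sum fun l hl => hBpb l hl e) hc1
        _ = (Ln / c) * bd := by
            rw [Finset.sum_const, nsmul_eq_mul, hcard]; ring
    have b2 : |(1 / c) * ∑ l ∈ 𝓛, (Sp l e - Zp l e)| ≤
        θ * (1 + C2' / c) + (C4 / c) * ∑ l ∈ 𝓛, Rp l e := by
      rw [abs_mul, abs_of_nonneg hc1]
      calc (1 / c) * |∑ l ∈ 𝓛, (Sp l e - Zp l e)|
          ≤ (1 / c) * ∑ l ∈ 𝓛, (θ * Zp l e + C4 * Rp l e) :=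
            mul_le_mul_of_nonneg_left ((Finset.abs_sum_le_sum_abs _ _).trans
              (Finset.sum_le_sum fun l hl => hSZ l hl e)) hc1
        _ = (1 / c) * θ * ∑ l ∈ 𝓛, Zp l e + (C4 / c) * ∑ l ∈ 𝓛, Rp l e := by
            rw [Finset.sum_add_distrib, ← Finset.mul_sum, ← Finset.mul_sum]; ring
        _ ≤ (1 / c) * θ * (C2' + c) + (C4 / c) * ∑ l ∈ 𝓛, Rp l e := by
            gcongr
            exact hZ2 e
        _ = θ * (1 + C2' / c) + (C4 / c) * ∑ l ∈ 𝓛, Rp l e := by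
            field_simp; ring
    have b3 : |(1 / c) * (∑ l ∈ 𝓛, Zp l e - c * te e)| ≤
        C2 / c + N * (2 : ℝ) ^ (-((J : ℝ) * p)) := by
      rw [abs_mul, abs_of_nonneg hc1]
      calc (1 / c) * |∑ l ∈ 𝓛, Zp l e - c * te e|
          ≤ (1 / c) * (C2 + c * (N * (2 : ℝ) ^ (-((J : ℝ) * p)))) :=
            mul_le_mul_of_nonneg_left (hZ1 e) hc1
        _ = C2 / c + N * (2 : ℝ) ^ (-((J : ℝ) * p)) := by
            field_simp
    calc _ ≤ |-((1 / c) * ∑ l ∈ 𝓛, Bp l e) + (1 / c) * ∑ l ∈ 𝓛, (Sp l e - Zp l e)|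
          + |(1 / c) * (∑ l ∈ 𝓛, Zp l e - c * te e)| := abs_add_le _ _
      _ ≤ |-((1 / c) * ∑ l ∈ 𝓛, Bp l e)| + |(1 / c) * ∑ l ∈ 𝓛, (Sp l e - Zp l e)|
          + |(1 / c) * (∑ l ∈ 𝓛, Zp l e - c * te e)| := by
          gcongr; exact abs_add_le _ _
      _ ≤ _ := by linarith
  -- sum over `e`
  have hRsum : ∑ e, ν₀ e * ((C4 / c) * ∑ l ∈ 𝓛, Rp l e) ≤ 3 * C4 * C1 * (1 + Λ) ^ gam p / c := by
    have h1 : ∑ l ∈ 𝓛, ∑ e, ν e * Rp l e ≤ C1 * (1 + Λ) ^ gam p * ∑ e, ν e :=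
      herr (V × V) ν (1 + Λ) (TOp d ν) hT N f (fun ω => TOp_grad d ν hd hν (z ω)) hz m Ln hm hγ
    calc ∑ e, ν₀ e * ((C4 / c) * ∑ l ∈ 𝓛, Rp l e)
        = (C4 / c) * ∑ l ∈ 𝓛, ∑ e, ν₀ e * Rp l e := by
          rw [Finset.sum_comm, Finset.mul_sum]
          refine Finset.sum_congr rfl fun e _ => ?_
          rw [Finset.mul_sum, Finset.mul_sum, Finset.mul_sum]
          refine Finset.sum_congr rfl fun l _ => ?_
          ring
      _ ≤ (C4 / c) * ∑ l ∈ 𝓛, ∑ e, ν e * Rp l e := by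
          refine mul_le_mul_of_nonneg_left (Finset.sum_le_sum fun l hl =>
            Finset.sum_le_sum fun e _ => mul_le_mul_of_nonneg_right (hν0ν e) (hRp0 l hl e))
            (by positivity)
      _ ≤ (C4 / c) * (C1 * (1 + Λ) ^ gam p * 3) := by
          refine mul_le_mul_of_nonneg_left (h1.trans ?_) (by positivity)
          refine mul_le_mul_of_nonneg_left hνs ?_
          have : 0 ≤ (1 + Λ) ^ gam p := by positivity
          positivity
      _ = 3 * C4 * C1 * (1 + Λ) ^ gam p / c := by ring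
  have hbd0 : 0 ≤ bd := by positivity
  calc ∑ e, ν₀ e * |(∑ l ∈ 𝓛, (1 / (Ln : ℝ)) • wl l) e - ∑ ω, |grad d (z ω) e| ^ p|
      ≤ ∑ e, ν₀ e * ((Ln / c) * bd + θ * (1 + C2' / c) + (C4 / c) * ∑ l ∈ 𝓛, Rp l e + (C2 / c
        + N * (2 : ℝ) ^ (-((J : ℝ) * p)))) := by
        refine Finset.sum_le_sum fun e _ => mul_le_mul_of_nonneg_left ?_ (hν0 e)
        rw [← hte e]; exact hone e
    _ = ((Ln / c) * bd + θ * (1 + C2' / c) + (C2 / c + N * (2 : ℝ) ^ (-((J : ℝ) * p)))) *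
          ∑ e, ν₀ e + ∑ e, ν₀ e * ((C4 / c) * ∑ l ∈ 𝓛, Rp l e) := by
        rw [Finset.mul_sum, ← Finset.sum_add_distrib]
        refine Finset.sum_congr rfl fun e _ => ?_
        ring
    _ ≤ ((Ln / c) * bd + θ * (1 + C2' / c) + (C2 / c + N * (2 : ℝ) ^ (-((J : ℝ) * p)))) +
          3 * C4 * C1 * (1 + Λ) ^ gam p / c := by
        rw [hν01, mul_one]; linarith
    _ ≤ _ := by
        rw [← hLn]
        have q1 : θ * (1 + C2' / c) ≤ θ * (1 + (C2 + C2' + C3) / c) := by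
          gcongr; linarith
        have q2 : C2 / c ≤ (C2 + C2' + C3) / c := by
          gcongr; linarith
        have q3 : (Ln / c) * bd ≤ ((Ln : ℝ) / c) * ((C2 + C2' + C3) * Fintype.card (V × V) *
                B ^ p * Real.exp (-(t / 2))) := by
          refine mul_le_mul_of_nonneg_left ?_ (by positivity)
          rw [hbd]
          gcongr
          linarith
        linarith

end Crest.Agent.R232
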