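import Crest.Agent.R232.Defs

/-! # Row 232, piece BINS: dyadic bins and geometric sums over bins

`bin a = Int.log 2 |a|` (`Int.zpow_log_le_self`, `Int.lt_zpow_succ_log_self`, `Real.rpow_intCast`).
`geom_below`: `∑_{i ∈ S, i < bin a} 2^{is} ≤ ∑_{k ≥ 1} 2^{(bin a - k)s} = 2^{s bin a}/(2^s-1)`.
`geom_above`: `∑_{i ∈ S, bin a ≤ i} 2^{-is} ≤ 2^{-s bin a}/(1-2^{-s})` and `2^{bin a} ≥ |a|/2`.
(Finite sums: e.g. compare with a `Finset.range` sum, or use that a finite partial sum of a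
summable nonnegative family is `≤` tsum.) -/

set_option autoImplicit false

namespace Crest.Agent.R232

theorem bin_le {a : ℝ} (ha : a ≠ 0) : (2 : ℝ) ^ ((bin a : ℤ) : ℝ) ≤ |a| := by
  rw [Real.rpow_intCast]
  have h := Int.zpow_log_le_self (b := 2) (by norm_num) (abs_pos.2 ha)
  exact_mod_cast h

theorem lt_bin {a : ℝ} (ha : a ≠ 0) : |a| < (2 : ℝ) ^ (((bin a : ℤ) : ℝ) + 1) := by
  have h := Int.lt_zpow_succ_log_self (b := 2) (by norm_num) |a|
  have h2 : (2 : ℝ) ^ (((bin a : ℤ) : ℝ) + 1) = (2 : ℝ) ^ (bin a + 1 : ℤ) := by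
    rw [← Real.rpow_intCast]; push_cast; rfl
  rw [h2]
  exact_mod_cast h

theorem bin_nonpos {a : ℝ} (ha : |a| ≤ 1) : bin a ≤ 0 := by
  rcases eq_or_ne a 0 with h | h
  · subst h
    unfold bin
    rw [abs_zero, Int.log_of_right_le_zero _ le_rfl]
  · by_contra hb
    have h1 : 1 ≤ bin a := by omega
    have h2 := bin_le h
    have h3 : (2 : ℝ) ≤ (2 : ℝ) ^ ((bin a : ℤ) : ℝ) := by
      conv_lhs => rw [← Real.rpow_one 2]
      exact Real.rpow_le_rpow_of_exponent_le (by norm_num) (by exact_mod_cast h1)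
    linarith

/-- a geometric sum over a finite set injected into `ℕ` -/
theorem bins_geom (q : ℝ) (h0 : 0 ≤ q) (h1 : q < 1) (T : Finset ℤ) (f : ℤ → ℕ)
    (hf : ∀ i ∈ T, ∀ j ∈ T, f i = f j → i = j) : ∑ i ∈ T, q ^ f i ≤ 1 / (1 - q) := by
  have h2 : ∑ i ∈ T, q ^ f i = ∑ k ∈ T.image f, q ^ k := by
    rw [Finset.sum_image]
    exact fun i hi j hj h => hf i hi j hj h
  rw [h2, one_div, ← tsum_geometric_of_lt_one h0 h1]
  exact (summable_geometric_of_lt_one h0 h1).sum_le_tsum _ fun k _ => by positivity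

theorem geom_below (s : ℝ) (hs : 0 < s) :
    ∃ C : ℝ, 0 ≤ C ∧ ∀ (S : Finset ℤ) (a : ℝ), a ≠ 0 →
      ∑ i ∈ S.filter (fun i => i < bin a), (2 : ℝ) ^ ((i : ℝ) * s) ≤ C * |a| ^ s := by
  have hq1 : (2 : ℝ) ^ (-s) < 1 := Real.rpow_lt_one_of_one_lt_of_neg (by norm_num) (by linarith)
  have hq0 : 0 < (2 : ℝ) ^ (-s) := by positivity
  refine ⟨1 / (1 - (2 : ℝ) ^ (-s)), by
    have : 0 < 1 - (2 : ℝ) ^ (-s) := by linarith
    positivity, ?_⟩
  intro S a ha
  have h1 : ∀ i ∈ S.filter (fun i => i < bin a), (2 : ℝ) ^ ((i : ℝ) * s) =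
      (2 : ℝ) ^ ((bin a : ℝ) * s) * ((2 : ℝ) ^ (-s)) ^ ((bin a - i).toNat) := by
    intro i hi
    have hi' : i < bin a := (Finset.mem_filter.1 hi).2
    have h2 : (((bin a - i).toNat : ℕ) : ℝ) = (bin a : ℝ) - i := by
      have : (((bin a - i).toNat : ℕ) : ℤ) = bin a - i := Int.toNat_of_nonneg (by omega)
      exact_mod_cast this
    rw [← Real.rpow_natCast, ← Real.rpow_mul (by norm_num), ← Real.rpow_add (by norm_num), h2]
    congr 1; ring
  rw [Finset.sum_congr rfl h1, ← Finset.mul_sum]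
  have h3 := bins_geom _ hq0.le hq1 (S.filter (fun i => i < bin a)) (fun i => (bin a - i).toNat)
    (by
      intro i hi j hj hij
      have hi' : i < bin a := (Finset.mem_filter.1 hi).2
      have hj' : j < bin a := (Finset.mem_filter.1 hj).2
      omega)
  have h4 : (2 : ℝ) ^ ((bin a : ℝ) * s) ≤ |a| ^ s := by
    rw [Real.rpow_mul (by norm_num)]
    exact Real.rpow_le_rpow (by positivity) (bin_le ha) hs.le
  calc _ ≤ |a| ^ s * (1 / (1 - (2 : ℝ) ^ (-s))) :=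
        mul_le_mul h4 h3 (Finset.sum_nonneg fun _ _ => by positivity) (by positivity)
    _ = _ := by ring

theorem geom_above (s : ℝ) (hs : 0 < s) :
    ∃ C : ℝ, 0 ≤ C ∧ ∀ (S : Finset ℤ) (a : ℝ), a ≠ 0 →
      ∑ i ∈ S.filter (fun i => bin a ≤ i), (2 : ℝ) ^ (-((i : ℝ) * s)) ≤ C * |a| ^ (-s) := by
  have hq1 : (2 : ℝ) ^ (-s) < 1 := Real.rpow_lt_one_of_one_lt_of_neg (by norm_num) (by linarith)
  have hq0 : 0 < (2 : ℝ) ^ (-s) := by positivity
  have hq2 : 0 < 1 - (2 : ℝ) ^ (-s) := by linarith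
  refine ⟨(2 : ℝ) ^ s * (1 / (1 - (2 : ℝ) ^ (-s))), by positivity, ?_⟩
  intro S a ha
  have h1 : ∀ i ∈ S.filter (fun i => bin a ≤ i), (2 : ℝ) ^ (-((i : ℝ) * s)) =
      (2 : ℝ) ^ (-((bin a : ℝ) * s)) * ((2 : ℝ) ^ (-s)) ^ ((i - bin a).toNat) := by
    intro i hi
    have hi' : bin a ≤ i := (Finset.mem_filter.1 hi).2
    have h2 : (((i - bin a).toNat : ℕ) : ℝ) = (i : ℝ) - bin a := by
      have : (((i - bin a).toNat : ℕ) : ℤ) = i - bin a := Int.toNat_of_nonneg (by omega)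
      exact_mod_cast this
    rw [← Real.rpow_natCast, ← Real.rpow_mul (by norm_num), ← Real.rpow_add (by norm_num), h2]
    congr 1; ring
  rw [Finset.sum_congr rfl h1, ← Finset.mul_sum]
  have h3 := bins_geom _ hq0.le hq1 (S.filter (fun i => bin a ≤ i)) (fun i => (i - bin a).toNat)
    (by
      intro i hi j hj hij
      have hi' : bin a ≤ i := (Finset.mem_filter.1 hi).2
      have hj' : bin a ≤ j := (Finset.mem_filter.1 hj).2
      omega)
  have ha' : 0 < |a| := abs_pos.2 ha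
  have h4 : (2 : ℝ) ^ (-((bin a : ℝ) * s)) ≤ (2 : ℝ) ^ s * |a| ^ (-s) := by
    have h5 : |a| * (2 : ℝ) ^ (-(1 : ℝ)) ≤ (2 : ℝ) ^ ((bin a : ℤ) : ℝ) := by
      have h6 := lt_bin ha
      rw [Real.rpow_add (by norm_num), Real.rpow_one] at h6
      rw [Real.rpow_neg_one]
      linarith
    have h6 := Real.rpow_le_rpow_of_nonpos (by positivity) h5 (by linarith : -s ≤ 0)
    rw [Real.mul_rpow ha'.le (by positivity), ← Real.rpow_mul (by norm_num),
      ← Real.rpow_mul (by norm_num)] at h6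
    have h7 : ((bin a : ℤ) : ℝ) * -s = -((bin a : ℝ) * s) := by ring
    have h8 : -(1 : ℝ) * -s = s := by ring
    rw [h7, h8] at h6
    linarith
  calc _ ≤ (2 : ℝ) ^ s * |a| ^ (-s) * (1 / (1 - (2 : ℝ) ^ (-s))) :=
        mul_le_mul h4 h3 (Finset.sum_nonneg fun _ _ => by positivity) (by positivity)
    _ = _ := by ring

end Crest.Agent.R232
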