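import Crest.Agent.R232.TwoPoint

/-! # Row 232, piece DISS: entropy dissipation of one lazy heat step

Write `R x y = 2 δ c x y / π x + (if x = y then 1 - 2 δ (∑ z, c x z) / π x else 0) ≥ 0`
(nonnegative by `lazy`), `∑ y, R x y = 1`, `r x y = π x * R x y` symmetric. Then
`(Qop p)(x) = ∑ y, R x y * (p x + p y)/2`. Jensen for the convex function `η s = s log s`
(`Real.convexOn_mul_log`, `ConvexOn.map_sum_le`) gives `η(Qp x) ≤ ∑ y, R x y η((p x + p y)/2)`;
use `two_point` for `η((a+b)/2) ≤ (η a + η b)/2 - (a-b)²/(4(a+b))`, multiply by `π x`, sum over `x`,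
use the symmetry of `r` (`∑ x y, r x y (η(p x)+η(p y))/2 = ∑ x, π x η(p x)`), and that
`r x y (p x - p y)²/(4 (p x + p y)) = 2 δ c x y (…)²/(4 …)` also on the diagonal (both are 0).
The total is `Ent π (Qp) ≤ Ent π p - (δ/2) ∑ c (p x-p y)²/(p x+p y) = Ent π p - δ Fi c p`. -/

set_option autoImplicit false

namespace Crest.Agent.R232

theorem ent_diss {V : Type} [Fintype V] (c : V → V → ℝ) (π : V → ℝ) (δ : ℝ) (h : IsNet c π δ)
    (p : V → ℝ) (hp : ∀ x, 0 ≤ p x) :
    δ * Fi c p ≤ Ent π p - Ent π (Qop c π δ p) := by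
  classical
  let R : V → V → ℝ := fun x y =>
    2 * δ * c x y / π x + (if x = y then 1 - 2 * δ * (∑ z, c x z) / π x else 0)
  have hR0 : ∀ x y, 0 ≤ R x y := by
    intro x y
    have hπ := h.pi_pos x
    have h1 : 0 ≤ 2 * δ * c x y / π x :=
      div_nonneg (mul_nonneg (mul_nonneg zero_le_two h.δ_pos.le) (h.nonneg x y)) hπ.le
    have h2 : 2 * δ * (∑ z, c x z) / π x ≤ 1 := by
      rw [div_le_one hπ]; have := h.lazy x; linarith
    dsimp only [R]
    split_ifs
    · linarith
    · linarith
  have hR1 : ∀ x, ∑ y, R x y = 1 := by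
    intro x
    dsimp only [R]
    rw [Finset.sum_add_distrib, Finset.sum_ite_eq, if_pos (Finset.mem_univ x), ← Finset.sum_div,
      ← Finset.mul_sum]
    ring
  have hr : ∀ x y, π x * R x y = π y * R y x := by
    intro x y
    dsimp only [R]
    by_cases hxy : x = y
    · subst hxy; rfl
    · rw [if_neg hxy, if_neg (Ne.symm hxy)]
      have h1 := (h.pi_pos x).ne'
      have h2 := (h.pi_pos y).ne'
      rw [h.symm x y, add_zero, add_zero]
      field_simp
  have hQ : ∀ x, Qop c π δ p x = ∑ y, R x y * ((p x + p y) / 2) := by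
    intro x
    have h1 : ∑ y, R x y * ((p x + p y) / 2) = p x / 2 + 1 / 2 * ∑ y, R x y * p y := by
      have : ∀ y, R x y * ((p x + p y) / 2) = R x y * (p x / 2) + 1 / 2 * (R x y * p y) := by
        intro y; ring
      simp only [this]
      rw [Finset.sum_add_distrib, ← Finset.sum_mul, hR1, ← Finset.mul_sum]
      ring
    have h2 : ∑ y, R x y * p y = 2 * δ / π x * (∑ y, c x y * p y) +
        (1 - 2 * δ * (∑ z, c x z) / π x) * p x := by
      have : ∀ y, R x y * p y = 2 * δ / π x * (c x y * p y) +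
          (if x = y then (1 - 2 * δ * (∑ z, c x z) / π x) * p y else 0) := by
        intro y; dsimp only [R]; split_ifs <;> ring
      simp only [this]
      rw [Finset.sum_add_distrib, Finset.sum_ite_eq, if_pos (Finset.mem_univ x), ← Finset.mul_sum]
    rw [h1, h2]
    unfold Qop
    simp only [mul_sub, Finset.sum_sub_distrib, ← Finset.sum_mul]
    ring
  set η : ℝ → ℝ := fun s => s * Real.log s with hη
  have hJ : ∀ x, η (Qop c π δ p x) ≤ ∑ y, R x y * η ((p x + p y) / 2) := by
    intro x
    rw [hQ x]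
    have := Real.convexOn_mul_log.map_sum_le (t := Finset.univ) (w := fun y => R x y)
      (p := fun y => (p x + p y) / 2) (fun y _ => hR0 x y) (hR1 x)
      (fun y _ => by
        have := hp x; have := hp y
        show (0 : ℝ) ≤ (p x + p y) / 2
        linarith)
    simpa only [smul_eq_mul] using this
  have hT : ∀ x y, η ((p x + p y) / 2) ≤ (η (p x) + η (p y)) / 2 -
      (p x - p y) ^ 2 / (4 * (p x + p y)) := by
    intro x y
    have := two_point (p x) (p y) (hp x) (hp y)
    simp only [hη]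
    linarith
  have hsum : Ent π (Qop c π δ p) ≤ ∑ x, ∑ y, (π x * R x y) * ((η (p x) + η (p y)) / 2 -
      (p x - p y) ^ 2 / (4 * (p x + p y))) := by
    unfold Ent
    refine Finset.sum_le_sum fun x _ => ?_
    have h1 : π x * η (Qop c π δ p x) ≤ π x * ∑ y, R x y * η ((p x + p y) / 2) :=
      mul_le_mul_of_nonneg_left (hJ x) (h.pi_pos x).le
    refine h1.trans ?_
    rw [Finset.mul_sum]
    refine Finset.sum_le_sum fun y _ => ?_
    rw [← mul_assoc]
    exact mul_le_mul_of_nonneg_left (hT x y) (mul_nonneg (h.pi_pos x).le (hR0 x y))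
  have hA : ∑ x, ∑ y, (π x * R x y) * η (p x) = Ent π p := by
    unfold Ent
    refine Finset.sum_congr rfl fun x _ => ?_
    rw [← Finset.sum_mul, ← Finset.mul_sum, hR1, mul_one]
  have hB : ∑ x, ∑ y, (π x * R x y) * η (p y) = Ent π p := by
    rw [← hA, Finset.sum_comm]
    exact Finset.sum_congr rfl fun x _ => Finset.sum_congr rfl fun y _ => by rw [hr]
  have hC : ∑ x, ∑ y, (π x * R x y) * ((p x - p y) ^ 2 / (4 * (p x + p y))) = δ * Fi c p := by
    unfold Fi
    rw [Finset.mul_sum, Finset.mul_sum]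
    refine Finset.sum_congr rfl fun x _ => ?_
    rw [Finset.mul_sum, Finset.mul_sum]
    refine Finset.sum_congr rfl fun y _ => ?_
    by_cases hxy : x = y
    · subst hxy; simp
    · dsimp only [R]
      rw [if_neg hxy, add_zero]
      have h1 := (h.pi_pos x).ne'
      have h3 : π x * (2 * δ * c x y / π x) = 2 * δ * c x y := by
        field_simp
      rw [h3, mul_comm 4 (p x + p y), ← div_div]
      ring
  have hD : ∑ x, ∑ y, (π x * R x y) * ((η (p x) + η (p y)) / 2 -
      (p x - p y) ^ 2 / (4 * (p x + p y))) =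
      (∑ x, ∑ y, (π x * R x y) * η (p x) + ∑ x, ∑ y, (π x * R x y) * η (p y)) / 2 -
        ∑ x, ∑ y, (π x * R x y) * ((p x - p y) ^ 2 / (4 * (p x + p y))) := by
    rw [← Finset.sum_add_distrib, Finset.sum_div, ← Finset.sum_sub_distrib]
    refine Finset.sum_congr rfl fun x _ => ?_
    rw [← Finset.sum_add_distrib, Finset.sum_div, ← Finset.sum_sub_distrib]
    exact Finset.sum_congr rfl fun y _ => by ring
  rw [hD, hA, hB, hC] at hsum
  linarith

end Crest.Agent.R232
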