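import Crest.Agent.R232.Lap

/-! # Row 232, piece CONT: continuity of the kernel in the weights

`LJ d ν` is continuous in `ν` (entries are linear in `ν`); on `{ν > 0}` its determinant is nonzero
(`LJ_det_ne`), `Mm = (LJ)⁻¹ = det⁻¹ • adjugate` (`Matrix.inv_def`, `Ring.inverse_eq_inv'`,
`Continuous.matrix_adjugate`, `Continuous.matrix_det`). -/

set_option autoImplicit false

namespace Crest.Agent.R232

theorem continuousOn_G {V : Type} [Fintype V] [DecidableEq V] (d : V → V → ℝ) (hd : IsDist d)
    (e e' : V × V) :
    ContinuousOn (fun ν : V × V → ℝ => G d ν e e') {ν | ∀ e, 0 < ν e} := by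
  have hLJ : Continuous fun ν : V × V → ℝ => LJ d ν := by
    refine continuous_matrix fun x y => ?_
    simp only [LJ, Matrix.of_apply]
    have hc : ∀ x y : V, Continuous fun ν : V × V → ℝ => cond d ν x y := fun x y => by
      unfold cond
      exact ((continuous_apply (x, y)).add (continuous_apply (y, x))).div_const _
    refine (Continuous.sub ?_ (hc x y)).add continuous_const
    split_ifs
    · exact continuous_finsetSum _ fun z _ => hc x z
    · exact continuous_const
  have hM : ∀ x y : V, ContinuousOn (fun ν : V × V → ℝ => Mm d ν x y) {ν | ∀ e, 0 < ν e} := by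
    intro x y
    have h1 : (fun ν : V × V → ℝ => Mm d ν x y) =
        fun ν => (LJ d ν).det⁻¹ * (LJ d ν).adjugate x y := by
      funext ν
      simp [Mm, Matrix.inv_def, Ring.inverse_eq_inv']
    rw [h1]
    refine ContinuousOn.mul (ContinuousOn.inv₀ hLJ.matrix_det.continuousOn ?_) ?_
    · intro ν hν
      exact LJ_det_ne d ν hd hν
    · exact (hLJ.matrix_adjugate.matrix_elem x y).continuousOn
  unfold G
  exact ((((hM _ _).sub (hM _ _)).sub (hM _ _)).add (hM _ _)).div_const _

end Crest.Agent.R232
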