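import Crest.Agent.R232.Defs

/-! # Row 232, piece OSC: oscillation contraction

`(Qu)(x) = ∑_z Q(x,z) u(z)` with `Q(x,z) = δ c(x,z)/π(x)` (`z ≠ x`) and
`Q(x,x) = 1 - δ (∑_{y≠x} c(x,y))/π(x) ≥ 1/2`; rows sum to 1 and all entries are `≥ η` for some
`η > 0` (finitely many positive numbers; may take also `n η ≤ 1`). If `u x - u y ≤ C` for all
`x, y` then with `a = min u`: `(Qu)(x) = ∑ (Q(x,z)-η) u z + η ∑ u ≤ (1-nη)(a+C) + η ∑ u` and
`(Qu)(y) ≥ (1-nη) a + η ∑ u`, hence `(Qu)x - (Qu)y ≤ (1-nη) C`. Iterate. -/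

set_option autoImplicit false

namespace Crest.Agent.R232

theorem OSCaux.kernel {V : Type} [Fintype V] [DecidableEq V] (c : V → V → ℝ) (π : V → ℝ) (δ : ℝ)
    (h : IsNet c π δ) (hc : ∀ x y, x ≠ y → 0 < c x y) :
    ∃ Q : V → V → ℝ, (∀ x z, 0 < Q x z) ∧ (∀ x, ∑ z, Q x z = 1) ∧
      ∀ u x, Qop c π δ u x = ∑ z, Q x z * u z := by
  refine ⟨fun x z => (if x = z then 1 - δ / π x * ∑ y, c x y else 0) + δ / π x * c x z, ?_, ?_, ?_⟩
  · intro x z
    have hπ := h.pi_pos x
    have hδ := h.δ_pos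
    dsimp only
    split_ifs with hxz
    · subst hxz
      have h1 : δ / π x * ∑ y, c x y ≤ 1 / 2 := by
        rw [div_mul_eq_mul_div, div_le_iff₀ hπ]; have := h.lazy x; linarith
      have h2 : 0 ≤ δ / π x * c x x := mul_nonneg (div_pos hδ hπ).le (h.nonneg x x)
      linarith
    · have := hc x z hxz
      positivity
  · intro x
    rw [Finset.sum_add_distrib, Finset.sum_ite_eq, if_pos (Finset.mem_univ x), ← Finset.mul_sum]
    ring
  · intro u x
    have : ∀ z, ((if x = z then 1 - δ / π x * ∑ y, c x y else 0) + δ / π x * c x z) * u z =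
        (if x = z then (1 - δ / π x * ∑ y, c x y) * u z else 0) + δ / π x * (c x z * u z) := by
      intro z; split_ifs <;> ring
    simp only [this]
    rw [Finset.sum_add_distrib, Finset.sum_ite_eq, if_pos (Finset.mem_univ x), ← Finset.mul_sum]
    unfold Qop
    simp only [mul_sub, Finset.sum_sub_distrib, ← Finset.sum_mul]
    ring

theorem osc_tendsto {V : Type} [Fintype V] (c : V → V → ℝ) (π : V → ℝ) (δ : ℝ)
    (h : IsNet c π δ) (hc : ∀ x y, x ≠ y → 0 < c x y) (u : V → ℝ) (x y : V) :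
    Filter.Tendsto (fun K : ℕ => (Qop c π δ)^[K] u x - (Qop c π δ)^[K] u y) Filter.atTop
      (nhds 0) := by
  classical
  obtain ⟨Q, hQpos, hQsum, hQ⟩ := OSCaux.kernel c π δ h hc
  haveI : Nonempty V := ⟨x⟩
  obtain ⟨⟨x0, z0⟩, hmin⟩ := Finite.exists_min (fun e : V × V => Q e.1 e.2)
  set η := Q x0 z0 with hη
  have hηpos : 0 < η := hQpos _ _
  have hηle : ∀ x z, η ≤ Q x z := fun x z => hmin (x, z)
  set s : ℝ := 1 - Fintype.card V * η with hs
  have hcard : (0 : ℝ) < Fintype.card V := by exact_mod_cast Fintype.card_pos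
  have hs1 : s < 1 := by have := mul_pos hcard hηpos; linarith
  have hsum' : ∀ x, ∑ z, (Q x z - η) = s := by
    intro x
    rw [Finset.sum_sub_distrib, hQsum]
    simp [hs]
  have hs0 : 0 ≤ s := by
    rw [← hsum' x]; exact Finset.sum_nonneg fun z _ => sub_nonneg.2 (hηle x z)
  -- one step
  have step : ∀ (v : V → ℝ) (C : ℝ), (∀ a b, v a - v b ≤ C) →
      ∀ a b, Qop c π δ v a - Qop c π δ v b ≤ s * C := by
    intro v C hv a b
    obtain ⟨M, hM⟩ := Finite.exists_max v
    obtain ⟨m, hm⟩ := Finite.exists_min v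
    have h1 : ∀ a, Qop c π δ v a = ∑ z, (Q a z - η) * v z + η * ∑ z, v z := by
      intro a
      rw [hQ, Finset.mul_sum, ← Finset.sum_add_distrib]
      exact Finset.sum_congr rfl fun z _ => by ring
    have h2 : ∑ z, (Q a z - η) * v z ≤ s * v M := by
      rw [← hsum' a, Finset.sum_mul]
      exact Finset.sum_le_sum fun z _ => mul_le_mul_of_nonneg_left (hM z) (sub_nonneg.2 (hηle a z))
    have h3 : s * v m ≤ ∑ z, (Q b z - η) * v z := by
      rw [← hsum' b, Finset.sum_mul]
      exact Finset.sum_le_sum fun z _ => mul_le_mul_of_nonneg_left (hm z) (sub_nonneg.2 (hηle b z))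
    have h4 : s * (v M - v m) ≤ s * C := mul_le_mul_of_nonneg_left (hv M m) hs0
    rw [h1 a, h1 b]
    linarith
  obtain ⟨M, hM⟩ := Finite.exists_max u
  obtain ⟨m, hm⟩ := Finite.exists_min u
  have key : ∀ K : ℕ, ∀ a b, (Qop c π δ)^[K] u a - (Qop c π δ)^[K] u b ≤ s ^ K * (u M - u m) := by
    intro K
    induction K with
    | zero =>
      intro a b
      simp only [Function.iterate_zero, id_eq, pow_zero, one_mul]
      linarith [hM a, hm b]
    | succ K ih =>
      intro a b
      rw [Function.iterate_succ_apply', pow_succ', mul_assoc]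
      exact step _ _ ih a b
  refine squeeze_zero_norm (a := fun K : ℕ => s ^ K * (u M - u m)) ?_ ?_
  · intro K
    rw [Real.norm_eq_abs, abs_le]
    exact ⟨by linarith [key K y x], key K x y⟩
  · have := (tendsto_pow_atTop_nhds_zero_of_lt_one hs0 hs1).mul_const (u M - u m)
    simpa using this

end Crest.Agent.R232
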