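import Mathlib

/-! # Row 232 (S0358): definitions

`V` = the set of points, `E = V × V` ordered pairs, `d` a symmetric positive function on pairs
(the triangle inequality is never used), `ν` positive weights on the pairs.
-/

set_option autoImplicit false

namespace Crest.Agent.R232

noncomputable section

/-! ## Networks -/

section Network
variable {V : Type}

/-- symmetric, zero on the diagonal, positive off the diagonal (no triangle inequality) -/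
structure IsDist (d : V → V → ℝ) : Prop where
  symm : ∀ x y, d x y = d y x
  diag : ∀ x, d x x = 0
  pos : ∀ x y, x ≠ y → 0 < d x y

theorem IsDist.nonneg {d : V → V → ℝ} (h : IsDist d) (x y : V) : 0 ≤ d x y := by
  classical
  by_cases hxy : x = y
  · subst hxy; rw [h.diag]
  · exact (h.pos x y hxy).le

/-- discrete gradient (it is `0` on the diagonal since `x / 0 = 0`) -/
def grad (d : V → V → ℝ) (g : V → ℝ) (e : V × V) : ℝ := (g e.1 - g e.2) / d e.1 e.2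

/-- conductances -/
def cond (d : V → V → ℝ) (ν : V × V → ℝ) (x y : V) : ℝ := (ν (x, y) + ν (y, x)) / (d x y) ^ 2

/-- vertex weights -/
def piw [Fintype V] (ν : V × V → ℝ) (x : V) : ℝ := ∑ y, (ν (x, y) + ν (y, x))

/-- the matrix `L + J` (`L` = weighted Laplacian, `J` = all ones) -/
def LJ [Fintype V] [DecidableEq V] (d : V → V → ℝ) (ν : V × V → ℝ) : Matrix V V ℝ :=
  Matrix.of fun x y => (if x = y then ∑ z, cond d ν x z else 0) - cond d ν x y + 1

/-- `M = (L + J)⁻¹` -/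
def Mm [Fintype V] [DecidableEq V] (d : V → V → ℝ) (ν : V × V → ℝ) : Matrix V V ℝ := (LJ d ν)⁻¹

/-- the kernel `G(e,e') = b_eᵀ M b_{e'} / (d(e) d(e'))`, `b_e = 1_{e.1} - 1_{e.2}` -/
def G [Fintype V] [DecidableEq V] (d : V → V → ℝ) (ν : V × V → ℝ) (e e' : V × V) : ℝ :=
  (Mm d ν e.1 e'.1 - Mm d ν e.1 e'.2 - Mm d ν e.2 e'.1 + Mm d ν e.2 e'.2) /
    (d e.1 e.2 * d e'.1 e'.2)

/-- the orthogonal projection (in `L₂(ν)`) onto gradients -/
def PiOp [Fintype V] [DecidableEq V] (d : V → V → ℝ) (ν : V × V → ℝ) :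
    ((V × V) → ℝ) →ₗ[ℝ] ((V × V) → ℝ) where
  toFun h e := ∑ e', G d ν e e' * ν e' * h e'
  map_add' h h' := by
    funext e; simp only [Pi.add_apply, mul_add, Finset.sum_add_distrib]
  map_smul' c h := by
    funext e
    simp only [Pi.smul_apply, smul_eq_mul, RingHom.id_apply, Finset.mul_sum]
    exact Finset.sum_congr rfl fun x _ => by ring

theorem PiOp_apply [Fintype V] [DecidableEq V] (d : V → V → ℝ) (ν : V × V → ℝ)
    (h : V × V → ℝ) (e : V × V) : PiOp d ν h e = ∑ e', G d ν e e' * ν e' * h e' := rfl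

/-- the error operator `T = 1 - Π` -/
def TOp [Fintype V] [DecidableEq V] (d : V → V → ℝ) (ν : V × V → ℝ) :
    ((V × V) → ℝ) →ₗ[ℝ] ((V × V) → ℝ) := LinearMap.id - PiOp d ν

theorem TOp_apply [Fintype V] [DecidableEq V] (d : V → V → ℝ) (ν : V × V → ℝ)
    (h : V × V → ℝ) (e : V × V) : TOp d ν h e = h e - PiOp d ν h e := rfl

end Network

/-! ## Abstract operator bounds -/

/-- `L_∞` bound, also for `ℓ₂`-valued functions (`B` bounds the square) -/
structure IsSup {E : Type} [Fintype E] (Λ : ℝ) (T : (E → ℝ) →ₗ[ℝ] (E → ℝ)) : Prop where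
  sup : ∀ (h : E → ℝ) (B : ℝ), (∀ e, |h e| ≤ B) → ∀ e, |T h e| ≤ Λ * B
  supl2 : ∀ (N : ℕ) (h : Fin N → E → ℝ) (B : ℝ), (∀ e, ∑ ω, (h ω e) ^ 2 ≤ B) →
    ∀ e, ∑ ω, (T (h ω) e) ^ 2 ≤ Λ ^ 2 * B

/-- `T` is bounded by `1` on `L₂(ν)` and by `Λ ≥ 1` on `L₁(ν)` and `L_∞`. -/
structure IsT {E : Type} [Fintype E] (ν : E → ℝ) (Λ : ℝ) (T : (E → ℝ) →ₗ[ℝ] (E → ℝ)) : Prop where
  nu_pos : ∀ e, 0 < ν e
  one_le : 1 ≤ Λ
  isSup : IsSup Λ T
  two : ∀ h : E → ℝ, ∑ e, ν e * (T h e) ^ 2 ≤ ∑ e, ν e * (h e) ^ 2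
  one : ∀ h : E → ℝ, ∑ e, ν e * |T h e| ≤ Λ * ∑ e, ν e * |h e|

/-! ## Heat kernels on finite networks -/

section Heat
variable {V : Type} [Fintype V]

/-- `c` symmetric nonnegative conductances, `π` positive vertex weights, `δ` a small step -/
structure IsNet (c : V → V → ℝ) (π : V → ℝ) (δ : ℝ) : Prop where
  symm : ∀ x y, c x y = c y x
  nonneg : ∀ x y, 0 ≤ c x y
  pi_pos : ∀ x, 0 < π x
  δ_pos : 0 < δ
  lazy : ∀ x, δ * ∑ y, c x y ≤ π x / 2

/-- the lazy heat step `(Qu)(x) = u(x) - (δ/π(x)) ∑_y c(x,y)(u(x)-u(y))` -/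
def Qop (c : V → V → ℝ) (π : V → ℝ) (δ : ℝ) (u : V → ℝ) (x : V) : ℝ :=
  u x - δ / π x * ∑ y, c x y * (u x - u y)

/-- heat kernel with respect to `π`: `hk k z = Q^k (1_z / π z)` -/
def hk [DecidableEq V] (c : V → V → ℝ) (π : V → ℝ) (δ : ℝ) (k : ℕ) (z : V) : V → ℝ :=
  (Qop c π δ)^[k] (fun x => if x = z then 1 / π z else 0)

/-- Fisher-type information -/
def Fi (c : V → V → ℝ) (p : V → ℝ) : ℝ :=
  (1 / 2) * ∑ x, ∑ y, c x y * (p x - p y) ^ 2 / (p x + p y)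

/-- entropy -/
def Ent (π : V → ℝ) (p : V → ℝ) : ℝ := ∑ x, π x * (p x * Real.log (p x))

end Heat

/-! ## Dyadic levels -/

/-- dyadic level of `|a|`: `2 ^ bin a ≤ |a| < 2 ^ (bin a + 1)` for `a ≠ 0` -/
def bin (a : ℝ) : ℤ := Int.log 2 |a|

/-- tent function on `{0..2m}` of height `1` at `m`, slope `1/m`; zero outside `(0,2m)` -/
def tent (m : ℕ) (k : ℤ) : ℝ := ((max 0 (min k (2 * (m : ℤ) - k)) : ℤ) : ℝ) / m

/-- `c_M = ∑_k tent(k)^p` -/
def cM (p : ℝ) (m : ℕ) : ℝ := ∑ k ∈ Finset.range (2 * m), (tent m (k : ℤ)) ^ p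

/-- the level-`l` truncation of `a` -/
def vlev (m : ℕ) (l : ℤ) (a : ℝ) : ℝ := tent m (bin a - l) * a

/-- the part of `a` above level `i` -/
def blev (i : ℤ) (a : ℝ) : ℝ := if i < bin a then a else 0

/-- the exponent `γ` -/
def gam (p : ℝ) : ℝ := if p < 2 then 2 - p else 1 - 2 / p

/-! ## Random signs with values in `{0, 1, -1}` -/

/-- weights of one sign: `P(0) = 1 - δ`, `P(±1) = δ/2` -/
def wt (δ : ℝ) (s : SignType) : ℝ := if s = 0 then 1 - δ else δ / 2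

/-- expectation over `N` independent signs -/
def Ex {N : ℕ} (δ : ℝ) (F : (Fin N → SignType) → ℝ) : ℝ :=
  ∑ η : Fin N → SignType, (∏ i, wt δ (η i)) * F η

/-- the random sum `∑ η_i x_i` -/
def rs {N : ℕ} (x : Fin N → ℝ) (η : Fin N → SignType) : ℝ := ∑ i, ((η i : SignType) : ℝ) * x i

/-! ## `ℓ_p` distances and distortion -/

/-- `ℓ_p` distance of the points `z i : Fin N → ℝ` -/
def lpd {V : Type} (p : ℝ) {N : ℕ} (z : V → Fin N → ℝ) (i j : V) : ℝ :=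
  (∑ k, |z i k - z j k| ^ p) ^ (1 / p)

/-- `b` is, up to one scaling factor, `a` up to distortion `D` -/
def Dst {V : Type} (D : ℝ) (a b : V → V → ℝ) : Prop :=
  ∃ s : ℝ, 0 < s ∧ ∀ i j, s * a i j ≤ b i j ∧ b i j ≤ D * s * a i j

/-- vectors `(|∇φ(e)|^p)_e` of `K`-Lipschitz functions `φ` -/
def Wset {V : Type} (p : ℝ) (d : V → V → ℝ) (K : ℝ) : Set (V × V → ℝ) :=
  {w | ∃ φ : V → ℝ, (∀ i j, |φ i - φ j| ≤ K * d i j) ∧ ∀ e, w e = |grad d φ e| ^ p}

end

end Crest.Agent.R232
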