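import Crest.Agent.R232.Defs

/-! # Row 232, piece EL: an elementary inequality for geometrically bounded sequences (`p > 2`)

Let `S = ∑_{k<K} t_k`. Case `S/2 < B`: Cauchy-Schwarz with the weights `2^{k(p-2)}`:
`S² ≤ (∑_k 2^{-k(p-2)}) ∑ 2^{k(p-2)} t_k²`, and `S^{p-2} ≤ (2B)^{p-2}`.
Case `S/2 ≥ B > 0`: choose the natural number `k₀` with `B 2^{k₀} ≤ S/2 < B 2^{k₀+1}`. As
`∑_{k<k₀} t_k ≤ B 2^{k₀} ≤ S/2`, `∑_{k ≥ k₀} t_k ≥ S/2`, and Cauchy-Schwarz on `k ≥ k₀`: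
`(S/2)² ≤ C 2^{-k₀(p-2)} ∑ 2^{k(p-2)} t_k²`, while `(B 2^{k₀})^{p-2} ≥ (S/4)^{p-2}`.
`B = 0`: `S = 0`. -/

set_option autoImplicit false

namespace Crest.Agent.R232

theorem el (p : ℝ) (hp : 2 < p) :
    ∃ C : ℝ, 0 ≤ C ∧ ∀ (K : ℕ) (t : ℕ → ℝ) (B : ℝ), 0 ≤ B →
      (∀ k < K, 0 ≤ t k ∧ t k ≤ B * 2 ^ k) →
      (∑ k ∈ Finset.range K, t k) ^ p ≤
        C * B ^ (p - 2) * ∑ k ∈ Finset.range K, (2 : ℝ) ^ ((k : ℝ) * (p - 2)) * (t k) ^ 2 := by
  set a : ℝ := p - 2 with ha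
  have ha0 : 0 < a := by rw [ha]; linarith
  set r : ℝ := (2 : ℝ) ^ a with hr
  have hr1 : 1 < r := Real.one_lt_rpow (by norm_num) ha0
  have hr0 : 0 < r := by linarith
  have hq0 : 0 ≤ r⁻¹ := by positivity
  have hq1 : r⁻¹ < 1 := inv_lt_one_of_one_lt₀ hr1
  have hq2 : 0 < 1 - r⁻¹ := by linarith
  refine ⟨4 * (4 : ℝ) ^ a / (1 - r⁻¹), by positivity, ?_⟩
  intro K t B hB ht
  have hrk : ∀ k : ℕ, (2 : ℝ) ^ ((k : ℝ) * a) = r ^ k := by
    intro k
    rw [mul_comm, Real.rpow_mul (by norm_num), Real.rpow_natCast]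
  simp only [hrk]
  set S : ℝ := ∑ k ∈ Finset.range K, t k with hS
  have hS0 : 0 ≤ S := Finset.sum_nonneg fun k hk => (ht k (Finset.mem_range.1 hk)).1
  have hQ0 : 0 ≤ ∑ k ∈ Finset.range K, r ^ k * (t k) ^ 2 :=
    Finset.sum_nonneg fun k _ => by positivity
  rcases eq_or_lt_of_le hB with hB0 | hB0
  · -- B = 0
    have : S = 0 := by
      rw [hS]
      refine Finset.sum_eq_zero fun k hk => ?_
      have := ht k (Finset.mem_range.1 hk)
      rw [← hB0, zero_mul] at this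
      linarith [this.1, this.2]
    rw [this, Real.zero_rpow (by linarith)]
    positivity
  · obtain ⟨k₀, hk1, hk2⟩ := exists_nat_pow_near (x := S / (2 * B) + 1) (y := (2 : ℝ))
      (by have : 0 ≤ S / (2 * B) := by positivity
          linarith) (by norm_num)
    have hlow : B * (2 ^ k₀ - 1) ≤ S / 2 := by
      have h1 : (2 : ℝ) ^ k₀ - 1 ≤ S / (2 * B) := by linarith
      calc B * (2 ^ k₀ - 1) ≤ B * (S / (2 * B)) := mul_le_mul_of_nonneg_left h1 hB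
        _ = S / 2 := by field_simp
    have hhigh : S ≤ 4 * B * 2 ^ k₀ := by
      have h1 : S / (2 * B) < 2 ^ (k₀ + 1) := by linarith
      rw [div_lt_iff₀ (by positivity), pow_succ] at h1
      linarith
    -- the sum over the low part
    have hgeom : ∀ n : ℕ, ∑ k ∈ Finset.range n, B * (2 : ℝ) ^ k = B * (2 ^ n - 1) := by
      intro n
      rw [← Finset.mul_sum, geom_sum_eq (by norm_num)]
      norm_num
    have hupper : S / 2 ≤ ∑ k ∈ Finset.Ico k₀ K, t k := by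
      rcases le_total k₀ K with hk | hk
      · have h1 : S = ∑ k ∈ Finset.range k₀, t k + ∑ k ∈ Finset.Ico k₀ K, t k := by
          rw [hS, Finset.range_eq_Ico, Finset.range_eq_Ico]
          exact (Finset.sum_Ico_consecutive _ (Nat.zero_le _) hk).symm
        have h2 : ∑ k ∈ Finset.range k₀, t k ≤ B * (2 ^ k₀ - 1) := by
          rw [← hgeom]
          exact Finset.sum_le_sum fun k hk' =>
            (ht k (lt_of_lt_of_le (Finset.mem_range.1 hk') hk)).2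
        linarith
      · have h2 : S ≤ B * (2 ^ K - 1) := by
          rw [← hgeom, hS]
          exact Finset.sum_le_sum fun k hk' => (ht k (Finset.mem_range.1 hk')).2
        have h3 : B * ((2 : ℝ) ^ K - 1) ≤ B * (2 ^ k₀ - 1) := by
          refine mul_le_mul_of_nonneg_left ?_ hB
          have := pow_le_pow_right₀ (by norm_num : (1 : ℝ) ≤ 2) hk
          linarith
        rw [Finset.Ico_eq_empty_of_le hk, Finset.sum_empty]
        linarith
    have hcs : (∑ k ∈ Finset.Ico k₀ K, t k) ^ 2 ≤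
        (∑ k ∈ Finset.Ico k₀ K, (r⁻¹) ^ k) * ∑ k ∈ Finset.Ico k₀ K, r ^ k * (t k) ^ 2 := by
      refine Finset.sum_sq_le_sum_mul_sum_of_sq_eq_mul _ (fun k _ => by positivity)
        (fun k _ => by positivity) fun k _ => ?_
      rw [← mul_assoc, ← mul_pow, inv_mul_cancel₀ hr0.ne', one_pow, one_mul]
    have hg : ∑ k ∈ Finset.Ico k₀ K, (r⁻¹) ^ k ≤ (r⁻¹) ^ k₀ / (1 - r⁻¹) :=
      geom_sum_Ico_le_of_lt_one hq0 hq1
    have hQ : ∑ k ∈ Finset.Ico k₀ K, r ^ k * (t k) ^ 2 ≤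
        ∑ k ∈ Finset.range K, r ^ k * (t k) ^ 2 := by
      refine Finset.sum_le_sum_of_subset_of_nonneg (fun k hk => ?_) (fun k _ _ => by positivity)
      exact Finset.mem_range.2 (Finset.mem_Ico.1 hk).2
    have hS2 : S ^ 2 ≤ 4 * ((r⁻¹) ^ k₀ / (1 - r⁻¹) *
        ∑ k ∈ Finset.range K, r ^ k * (t k) ^ 2) := by
      have h1 : (S / 2) ^ 2 ≤ (∑ k ∈ Finset.Ico k₀ K, t k) ^ 2 :=
        pow_le_pow_left₀ (by positivity) hupper 2
      have h2 : (∑ k ∈ Finset.Ico k₀ K, (r⁻¹) ^ k) * ∑ k ∈ Finset.Ico k₀ K, r ^ k * (t k) ^ 2 ≤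
          (r⁻¹) ^ k₀ / (1 - r⁻¹) * ∑ k ∈ Finset.range K, r ^ k * (t k) ^ 2 :=
        mul_le_mul hg hQ (Finset.sum_nonneg fun k _ => by positivity) (by positivity)
      nlinarith [h1, h2, hcs]
    have hSa : S ^ a ≤ (4 : ℝ) ^ a * B ^ a * r ^ k₀ := by
      have h1 : S ^ a ≤ (4 * B * 2 ^ k₀) ^ a := Real.rpow_le_rpow hS0 hhigh ha0.le
      have h2 : ((2 : ℝ) ^ k₀) ^ a = r ^ k₀ := by
        rw [← hrk, ← Real.rpow_natCast, ← Real.rpow_mul (by norm_num)]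
      rwa [Real.mul_rpow (by positivity) (by positivity), Real.mul_rpow (by norm_num) hB, h2] at h1
    have hSp : S ^ p = S ^ 2 * S ^ a := by
      rcases eq_or_lt_of_le hS0 with h | h
      · rw [← h, Real.zero_rpow (by linarith), Real.zero_rpow ha0.ne']; ring
      · rw [← Real.rpow_natCast S 2, ← Real.rpow_add h]
        congr 1
        rw [ha]; push_cast; ring
    have hcancel : (r⁻¹) ^ k₀ * r ^ k₀ = 1 := by
      rw [← mul_pow, inv_mul_cancel₀ hr0.ne', one_pow]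
    calc S ^ p = S ^ 2 * S ^ a := hSp
      _ ≤ (4 * ((r⁻¹) ^ k₀ / (1 - r⁻¹) * ∑ k ∈ Finset.range K, r ^ k * (t k) ^ 2)) *
          ((4 : ℝ) ^ a * B ^ a * r ^ k₀) :=
          mul_le_mul hS2 hSa (Real.rpow_nonneg hS0 _) (by positivity)
      _ = 4 * (4 : ℝ) ^ a / (1 - r⁻¹) * B ^ a * (∑ k ∈ Finset.range K, r ^ k * (t k) ^ 2) *
          ((r⁻¹) ^ k₀ * r ^ k₀) := by ring
      _ = _ := by rw [hcancel, mul_one]

end Crest.Agent.R232
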