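import Crest.Agent.R232.EL
import Crest.Agent.R232.Tent

/-! # Row 232, piece EHIGH: error of the level truncation, `p > 2`, scalar part

Notation as in `ErrLow`: `u_i = T b_i = - T τ_i`, `|T v_l| ≤ (1/m) ∑_{k<2m} |u_{l+k}|`.
`|τ_i| ≤ 2^{i+1}` so `|u_i| ≤ Λ 2^{i+1}` (`sup`). Apply `el` with `K = 2m`, `t_k = |u_{l+k}(e)|`,
`B = 2 Λ 2^l`: `|T v_l|^p ≤ m^{-p} C (2Λ)^{p-2} ∑_k 2^{(l+k)(p-2)} u_{l+k}²`. Sum over `l` (each `i`
occurs at most `2m` times): `∑_l |T v_l|^p ≤ 2 C m^{1-p} (2Λ)^{p-2} ∑_i 2^{i(p-2)} u_i²`. With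
`∑ ν u_i² ≤ ∑ ν b_i²` (`two`) and `∑_i 2^{i(p-2)} b_i² = f² ∑_{i<bin f} 2^{i(p-2)} ≤ C|f|^p`. -/

set_option autoImplicit false

namespace Crest.Agent.R232

namespace EHaux

theorem tau_le (i : ℤ) (a : ℝ) : |a - blev i a| ≤ (2 : ℝ) ^ ((i : ℝ) + 1) := by
  unfold blev
  split_ifs with h
  · rw [sub_self, abs_zero]; positivity
  · rw [sub_zero]
    by_cases ha : a = 0
    · rw [ha, abs_zero]; positivity
    · refine (lt_bin ha).le.trans ?_
      apply Real.rpow_le_rpow_of_exponent_le (by norm_num)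
      have : ((bin a : ℤ) : ℝ) ≤ (i : ℝ) := by exact_mod_cast not_lt.mp h
      linarith

theorem sum_shift_le (g : ℤ → ℝ) (hg : ∀ i, 0 ≤ g i) (L m : ℕ) :
    ∑ l ∈ Finset.Ico (-(L : ℤ)) 0, ∑ k ∈ Finset.range (2 * m), g (l + k) ≤
      2 * m * ∑ i ∈ Finset.Ico (-(L : ℤ)) (2 * m), g i := by
  rw [Finset.sum_comm]
  have h : ∀ k ∈ Finset.range (2 * m), ∑ l ∈ Finset.Ico (-(L : ℤ)) 0, g (l + k) ≤
      ∑ i ∈ Finset.Ico (-(L : ℤ)) (2 * m), g i := by
    intro k hk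
    rw [Finset.mem_range] at hk
    have : ∑ l ∈ Finset.Ico (-(L : ℤ)) 0, g (l + k) =
        ∑ i ∈ (Finset.Ico (-(L : ℤ)) 0).map ⟨fun l => l + (k : ℤ), fun a b hab => by
          simpa using hab⟩, g i := by
      rw [Finset.sum_map]; rfl
    rw [this]
    apply Finset.sum_le_sum_of_subset_of_nonneg
    · intro x hx
      rw [Finset.mem_map] at hx
      obtain ⟨l, hl, rfl⟩ := hx
      simp only [Finset.mem_Ico] at hl ⊢
      have hk2 : (k : ℤ) < 2 * m := by exact_mod_cast hk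
      change -(L : ℤ) ≤ l + (k : ℤ) ∧ l + (k : ℤ) < 2 * m
      omega
    · intro i _ _; exact hg i
  refine (Finset.sum_le_sum h).trans ?_
  rw [Finset.sum_const, Finset.card_range, nsmul_eq_mul]
  push_cast
  rfl

theorem blev_sum (p : ℝ) (hp : 2 < p) (C1 : ℝ) (hC1 : 0 ≤ C1)
    (h : ∀ (S : Finset ℤ) (a : ℝ), a ≠ 0 →
      ∑ i ∈ S.filter (fun i => i < bin a), (2 : ℝ) ^ ((i : ℝ) * (p - 2)) ≤ C1 * |a| ^ (p - 2))
    (S : Finset ℤ) (a : ℝ) :
    ∑ i ∈ S, (2 : ℝ) ^ ((i : ℝ) * (p - 2)) * (blev i a) ^ 2 ≤ C1 * |a| ^ p := by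
  by_cases ha : a = 0
  · subst ha
    have : ∑ i ∈ S, (2 : ℝ) ^ ((i : ℝ) * (p - 2)) * (blev i 0) ^ 2 = 0 := by
      apply Finset.sum_eq_zero
      intro i _
      simp [blev]
    rw [this]
    positivity
  · have e1 : ∑ i ∈ S, (2 : ℝ) ^ ((i : ℝ) * (p - 2)) * (blev i a) ^ 2 =
        (∑ i ∈ S.filter (fun i => i < bin a), (2 : ℝ) ^ ((i : ℝ) * (p - 2))) * a ^ 2 := by
      rw [Finset.sum_filter, Finset.sum_mul]
      refine Finset.sum_congr rfl fun i _ => ?_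
      unfold blev
      split_ifs <;> simp
    rw [e1]
    have h2 := h S a ha
    have h3 : |a| ^ p = |a| ^ (p - 2) * a ^ 2 := by
      have : |a| ^ p = |a| ^ (p - 2) * |a| ^ (2 : ℝ) := by
        rw [← Real.rpow_add (abs_pos.mpr ha)]; congr 1; ring
      rw [this, Real.rpow_two, sq_abs]
    rw [h3, ← mul_assoc]
    exact mul_le_mul_of_nonneg_right h2 (sq_nonneg a)

end EHaux

open EHaux

theorem err_high (p : ℝ) (hp : 2 < p) :
    ∃ C : ℝ, 0 ≤ C ∧ ∀ (E : Type) [Fintype E] (ν : E → ℝ) (Λ : ℝ)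
      (T : (E → ℝ) →ₗ[ℝ] (E → ℝ)), IsT ν Λ T → ∀ f : E → ℝ, T f = 0 → ∀ m L : ℕ, 1 ≤ m →
      ∑ l ∈ Finset.Ico (-(L : ℤ)) 0, ∑ e, ν e * |T (fun e' => vlev m l (f e')) e| ^ p ≤
        C * (m : ℝ) ^ (1 - p) * Λ ^ (p - 2) * ∑ e, ν e * |f e| ^ p := by
  obtain ⟨C0, hC0, hel⟩ := el p hp
  obtain ⟨C1, hC1, hge⟩ := geom_below (p - 2) (by linarith)
  refine ⟨2 * C0 * C1 * 2 ^ (p - 2), by positivity, ?_⟩
  intro E _ ν Λ T hT f hf m L hm
  have hΛ : 0 < Λ := by linarith [hT.one_le]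
  have hmpos : (0 : ℝ) < m := by exact_mod_cast hm
  -- u_i
  set u : ℤ → E → ℝ := fun i => T (fun e => blev i (f e)) with hu
  have hu_le : ∀ i e, |u i e| ≤ Λ * (2 : ℝ) ^ ((i : ℝ) + 1) := by
    intro i e
    have h1 : T (fun e => f e - blev i (f e)) = - u i := by
      have : (fun e => f e - blev i (f e)) = f - fun e => blev i (f e) := rfl
      rw [this, map_sub, hf, zero_sub]
    have h2 := hT.isSup.sup (fun e => f e - blev i (f e)) _ (fun e => tau_le i (f e)) e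
    rw [h1, Pi.neg_apply, abs_neg] at h2
    exact h2
  have hTv : ∀ l e, T (fun e' => vlev m l (f e')) e =
      ∑ k ∈ Finset.range (2 * m), (tent m ((k : ℤ) + 1) - tent m (k : ℤ)) * u (l + k) e := by
    intro l e
    have h1 : (fun e' => vlev m l (f e')) = ∑ k ∈ Finset.range (2 * m),
        (tent m ((k : ℤ) + 1) - tent m (k : ℤ)) • (fun e' => blev (l + k) (f e')) := by
      funext e'
      rw [vlev_abel, Finset.sum_apply]
      rfl
    rw [h1, map_sum, Finset.sum_apply]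
    refine Finset.sum_congr rfl fun k _ => ?_
    rw [map_smul, Pi.smul_apply, smul_eq_mul]
  have hTv_le : ∀ l e, |T (fun e' => vlev m l (f e')) e| ≤
      (1 / m) * ∑ k ∈ Finset.range (2 * m), |u (l + k) e| := by
    intro l e
    rw [hTv, Finset.mul_sum]
    refine (Finset.abs_sum_le_sum_abs _ _).trans (Finset.sum_le_sum fun k _ => ?_)
    rw [abs_mul]
    exact mul_le_mul_of_nonneg_right (tent_diff m hm k) (abs_nonneg _)
  -- pointwise bound
  have hpt : ∀ (l : ℤ) e, |T (fun e' => vlev m l (f e')) e| ^ p ≤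
      (m : ℝ) ^ (-p) * (C0 * (2 * Λ) ^ (p - 2)) * ∑ k ∈ Finset.range (2 * m),
        (2 : ℝ) ^ (((l + (k : ℤ) : ℤ) : ℝ) * (p - 2)) * (u (l + k) e) ^ 2 := by
    intro l e
    have h1 : |T (fun e' => vlev m l (f e')) e| ^ p ≤
        ((1 / m) * ∑ k ∈ Finset.range (2 * m), |u (l + k) e|) ^ p :=
      Real.rpow_le_rpow (abs_nonneg _) (hTv_le l e) (by linarith)
    have hsn : 0 ≤ ∑ k ∈ Finset.range (2 * m), |u (l + k) e| :=
      Finset.sum_nonneg fun _ _ => abs_nonneg _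
    rw [Real.mul_rpow (by positivity) hsn] at h1
    have h2 := hel (2 * m) (fun k => |u (l + k) e|) (2 * Λ * (2 : ℝ) ^ (l : ℝ)) (by positivity) (by
      intro k _
      refine ⟨abs_nonneg _, ?_⟩
      refine (hu_le (l + k) e).trans (le_of_eq ?_)
      have : (2 : ℝ) ^ ((((l + (k : ℤ) : ℤ)) : ℝ) + 1) = 2 ^ (l : ℝ) * 2 ^ k * 2 := by
        rw [Real.rpow_add (by norm_num), Real.rpow_one]
        push_cast
        rw [Real.rpow_add (by norm_num), Real.rpow_natCast]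
      rw [this]; ring)
    have h3 : (1 / (m : ℝ)) ^ p = (m : ℝ) ^ (-p) := by
      rw [one_div, Real.inv_rpow hmpos.le, Real.rpow_neg hmpos.le]
    rw [h3] at h1
    refine h1.trans ?_
    rw [mul_assoc]
    refine mul_le_mul_of_nonneg_left ?_ (by positivity)
    refine h2.trans (le_of_eq ?_)
    rw [Real.mul_rpow (by positivity) (by positivity), ← Real.rpow_mul (by norm_num)]
    rw [mul_assoc C0, mul_assoc C0, mul_assoc ((2 * Λ) ^ (p - 2))]
    congr 2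
    rw [Finset.mul_sum]
    refine Finset.sum_congr rfl fun k _ => ?_
    rw [sq_abs, ← mul_assoc, ← Real.rpow_add (by norm_num)]
    congr 2
    push_cast
    ring
  -- sum up
  set g : E → ℤ → ℝ := fun e i => (2 : ℝ) ^ ((i : ℝ) * (p - 2)) * (u i e) ^ 2 with hg
  have hg0 : ∀ e i, 0 ≤ g e i := fun e i => by rw [hg]; positivity
  set S := Finset.Ico (-(L : ℤ)) (2 * m) with hS
  calc ∑ l ∈ Finset.Ico (-(L : ℤ)) 0, ∑ e, ν e * |T (fun e' => vlev m l (f e')) e| ^ p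
      ≤ ∑ l ∈ Finset.Ico (-(L : ℤ)) 0, ∑ e, ν e * ((m : ℝ) ^ (-p) * (C0 * (2 * Λ) ^ (p - 2)) *
          ∑ k ∈ Finset.range (2 * m), g e (l + k)) :=
        Finset.sum_le_sum fun l _ => Finset.sum_le_sum fun e _ =>
          mul_le_mul_of_nonneg_left (hpt l e) (hT.nu_pos e).le
    _ = (m : ℝ) ^ (-p) * (C0 * (2 * Λ) ^ (p - 2)) * ∑ e, ν e *
          ∑ l ∈ Finset.Ico (-(L : ℤ)) 0, ∑ k ∈ Finset.range (2 * m), g e (l + k) := by
        rw [Finset.sum_comm, Finset.mul_sum]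
        refine Finset.sum_congr rfl fun e _ => ?_
        rw [Finset.mul_sum, Finset.mul_sum]
        refine Finset.sum_congr rfl fun l _ => ?_
        ring
    _ ≤ (m : ℝ) ^ (-p) * (C0 * (2 * Λ) ^ (p - 2)) * ∑ e, ν e *
          (2 * m * ∑ i ∈ S, g e i) := by
        refine mul_le_mul_of_nonneg_left ?_ (by positivity)
        exact Finset.sum_le_sum fun e _ =>
          mul_le_mul_of_nonneg_left (sum_shift_le (g e) (hg0 e) L m) (hT.nu_pos e).le
    _ = (m : ℝ) ^ (-p) * (C0 * (2 * Λ) ^ (p - 2)) * (2 * m) * ∑ i ∈ S,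
          (2 : ℝ) ^ ((i : ℝ) * (p - 2)) * ∑ e, ν e * (u i e) ^ 2 := by
        rw [mul_assoc ((m : ℝ) ^ (-p) * (C0 * (2 * Λ) ^ (p - 2)))]
        congr 1
        simp only [Finset.mul_sum]
        rw [Finset.sum_comm]
        refine Finset.sum_congr rfl fun i _ => Finset.sum_congr rfl fun e _ => ?_
        rw [hg]; ring
    _ ≤ (m : ℝ) ^ (-p) * (C0 * (2 * Λ) ^ (p - 2)) * (2 * m) * ∑ i ∈ S,
          (2 : ℝ) ^ ((i : ℝ) * (p - 2)) * ∑ e, ν e * (blev i (f e)) ^ 2 := by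
        refine mul_le_mul_of_nonneg_left ?_ (by positivity)
        refine Finset.sum_le_sum fun i _ => mul_le_mul_of_nonneg_left ?_ (by positivity)
        exact hT.two (fun e => blev i (f e))
    _ = (m : ℝ) ^ (-p) * (C0 * (2 * Λ) ^ (p - 2)) * (2 * m) * ∑ e, ν e * ∑ i ∈ S,
          (2 : ℝ) ^ ((i : ℝ) * (p - 2)) * (blev i (f e)) ^ 2 := by
        congr 1
        simp only [Finset.mul_sum]
        rw [Finset.sum_comm]
        refine Finset.sum_congr rfl fun i _ => Finset.sum_congr rfl fun e _ => ?_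
        ring
    _ ≤ (m : ℝ) ^ (-p) * (C0 * (2 * Λ) ^ (p - 2)) * (2 * m) * ∑ e, ν e * (C1 * |f e| ^ p) := by
        refine mul_le_mul_of_nonneg_left ?_ (by positivity)
        refine Finset.sum_le_sum fun e _ => mul_le_mul_of_nonneg_left ?_ (hT.nu_pos e).le
        exact blev_sum p hp C1 hC1 hge S (f e)
    _ = 2 * C0 * C1 * 2 ^ (p - 2) * (m : ℝ) ^ (1 - p) * Λ ^ (p - 2) * ∑ e, ν e * |f e| ^ p := by
        have h1 : (m : ℝ) ^ (1 - p) = (m : ℝ) ^ (-p) * m := by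
          rw [sub_eq_add_neg, add_comm, Real.rpow_add hmpos, Real.rpow_one]
        rw [h1, Real.mul_rpow (by norm_num) hΛ.le]
        have h2 : ∑ e, ν e * (C1 * |f e| ^ p) = C1 * ∑ e, ν e * |f e| ^ p := by
          rw [Finset.mul_sum]
          exact Finset.sum_congr rfl fun e _ => by ring
        rw [h2]; ring

end Crest.Agent.R232
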