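import Crest.Agent.R232.Tent

/-! # Row 232, piece EVEC: error of the level truncation, `p > 2`, the `ℓ₂`-valued part

`u_i(ω) = T (blev i ∘ f ω)`, `U_i(e) = (∑_ω u_i(ω,e)²)^{1/2}`, `Ũ_i = 2^{i(p-2)/2} U_i`.
(1) Minkowski in `ℓ₂(ω)`: `(∑_ω (T v_l ω e)²)^{1/2} ≤ (1/m) ∑_{k<2m} U_{l+k}(e)`, so
`2^{l(p-2)/2} (∑_ω …)^{1/2} ≤ (1/m) ∑_k 2^{-k(p-2)/2} Ũ_{l+k}`; power `p` and Jensen/Hölder for the
geometric weights `w_k = 2^{-k(p-2)/2}`: `(…)^p ≤ m^{-p} (∑ w)^{p-1} ∑_k w_k Ũ_{l+k}^p`; sum over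
`l`: `≤ m^{-p} (∑ w)^p ∑_{i ∈ Ico (-L) (2m)} Ũ_i^p`.
(2) `β_i(e) = 2^{i(p-2)} ∑_ω (blev i (f ω e))² ≤ ∑_ω |f|^p ≤ 1` (`2^i ≤ |f|` where `blev ≠ 0`), hence
`Ũ_i² ≤ Λ²` by `supl2`; and `∑ ν Ũ_i² ≤ ∑ ν β_i` by `two`. So
`∑ ν Ũ_i^p ≤ Λ^{p-2} ∑ ν β_i`, and `∑_i β_i ≤ C ∑_ω |f|^p ≤ C` (`geom_below`). -/

set_option autoImplicit false

namespace Crest.Agent.R232

namespace EVECaux

theorem T_vlev {E : Type} (T : (E → ℝ) →ₗ[ℝ] (E → ℝ)) (m : ℕ) (l : ℤ) (g : E → ℝ) (e : E) :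
    T (fun e' => vlev m l (g e')) e = ∑ k ∈ Finset.range (2 * m),
      (tent m ((k : ℤ) + 1) - tent m (k : ℤ)) * T (fun e' => blev (l + k) (g e')) e := by
  have h : (fun e' => vlev m l (g e')) = ∑ k ∈ Finset.range (2 * m),
      (tent m ((k : ℤ) + 1) - tent m (k : ℤ)) • (fun e' => blev (l + k) (g e')) := by
    funext e'
    rw [vlev_abel, Finset.sum_apply]
    rfl
  rw [h, map_sum, Finset.sum_apply]
  refine Finset.sum_congr rfl fun k _ => ?_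
  rw [map_smul]
  rfl

theorem cs_w {ι : Type} (s : Finset ι) (c u w : ι → ℝ) (a : ℝ) (hw : ∀ k ∈ s, 0 < w k)
    (hc : ∀ k ∈ s, |c k| ≤ a) :
    (∑ k ∈ s, c k * u k) ^ 2 ≤ a ^ 2 * ((∑ k ∈ s, w k) * ∑ k ∈ s, u k ^ 2 / w k) := by
  have h1 : (∑ k ∈ s, c k * u k) ^ 2 ≤ (∑ k ∈ s, w k) * ∑ k ∈ s, (c k * u k) ^ 2 / w k := by
    refine Finset.sum_sq_le_sum_mul_sum_of_sq_eq_mul s (fun k hk => (hw k hk).le)
      (fun k hk => div_nonneg (sq_nonneg _) (hw k hk).le) (fun k hk => ?_)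
    have := (hw k hk).ne'
    field_simp
  refine h1.trans ?_
  have hW : 0 ≤ ∑ k ∈ s, w k := Finset.sum_nonneg fun k hk => (hw k hk).le
  have h2 : ∑ k ∈ s, (c k * u k) ^ 2 / w k ≤ a ^ 2 * ∑ k ∈ s, u k ^ 2 / w k := by
    rw [Finset.mul_sum]
    refine Finset.sum_le_sum fun k hk => ?_
    rw [mul_pow, mul_div_assoc]
    refine mul_le_mul_of_nonneg_right ?_ (div_nonneg (sq_nonneg _) (hw k hk).le)
    exact sq_le_sq' (abs_le.1 (hc k hk)).1 (abs_le.1 (hc k hk)).2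
  calc (∑ k ∈ s, w k) * ∑ k ∈ s, (c k * u k) ^ 2 / w k
      ≤ (∑ k ∈ s, w k) * (a ^ 2 * ∑ k ∈ s, u k ^ 2 / w k) :=
        mul_le_mul_of_nonneg_left h2 hW
    _ = _ := by ring

theorem jensen_w {ι : Type} (s : Finset ι) (w x : ι → ℝ) (q W : ℝ) (hq : 1 ≤ q)
    (hw : ∀ k ∈ s, 0 < w k) (hx : ∀ k ∈ s, 0 ≤ x k) (h1 : 1 ≤ ∑ k ∈ s, w k)
    (hW : ∑ k ∈ s, w k ≤ W) :
    (∑ k ∈ s, w k * x k) ^ q ≤ W ^ q * ∑ k ∈ s, w k * x k ^ q := by
  set S := ∑ k ∈ s, w k with hS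
  have hSpos : 0 < S := lt_of_lt_of_le one_pos h1
  have h2 : (∑ k ∈ s, (w k / S) * x k) ^ q ≤ ∑ k ∈ s, (w k / S) * x k ^ q := by
    refine Real.rpow_arith_mean_le_arith_mean_rpow s (fun k => w k / S) x
      (fun k hk => (div_pos (hw k hk) hSpos).le) ?_ hx hq
    rw [← Finset.sum_div, ← hS, div_self hSpos.ne']
  have h3 : ∑ k ∈ s, w k * x k = S * ∑ k ∈ s, (w k / S) * x k := by
    rw [Finset.mul_sum]
    refine Finset.sum_congr rfl fun k _ => ?_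
    field_simp
  have hnn : 0 ≤ ∑ k ∈ s, (w k / S) * x k :=
    Finset.sum_nonneg fun k hk => mul_nonneg (div_pos (hw k hk) hSpos).le (hx k hk)
  rw [h3, Real.mul_rpow hSpos.le hnn]
  have h4 : ∑ k ∈ s, (w k / S) * x k ^ q ≤ ∑ k ∈ s, w k * x k ^ q := by
    refine Finset.sum_le_sum fun k hk => ?_
    refine mul_le_mul_of_nonneg_right ?_ (Real.rpow_nonneg (hx k hk) _)
    exact div_le_self (hw k hk).le h1
  have hWq : S ^ q ≤ W ^ q := Real.rpow_le_rpow hSpos.le hW (by linarith)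
  calc S ^ q * (∑ k ∈ s, (w k / S) * x k) ^ q
      ≤ S ^ q * ∑ k ∈ s, (w k / S) * x k ^ q :=
        mul_le_mul_of_nonneg_left h2 (Real.rpow_nonneg hSpos.le _)
    _ ≤ S ^ q * ∑ k ∈ s, w k * x k ^ q :=
        mul_le_mul_of_nonneg_left h4 (Real.rpow_nonneg hSpos.le _)
    _ ≤ W ^ q * ∑ k ∈ s, w k * x k ^ q := by
        refine mul_le_mul_of_nonneg_right hWq ?_
        exact Finset.sum_nonneg fun k hk => mul_nonneg (hw k hk).le
          (Real.rpow_nonneg (hx k hk) _)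

/-- geometric weights -/
theorem geom_w (s : ℝ) (hs : 0 < s) (n : ℕ) :
    ∑ k ∈ Finset.range n, (2 : ℝ) ^ (-((k : ℝ) * (s / 2))) ≤
      (1 - (2 : ℝ) ^ (-(s / 2)))⁻¹ := by
  set r : ℝ := (2 : ℝ) ^ (-(s / 2)) with hr
  have hr0 : 0 ≤ r := Real.rpow_nonneg (by norm_num) _
  have hr1 : r < 1 := by
    rw [hr]
    exact Real.rpow_lt_one_of_one_lt_of_neg (by norm_num) (by linarith)
  have h1 : ∀ k : ℕ, (2 : ℝ) ^ (-((k : ℝ) * (s / 2))) = r ^ k := by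
    intro k
    rw [hr, ← Real.rpow_natCast, ← Real.rpow_mul (by norm_num)]
    congr 1; ring
  simp only [h1]
  calc ∑ k ∈ Finset.range n, r ^ k ≤ ∑' k, r ^ k :=
        (summable_geometric_of_lt_one hr0 hr1).sum_le_tsum _ (fun k _ => pow_nonneg hr0 k)
    _ = _ := tsum_geometric_of_lt_one hr0 hr1

theorem blev_sq_le (p : ℝ) (hp : 2 < p) (i : ℤ) (a : ℝ) :
    (blev i a) ^ 2 ≤ (2 : ℝ) ^ (-((i : ℝ) * (p - 2))) * |a| ^ p := by
  unfold blev
  split_ifs with h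
  · by_cases ha : a = 0
    · subst ha
      have : (0 : ℝ) ≤ (2 : ℝ) ^ (-((i : ℝ) * (p - 2))) * |(0 : ℝ)| ^ p := by positivity
      simpa using this
    · have hapos : 0 < |a| := abs_pos.2 ha
      have h1 : (2 : ℝ) ^ (i : ℝ) ≤ |a| := by
        refine le_trans ?_ (bin_le ha)
        refine Real.rpow_le_rpow_of_exponent_le (by norm_num) ?_
        exact_mod_cast h.le
      have h2 : ((2 : ℝ) ^ (i : ℝ)) ^ (p - 2) ≤ |a| ^ (p - 2) :=
        Real.rpow_le_rpow (by positivity) h1 (by linarith)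
      have h3 : ((2 : ℝ) ^ (i : ℝ)) ^ (p - 2) = (2 : ℝ) ^ ((i : ℝ) * (p - 2)) := by
        rw [← Real.rpow_mul (by norm_num)]
      have h4 : |a| ^ p = |a| ^ (p - 2) * a ^ 2 := by
        rw [← sq_abs a, ← Real.rpow_natCast |a| 2, ← Real.rpow_add hapos]
        congr 1; norm_num
      rw [h4, Real.rpow_neg (by norm_num), ← h3]
      have h5 : 0 < ((2 : ℝ) ^ (i : ℝ)) ^ (p - 2) := by positivity
      rw [← mul_assoc]
      have h6 : 1 ≤ (((2 : ℝ) ^ (i : ℝ)) ^ (p - 2))⁻¹ * |a| ^ (p - 2) := by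
        rw [inv_mul_eq_div, le_div_iff₀ h5, one_mul]
        exact h2
      calc a ^ 2 = 1 * a ^ 2 := (one_mul _).symm
        _ ≤ _ := mul_le_mul_of_nonneg_right h6 (sq_nonneg _)
  · have : (0 : ℝ) ≤ (2 : ℝ) ^ (-((i : ℝ) * (p - 2))) * |a| ^ p := by positivity
    simpa using this

/-- sum over the levels of `2^{i(p-2)} (blev i a)^2` -/
theorem blev_sum (p : ℝ) (hp : 2 < p) : ∃ C : ℝ, 0 ≤ C ∧ ∀ (S : Finset ℤ) (a : ℝ),
    ∑ i ∈ S, (2 : ℝ) ^ ((i : ℝ) * (p - 2)) * (blev i a) ^ 2 ≤ C * |a| ^ p := by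
  obtain ⟨C, hC, h⟩ := geom_below (p - 2) (by linarith)
  refine ⟨C, hC, fun S a => ?_⟩
  by_cases ha : a = 0
  · subst ha
    have h0 : ∀ i, blev i (0 : ℝ) = 0 := by intro i; unfold blev; split_ifs <;> rfl
    simp only [h0]
    have : (0 : ℝ) ≤ C * |(0 : ℝ)| ^ p := by positivity
    simpa using this
  · have hapos : 0 < |a| := abs_pos.2 ha
    have h1 : ∑ i ∈ S, (2 : ℝ) ^ ((i : ℝ) * (p - 2)) * (blev i a) ^ 2 =
        (∑ i ∈ S.filter (fun i => i < bin a), (2 : ℝ) ^ ((i : ℝ) * (p - 2))) * a ^ 2 := by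
      rw [Finset.sum_filter, Finset.sum_mul]
      refine Finset.sum_congr rfl fun i _ => ?_
      unfold blev
      split_ifs <;> simp
    rw [h1]
    have h4 : |a| ^ p = |a| ^ (p - 2) * a ^ 2 := by
      rw [← sq_abs a, ← Real.rpow_natCast |a| 2, ← Real.rpow_add hapos]
      congr 1; norm_num
    rw [h4, ← mul_assoc]
    exact mul_le_mul_of_nonneg_right (h S a ha) (sq_nonneg _)

theorem shift_sum (X : ℤ → ℝ) (hX : ∀ i, 0 ≤ X i) (L m k : ℕ) (hk : k < 2 * m) :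
    ∑ l ∈ Finset.Ico (-(L : ℤ)) 0, X (l + k) ≤ ∑ i ∈ Finset.Ico (-(L : ℤ)) (2 * m), X i := by
  have h1 : ∑ l ∈ Finset.Ico (-(L : ℤ)) 0, X (l + k) =
      ∑ i ∈ Finset.Ico (-(L : ℤ) + k) (0 + k), X i := by
    rw [← Finset.map_add_right_Ico, Finset.sum_map]
    rfl
  rw [h1]
  refine Finset.sum_le_sum_of_subset_of_nonneg ?_ (fun i _ _ => hX i)
  intro i hi
  rw [Finset.mem_Ico] at hi ⊢
  omega

end EVECaux

open EVECaux in
theorem err_vec (p : ℝ) (hp : 2 < p) :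
    ∃ C : ℝ, 0 ≤ C ∧ ∀ (E : Type) [Fintype E] (ν : E → ℝ) (Λ : ℝ)
      (T : (E → ℝ) →ₗ[ℝ] (E → ℝ)), IsT ν Λ T → ∀ (N : ℕ) (f : Fin N → E → ℝ),
      (∀ e, ∑ ω, |f ω e| ^ p ≤ 1) → ∀ m L : ℕ, 1 ≤ m →
      ∑ l ∈ Finset.Ico (-(L : ℤ)) 0, ∑ e, ν e *
          ((2 : ℝ) ^ ((l : ℝ) * (p - 2)) *
            ∑ ω, (T (fun e' => vlev m l (f ω e')) e) ^ 2) ^ (p / 2) ≤
        C * (m : ℝ) ^ (-p) * Λ ^ (p - 2) * ∑ e, ν e := by
  obtain ⟨Cg, hCg, hsum⟩ := blev_sum p hp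
  set s : ℝ := p - 2 with hs
  have hspos : 0 < s := by rw [hs]; linarith
  set W : ℝ := (1 - (2 : ℝ) ^ (-(s / 2)))⁻¹ with hW
  have hr1 : (2 : ℝ) ^ (-(s / 2)) < 1 :=
    Real.rpow_lt_one_of_one_lt_of_neg (by norm_num) (by linarith)
  have hWpos : 0 < W := inv_pos.2 (by linarith)
  refine ⟨W ^ (p / 2) * W ^ (p / 2) * W * Cg, by positivity, ?_⟩
  intro E _ ν Λ T hT N f hf m L hm
  have hΛ : 0 < Λ := lt_of_lt_of_le one_pos hT.one_le
  have hmpos : (0 : ℝ) < m := by exact_mod_cast hm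
  -- the squares
  set w : ℕ → ℝ := fun k => (2 : ℝ) ^ (-((k : ℝ) * (s / 2))) with hw
  have hwpos : ∀ k, 0 < w k := fun k => by rw [hw]; positivity
  have hwsum : ∑ k ∈ Finset.range (2 * m), w k ≤ W := geom_w s hspos (2 * m)
  have hwone : 1 ≤ ∑ k ∈ Finset.range (2 * m), w k := by
    have h0 : w 0 = 1 := by rw [hw]; simp
    rw [← h0]
    exact Finset.single_le_sum (f := w) (fun k _ => (hwpos k).le)
      (Finset.mem_range.2 (by omega))
  set V : ℤ → E → ℝ := fun i e =>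
    (2 : ℝ) ^ ((i : ℝ) * s) * ∑ ω, (T (fun e' => blev i (f ω e')) e) ^ 2 with hV
  have hVnn : ∀ i e, 0 ≤ V i e := fun i e =>
    mul_nonneg (by positivity) (Finset.sum_nonneg fun _ _ => sq_nonneg _)
  -- step 1
  have step1 : ∀ (l : ℤ) (e : E), (2 : ℝ) ^ ((l : ℝ) * s) *
      ∑ ω, (T (fun e' => vlev m l (f ω e')) e) ^ 2 ≤
      (m : ℝ)⁻¹ ^ 2 * (W * ∑ k ∈ Finset.range (2 * m), w k * V (l + k) e) := by
    intro l e
    have h1 : ∀ ω, (T (fun e' => vlev m l (f ω e')) e) ^ 2 ≤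
        (m : ℝ)⁻¹ ^ 2 * (W * ∑ k ∈ Finset.range (2 * m),
          (T (fun e' => blev (l + k) (f ω e')) e) ^ 2 / w k) := by
      intro ω
      rw [T_vlev]
      refine (cs_w (Finset.range (2 * m)) _ (fun k => T (fun e' => blev (l + k) (f ω e')) e) w
        (m : ℝ)⁻¹ (fun k _ => hwpos k) (fun k _ => ?_)).trans ?_
      · have := tent_diff m hm (k : ℤ)
        rwa [one_div] at this
      · refine mul_le_mul_of_nonneg_left ?_ (by positivity)
        refine mul_le_mul_of_nonneg_right hwsum ?_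
        exact Finset.sum_nonneg fun k _ => div_nonneg (sq_nonneg _) (hwpos k).le
    calc (2 : ℝ) ^ ((l : ℝ) * s) * ∑ ω, (T (fun e' => vlev m l (f ω e')) e) ^ 2
        ≤ (2 : ℝ) ^ ((l : ℝ) * s) * ∑ ω, (m : ℝ)⁻¹ ^ 2 * (W * ∑ k ∈ Finset.range (2 * m),
          (T (fun e' => blev (l + k) (f ω e')) e) ^ 2 / w k) :=
          mul_le_mul_of_nonneg_left (Finset.sum_le_sum fun ω _ => h1 ω) (by positivity)
      _ = (m : ℝ)⁻¹ ^ 2 * (W * ∑ k ∈ Finset.range (2 * m), w k * V (l + k) e) := by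
          rw [← Finset.mul_sum, ← Finset.mul_sum, Finset.sum_comm]
          have h2 : ∀ k : ℕ, w k * V (l + k) e = (2 : ℝ) ^ ((l : ℝ) * s) *
              ∑ ω, (T (fun e' => blev (l + k) (f ω e')) e) ^ 2 / w k := by
            intro k
            rw [hV, ← Finset.sum_div]
            simp only
            have h3 : (2 : ℝ) ^ ((((l + (k : ℤ) : ℤ)) : ℝ) * s) =
                (2 : ℝ) ^ ((l : ℝ) * s) * (w k)⁻¹ * (w k)⁻¹ := by
              rw [hw]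
              simp only
              rw [← Real.rpow_neg (by norm_num), mul_assoc, ← Real.rpow_add (by norm_num),
                ← Real.rpow_add (by norm_num)]
              congr 1
              push_cast
              ring
            rw [h3]
            have := (hwpos k).ne'
            field_simp
          rw [Finset.sum_congr rfl (fun k _ => h2 k), ← Finset.mul_sum]
          ring
  have hAnn : ∀ (l : ℤ) (e : E), 0 ≤ (2 : ℝ) ^ ((l : ℝ) * s) *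
      ∑ ω, (T (fun e' => vlev m l (f ω e')) e) ^ 2 := fun l e =>
    mul_nonneg (by positivity) (Finset.sum_nonneg fun _ _ => sq_nonneg _)
  -- step 2
  set Z : ℝ := (m : ℝ) ^ (-p) * (W ^ (p / 2) * W ^ (p / 2)) with hZ
  have hZnn : 0 ≤ Z := by positivity
  have step2 : ∀ (l : ℤ) (e : E), ((2 : ℝ) ^ ((l : ℝ) * s) *
      ∑ ω, (T (fun e' => vlev m l (f ω e')) e) ^ 2) ^ (p / 2) ≤
      Z * ∑ k ∈ Finset.range (2 * m), w k * V (l + k) e ^ (p / 2) := by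
    intro l e
    have hSn : 0 ≤ ∑ k ∈ Finset.range (2 * m), w k * V (l + k) e :=
      Finset.sum_nonneg fun k _ => mul_nonneg (hwpos k).le (hVnn _ _)
    calc ((2 : ℝ) ^ ((l : ℝ) * s) *
        ∑ ω, (T (fun e' => vlev m l (f ω e')) e) ^ 2) ^ (p / 2)
        ≤ ((m : ℝ)⁻¹ ^ 2 * (W * ∑ k ∈ Finset.range (2 * m), w k * V (l + k) e)) ^ (p / 2) :=
          Real.rpow_le_rpow (hAnn l e) (step1 l e) (by linarith)
      _ = (m : ℝ) ^ (-p) * (W ^ (p / 2) *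
          (∑ k ∈ Finset.range (2 * m), w k * V (l + k) e) ^ (p / 2)) := by
          rw [Real.mul_rpow (by positivity) (by positivity), Real.mul_rpow hWpos.le hSn]
          congr 1
          rw [← Real.rpow_natCast, ← Real.rpow_mul (by positivity), Real.inv_rpow hmpos.le,
            ← Real.rpow_neg hmpos.le]
          congr 1
          push_cast
          ring
      _ ≤ (m : ℝ) ^ (-p) * (W ^ (p / 2) *
          (W ^ (p / 2) * ∑ k ∈ Finset.range (2 * m), w k * V (l + k) e ^ (p / 2))) := by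
          refine mul_le_mul_of_nonneg_left ?_ (by positivity)
          refine mul_le_mul_of_nonneg_left ?_ (by positivity)
          exact jensen_w (Finset.range (2 * m)) w (fun k => V (l + k) e) (p / 2) W (by linarith)
            (fun k _ => hwpos k) (fun k _ => hVnn _ _) hwone hwsum
      _ = _ := by rw [hZ]; ring
  -- step 3: sum over `l`
  have step3 : ∀ e : E, ∑ l ∈ Finset.Ico (-(L : ℤ)) 0, ((2 : ℝ) ^ ((l : ℝ) * s) *
      ∑ ω, (T (fun e' => vlev m l (f ω e')) e) ^ 2) ^ (p / 2) ≤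
      Z * (W * ∑ i ∈ Finset.Ico (-(L : ℤ)) (2 * m), V i e ^ (p / 2)) := by
    intro e
    have hXnn : ∀ i, 0 ≤ V i e ^ (p / 2) := fun i => Real.rpow_nonneg (hVnn i e) _
    calc ∑ l ∈ Finset.Ico (-(L : ℤ)) 0, ((2 : ℝ) ^ ((l : ℝ) * s) *
        ∑ ω, (T (fun e' => vlev m l (f ω e')) e) ^ 2) ^ (p / 2)
        ≤ ∑ l ∈ Finset.Ico (-(L : ℤ)) 0,
          Z * ∑ k ∈ Finset.range (2 * m), w k * V (l + k) e ^ (p / 2) :=
          Finset.sum_le_sum fun l _ => step2 l e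
      _ = Z * ∑ k ∈ Finset.range (2 * m), w k *
          ∑ l ∈ Finset.Ico (-(L : ℤ)) 0, V (l + k) e ^ (p / 2) := by
          rw [← Finset.mul_sum, Finset.sum_comm]
          congr 1
          refine Finset.sum_congr rfl fun k _ => ?_
          rw [Finset.mul_sum]
      _ ≤ Z * ∑ k ∈ Finset.range (2 * m), w k *
          ∑ i ∈ Finset.Ico (-(L : ℤ)) (2 * m), V i e ^ (p / 2) := by
          refine mul_le_mul_of_nonneg_left ?_ hZnn
          refine Finset.sum_le_sum fun k hk => ?_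
          refine mul_le_mul_of_nonneg_left ?_ (hwpos k).le
          exact shift_sum (fun i => V i e ^ (p / 2)) hXnn L m k (Finset.mem_range.1 hk)
      _ ≤ _ := by
          rw [← Finset.sum_mul]
          refine mul_le_mul_of_nonneg_left ?_ hZnn
          exact mul_le_mul_of_nonneg_right hwsum (Finset.sum_nonneg fun i _ => hXnn i)
  -- step 4: sup bound
  have step4 : ∀ (i : ℤ) (e : E), V i e ≤ Λ ^ 2 := by
    intro i e
    have h1 := hT.isSup.supl2 N (fun ω e' => blev i (f ω e')) ((2 : ℝ) ^ (-((i : ℝ) * s)))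
      (fun e' => by
        calc ∑ ω, (blev i (f ω e')) ^ 2
            ≤ ∑ ω, (2 : ℝ) ^ (-((i : ℝ) * s)) * |f ω e'| ^ p :=
              Finset.sum_le_sum fun ω _ => blev_sq_le p hp i (f ω e')
          _ = (2 : ℝ) ^ (-((i : ℝ) * s)) * ∑ ω, |f ω e'| ^ p := by rw [Finset.mul_sum]
          _ ≤ (2 : ℝ) ^ (-((i : ℝ) * s)) * 1 :=
              mul_le_mul_of_nonneg_left (hf e') (by positivity)
          _ = _ := mul_one _) e
    calc V i e ≤ (2 : ℝ) ^ ((i : ℝ) * s) * (Λ ^ 2 * (2 : ℝ) ^ (-((i : ℝ) * s))) :=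
          mul_le_mul_of_nonneg_left h1 (by positivity)
      _ = Λ ^ 2 * ((2 : ℝ) ^ ((i : ℝ) * s) * (2 : ℝ) ^ (-((i : ℝ) * s))) := by ring
      _ = Λ ^ 2 := by
          rw [← Real.rpow_add (by norm_num), add_neg_cancel, Real.rpow_zero, mul_one]
  have step5 : ∀ (i : ℤ) (e : E), V i e ^ (p / 2) ≤ Λ ^ s * V i e := by
    intro i e
    rcases (hVnn i e).eq_or_lt with h0 | h0
    · rw [← h0, Real.zero_rpow (by linarith)]
      simp
    · have h1 : V i e ^ (p / 2) = V i e ^ (s / 2) * V i e := by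
        nth_rewrite 3 [← Real.rpow_one (V i e)]
        rw [← Real.rpow_add h0]
        congr 1
        rw [hs]; ring
      rw [h1]
      refine mul_le_mul_of_nonneg_right ?_ h0.le
      calc V i e ^ (s / 2) ≤ (Λ ^ 2) ^ (s / 2) :=
            Real.rpow_le_rpow h0.le (step4 i e) (by linarith)
        _ = Λ ^ s := by
            rw [← Real.rpow_natCast, ← Real.rpow_mul hΛ.le]
            congr 1
            push_cast
            ring
  -- step 6: `L₂`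
  have step6 : ∀ i : ℤ, ∑ e, ν e * V i e ≤
      ∑ e, ν e * ((2 : ℝ) ^ ((i : ℝ) * s) * ∑ ω, (blev i (f ω e)) ^ 2) := by
    intro i
    have h1 : ∀ g : Fin N → E → ℝ, ∑ e, ν e * ((2 : ℝ) ^ ((i : ℝ) * s) * ∑ ω, (g ω e) ^ 2) =
        (2 : ℝ) ^ ((i : ℝ) * s) * ∑ ω, ∑ e, ν e * (g ω e) ^ 2 := by
      intro g
      rw [Finset.sum_comm, Finset.mul_sum]
      refine Finset.sum_congr rfl fun e _ => ?_
      rw [← Finset.mul_sum]
      ring
    rw [h1 (fun ω e => blev i (f ω e))]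
    have h2 := h1 (fun ω e => T (fun e' => blev i (f ω e')) e)
    rw [show (∑ e, ν e * V i e) = ∑ e, ν e * ((2 : ℝ) ^ ((i : ℝ) * s) *
      ∑ ω, (T (fun e' => blev i (f ω e')) e) ^ 2) from rfl, h2]
    refine mul_le_mul_of_nonneg_left ?_ (by positivity)
    exact Finset.sum_le_sum fun ω _ => hT.two _
  have step7 : ∑ i ∈ Finset.Ico (-(L : ℤ)) (2 * m), ∑ e, ν e * V i e ≤ Cg * ∑ e, ν e := by
    calc ∑ i ∈ Finset.Ico (-(L : ℤ)) (2 * m), ∑ e, ν e * V i e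
        ≤ ∑ i ∈ Finset.Ico (-(L : ℤ)) (2 * m),
          ∑ e, ν e * ((2 : ℝ) ^ ((i : ℝ) * s) * ∑ ω, (blev i (f ω e)) ^ 2) :=
          Finset.sum_le_sum fun i _ => step6 i
      _ = ∑ e, ν e * ∑ ω, ∑ i ∈ Finset.Ico (-(L : ℤ)) (2 * m),
          (2 : ℝ) ^ ((i : ℝ) * s) * (blev i (f ω e)) ^ 2 := by
          rw [Finset.sum_comm]
          refine Finset.sum_congr rfl fun e _ => ?_
          rw [← Finset.mul_sum, Finset.sum_comm]
          congr 1
          refine Finset.sum_congr rfl fun i _ => ?_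
          rw [Finset.mul_sum]
      _ ≤ ∑ e, ν e * (Cg * 1) := by
          refine Finset.sum_le_sum fun e _ => ?_
          refine mul_le_mul_of_nonneg_left ?_ (hT.nu_pos e).le
          calc ∑ ω, ∑ i ∈ Finset.Ico (-(L : ℤ)) (2 * m),
              (2 : ℝ) ^ ((i : ℝ) * s) * (blev i (f ω e)) ^ 2
              ≤ ∑ ω, Cg * |f ω e| ^ p := Finset.sum_le_sum fun ω _ => hsum _ _
            _ = Cg * ∑ ω, |f ω e| ^ p := by rw [Finset.mul_sum]
            _ ≤ Cg * 1 := mul_le_mul_of_nonneg_left (hf e) hCg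
      _ = Cg * ∑ e, ν e := by
          rw [← Finset.sum_mul]; ring
  -- conclusion
  calc ∑ l ∈ Finset.Ico (-(L : ℤ)) 0, ∑ e, ν e *
          ((2 : ℝ) ^ ((l : ℝ) * s) *
            ∑ ω, (T (fun e' => vlev m l (f ω e')) e) ^ 2) ^ (p / 2)
      = ∑ e, ν e * ∑ l ∈ Finset.Ico (-(L : ℤ)) 0, ((2 : ℝ) ^ ((l : ℝ) * s) *
            ∑ ω, (T (fun e' => vlev m l (f ω e')) e) ^ 2) ^ (p / 2) := by
        rw [Finset.sum_comm]
        refine Finset.sum_congr rfl fun e _ => ?_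
        rw [Finset.mul_sum]
    _ ≤ ∑ e, ν e * (Z * (W * ∑ i ∈ Finset.Ico (-(L : ℤ)) (2 * m), V i e ^ (p / 2))) :=
        Finset.sum_le_sum fun e _ => mul_le_mul_of_nonneg_left (step3 e) (hT.nu_pos e).le
    _ ≤ ∑ e, ν e * (Z * (W * ∑ i ∈ Finset.Ico (-(L : ℤ)) (2 * m), Λ ^ s * V i e)) := by
        refine Finset.sum_le_sum fun e _ => mul_le_mul_of_nonneg_left ?_ (hT.nu_pos e).le
        refine mul_le_mul_of_nonneg_left ?_ hZnn
        refine mul_le_mul_of_nonneg_left ?_ hWpos.le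
        exact Finset.sum_le_sum fun i _ => step5 i e
    _ = Z * W * Λ ^ s * ∑ i ∈ Finset.Ico (-(L : ℤ)) (2 * m), ∑ e, ν e * V i e := by
        rw [Finset.sum_comm, Finset.mul_sum]
        refine Finset.sum_congr rfl fun e _ => ?_
        rw [← Finset.mul_sum, ← Finset.mul_sum]
        ring
    _ ≤ Z * W * Λ ^ s * (Cg * ∑ e, ν e) :=
        mul_le_mul_of_nonneg_left step7 (by positivity)
    _ = W ^ (p / 2) * W ^ (p / 2) * W * Cg * (m : ℝ) ^ (-p) * Λ ^ s * ∑ e, ν e := by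
        rw [hZ]; ring

end Crest.Agent.R232
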