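import Crest.Agent.R232.Defs

/-! # Row 232, piece PIB: elementary inequalities for `|·|^p`, part B

* `tp_low` (`1 ≤ p ≤ 2`): `t ↦ t^{p/2}` is concave, so with `t = (x±y)²`:
  LHS `≤ (x²+y²)^{p/2} ≤ |x|^p + |y|^p` (`Real.rpow_add_le_add_rpow` or similar, `p/2 ≤ 1`).
* `tp_high` (`2 ≤ p`): if `|x| ≤ |y|`, LHS `≤ (2|y|)^p`. If `|y| < |x|`, by homogeneity (divide by
  `|x|`, replace `y` by `-y`) it is `g(u) = ((1+u)^p + (1-u)^p)/2 ≤ 1 + C u²`, `0 ≤ u ≤ 1`: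
  `g(0)=1`, `g'(u) = (p/2)((1+u)^{p-1}-(1-u)^{p-1}) ≤ (p/2)(p-1)2^{p-2}·2u` (mean value).
* `tp_mono` (`1 ≤ p`): convexity of `|·|^p`. -/

set_option autoImplicit false

namespace Crest.Agent.R232

theorem tang (r : ℝ) (hr : 1 ≤ r) (a b : ℝ) (ha : 0 ≤ a) (hb : 0 < b) :
    b ^ r + r * b ^ (r - 1) * (a - b) ≤ a ^ r := by
  have h1 := one_add_mul_self_le_rpow_one_add (s := a / b - 1) (by
    have : 0 ≤ a / b := div_nonneg ha hb.le
    linarith) hr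
  have e1 : 1 + (a / b - 1) = a / b := by ring
  rw [e1, Real.div_rpow ha hb.le, le_div_iff₀ (Real.rpow_pos_of_pos hb r)] at h1
  have e2 : b ^ r = b ^ (r - 1) * b := by
    rw [Real.rpow_sub_one hb.ne']
    field_simp
  have e3 : (1 + r * (a / b - 1)) * b ^ r = b ^ r + r * b ^ (r - 1) * (a - b) := by
    rw [e2]; field_simp
  rw [← e3]
  exact h1

theorem abs_pm (p x y : ℝ) :
    |x + y| ^ p + |x - y| ^ p = (|x| + |y|) ^ p + |(|x| - |y|)| ^ p := by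
  rcases le_total 0 x with hx | hx <;> rcases le_total 0 y with hy | hy
  · rw [abs_of_nonneg hx, abs_of_nonneg hy, abs_of_nonneg (add_nonneg hx hy)]
  · rw [abs_of_nonneg hx, abs_of_nonpos hy, abs_of_nonneg (by linarith : 0 ≤ x - y),
      add_comm, sub_neg_eq_add]
    rfl
  · rw [abs_of_nonpos hx, abs_of_nonneg hy, abs_of_nonpos (by linarith : x - y ≤ 0), add_comm]
    congr 2
    · ring
    · rw [← abs_neg]; congr 1; ring
  · rw [abs_of_nonpos hx, abs_of_nonpos hy, abs_of_nonpos (by linarith : x + y ≤ 0)]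
    congr 2
    · ring
    · rw [← abs_neg]; congr 1; ring

theorem tp_low (p : ℝ) (h1 : 1 ≤ p) (h2 : p ≤ 2) (x y : ℝ) :
    (|x + y| ^ p + |x - y| ^ p) / 2 ≤ |x| ^ p + |y| ^ p := by
  have hq0 : 0 ≤ p / 2 := by linarith
  have hq1 : p / 2 ≤ 1 := by linarith
  have key : ∀ z : ℝ, |z| ^ p = (z ^ 2) ^ (p / 2) := by
    intro z
    rw [← sq_abs z, ← Real.rpow_natCast, ← Real.rpow_mul (abs_nonneg z)]
    congr 1
    push_cast
    ring
  rw [key, key, key, key]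
  have hc := (Real.concaveOn_rpow hq0 hq1).2 (Set.mem_Ici.2 (sq_nonneg (x + y)))
    (Set.mem_Ici.2 (sq_nonneg (x - y))) (by norm_num : (0 : ℝ) ≤ 1 / 2)
    (by norm_num : (0 : ℝ) ≤ 1 / 2) (by norm_num)
  simp only [smul_eq_mul] at hc
  have e : 1 / 2 * (x + y) ^ 2 + 1 / 2 * (x - y) ^ 2 = x ^ 2 + y ^ 2 := by ring
  rw [e] at hc
  have h3 := Real.rpow_add_le_add_rpow (sq_nonneg x) (sq_nonneg y) hq0 hq1
  linarith

theorem tp_high (p : ℝ) (h2 : 2 ≤ p) :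
    ∃ C : ℝ, 0 ≤ C ∧ ∀ x y : ℝ,
      (|x + y| ^ p + |x - y| ^ p) / 2 ≤ |x| ^ p + C * (|x| ^ (p - 2) * y ^ 2 + |y| ^ p) := by
  refine ⟨(2 : ℝ) ^ p + p * (p - 1) * 2 ^ (p - 2), by
    have : 0 ≤ p * (p - 1) := mul_nonneg (by linarith) (by linarith)
    positivity, ?_⟩
  intro x y
  rw [abs_pm]
  set X := |x| with hX
  set Y := |y| with hY
  have hX0 : 0 ≤ X := abs_nonneg x
  have hY0 : 0 ≤ Y := abs_nonneg y
  have hyY : y ^ 2 = Y ^ 2 := (sq_abs y).symm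
  rw [hyY]
  have hp0 : 0 ≤ p := by linarith
  have hpp : 0 ≤ p * (p - 1) := mul_nonneg (by linarith) (by linarith)
  have h2p : 0 ≤ (2 : ℝ) ^ p := by positivity
  have h2p2 : 0 ≤ (2 : ℝ) ^ (p - 2) := by positivity
  have hXp : 0 ≤ X ^ p := by positivity
  have hXp2 : 0 ≤ X ^ (p - 2) := by positivity
  have hYp : 0 ≤ Y ^ p := by positivity
  have hC : 0 ≤ p * (p - 1) * 2 ^ (p - 2) := mul_nonneg hpp h2p2
  rcases le_or_gt X Y with h | h
  · have h1 : (X + Y) ^ p ≤ 2 ^ p * Y ^ p := by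
      rw [← Real.mul_rpow (by norm_num) hY0]
      exact Real.rpow_le_rpow (by positivity) (by linarith) hp0
    have h3 : |X - Y| ^ p ≤ 2 ^ p * Y ^ p := by
      rw [← Real.mul_rpow (by norm_num) hY0]
      refine Real.rpow_le_rpow (abs_nonneg _) ?_ hp0
      rw [abs_le]; constructor <;> linarith
    have h4 : 0 ≤ (2 : ℝ) ^ p * (X ^ (p - 2) * Y ^ 2) := by positivity
    have h5 : 0 ≤ p * (p - 1) * 2 ^ (p - 2) * (X ^ (p - 2) * Y ^ 2 + Y ^ p) := by positivity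
    nlinarith
  · have hX1 : 0 < X := lt_of_le_of_lt hY0 h
    have hsub : 0 < X - Y := by linarith
    rw [abs_of_pos hsub]
    have t1 := tang p (by linarith) X (X + Y) hX0 (by linarith)
    have t2 := tang p (by linarith) X (X - Y) hX0 hsub
    have t3 := tang (p - 1) (by linarith) (X - Y) (X + Y) hsub.le (by linarith)
    have e1 : p - 1 - 1 = p - 2 := by ring
    rw [e1] at t3
    have t4 : (X + Y) ^ (p - 2) ≤ 2 ^ (p - 2) * X ^ (p - 2) := by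
      rw [← Real.mul_rpow (by norm_num) hX0]
      exact Real.rpow_le_rpow (by linarith) (by linarith) (by linarith)
    have t5 : (X + Y) ^ (p - 1) - (X - Y) ^ (p - 1) ≤ 2 * (p - 1) * Y * (2 ^ (p - 2) * X ^ (p - 2)) := by
      have : 2 * (p - 1) * Y * (X + Y) ^ (p - 2) ≤ 2 * (p - 1) * Y * (2 ^ (p - 2) * X ^ (p - 2)) :=
        mul_le_mul_of_nonneg_left t4 (mul_nonneg (by linarith) hY0)
      nlinarith
    have t6 : p * Y * ((X + Y) ^ (p - 1) - (X - Y) ^ (p - 1)) ≤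
        p * Y * (2 * (p - 1) * Y * (2 ^ (p - 2) * X ^ (p - 2))) :=
      mul_le_mul_of_nonneg_left t5 (mul_nonneg hp0 hY0)
    have h4 : 0 ≤ (2 : ℝ) ^ p * (X ^ (p - 2) * Y ^ 2 + Y ^ p) := by positivity
    have h5 : 0 ≤ p * (p - 1) * 2 ^ (p - 2) * Y ^ p := by positivity
    nlinarith

theorem tp_mono (p : ℝ) (h1 : 1 ≤ p) (x y : ℝ) :
    |x| ^ p ≤ (|x + y| ^ p + |x - y| ^ p) / 2 := by
  have hc := (convexOn_rpow h1).2 (Set.mem_Ici.2 (abs_nonneg (x + y)))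
    (Set.mem_Ici.2 (abs_nonneg (x - y))) (by norm_num : (0 : ℝ) ≤ 1 / 2)
    (by norm_num : (0 : ℝ) ≤ 1 / 2) (by norm_num)
  simp only [smul_eq_mul] at hc
  have h2 : |x| ≤ 1 / 2 * |x + y| + 1 / 2 * |x - y| := by
    have h3 : |(x + y) + (x - y)| ≤ |x + y| + |x - y| := abs_add_le _ _
    have h4 : (x + y) + (x - y) = 2 * x := by ring
    rw [h4, abs_mul, abs_of_pos (by norm_num : (0 : ℝ) < 2)] at h3
    linarith
  have h5 := Real.rpow_le_rpow (abs_nonneg x) h2 (by linarith : 0 ≤ p)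
  linarith

end Crest.Agent.R232
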