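import Crest.Agent.R232.ExApi
import Crest.Agent.R232.PIneqB

/-! # Row 232, piece ROS: Rosenthal's inequality for the random sum (`p ≥ 2`)

Let `C₁` be the constant of `tp_high`. Claim (induction on `N`): if `Ex |rs x|^p ≤ W` then
`Ex |rs x|^p ≤ C₁ (δ ∑|x|^p + (δ ∑ x²) W^{(p-2)/p})`.
Step: `Ex_rs_succ` gives `Ex|S|^p = Ex|S'|^p + δ Ex[(|S'+x₀|^p+|S'-x₀|^p)/2 - |S'|^p]`
`≤ Ex|S'|^p + δ C₁ (x₀² Ex|S'|^{p-2} + |x₀|^p)`; `Ex|S'|^p ≤ Ex|S|^p ≤ W` by `tp_mono`, and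
`Ex|S'|^{p-2} ≤ (Ex|S'|^p)^{(p-2)/p} ≤ W^{(p-2)/p}` (Jensen/Hölder for the probability weights:
`Real.rpow_arith_mean_le_arith_mean_rpow` with the weights `∏ wt` (sum 1 by `wprod_sum`); for
`p = 2` the left side is `Ex 1 = 1`).
With `W = Z = Ex|S|^p`: `Z ≤ C₁ A + C₁ B Z^{1-2/p}`, so `Z ≤ 2 C₁ A` or `Z ≤ 2 C₁ B Z^{1-2/p}`,
and the latter gives `Z ≤ (2 C₁ B)^{p/2}`. Take `C = 2 C₁ + (2 C₁)^{p/2}`. -/

set_option autoImplicit false

namespace Crest.Agent.R232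

/-- Jensen: `E |S|^{p-2} ≤ (E |S|^p)^{(p-2)/p}` -/
theorem ros_jensen (p : ℝ) (h2 : 2 ≤ p) {N : ℕ} {δ : ℝ} (h0 : 0 ≤ δ) (h1 : δ ≤ 1)
    (F : (Fin N → SignType) → ℝ) :
    Ex δ (fun η => |F η| ^ (p - 2)) ≤ (Ex δ (fun η => |F η| ^ p)) ^ ((p - 2) / p) := by
  rcases eq_or_lt_of_le h2 with h | h
  · subst h
    norm_num
    rw [Ex_const]
  · have hp2 : 0 < p - 2 := by linarith
    have hp : 0 < p := by linarith
    have hq : 1 ≤ p / (p - 2) := by rw [le_div_iff₀ hp2]; linarith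
    have hE0 : 0 ≤ Ex δ (fun η => |F η| ^ (p - 2)) := Ex_nonneg h0 h1 fun η => by positivity
    have hE1 : 0 ≤ Ex δ (fun η => |F η| ^ p) := Ex_nonneg h0 h1 fun η => by positivity
    have hj : (Ex δ (fun η => |F η| ^ (p - 2))) ^ (p / (p - 2)) ≤ Ex δ (fun η => |F η| ^ p) := by
      have := Real.rpow_arith_mean_le_arith_mean_rpow (Finset.univ : Finset (Fin N → SignType))
        (fun η => ∏ i, wt δ (η i)) (fun η => |F η| ^ (p - 2))
        (fun η _ => wprod_nonneg h0 h1 η) (wprod_sum N δ) (fun η _ => by positivity) hq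
      unfold Ex
      refine this.trans (le_of_eq (Finset.sum_congr rfl fun η _ => ?_))
      rw [← Real.rpow_mul (abs_nonneg _)]
      congr 2
      field_simp
    have h3 := Real.rpow_le_rpow (by positivity) hj (by positivity : 0 ≤ (p - 2) / p)
    rw [← Real.rpow_mul hE0] at h3
    have h4 : p / (p - 2) * ((p - 2) / p) = 1 := by field_simp
    rwa [h4, Real.rpow_one] at h3

theorem ros_claim (p : ℝ) (h2 : 2 ≤ p) (C₁ : ℝ) (hC₁ : 0 ≤ C₁)
    (hC : ∀ x y : ℝ, (|x + y| ^ p + |x - y| ^ p) / 2 ≤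
      |x| ^ p + C₁ * (|x| ^ (p - 2) * y ^ 2 + |y| ^ p)) (δ : ℝ) (h0 : 0 ≤ δ) (h1 : δ ≤ 1) :
    ∀ (N : ℕ) (x : Fin N → ℝ) (W : ℝ), Ex δ (fun η => |rs x η| ^ p) ≤ W →
      Ex δ (fun η => |rs x η| ^ p) ≤
        C₁ * (δ * ∑ i, |x i| ^ p + (δ * ∑ i, (x i) ^ 2) * W ^ ((p - 2) / p)) := by
  intro N
  induction N with
  | zero =>
    intro x W hW
    rw [Ex_zero, rs_zero, abs_zero, Real.zero_rpow (by linarith)]
    simp
  | succ N ih =>
    intro x W hW
    set S : (Fin N → SignType) → ℝ := fun η => rs (fun i => x i.succ) η with hS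
    have hrec : Ex δ (fun η => |rs x η| ^ p) = Ex δ (fun η => |S η| ^ p) +
        δ * Ex δ (fun η => (|S η + x 0| ^ p + |S η - x 0| ^ p) / 2 - |S η| ^ p) := by
      have e1 := Ex_rs_succ (δ := δ) (fun t => |t| ^ p) x
      have e2 : Ex δ (fun η => (|S η + x 0| ^ p + |S η - x 0| ^ p) / 2 - |S η| ^ p) =
          1 / 2 * (Ex δ (fun η => |S η + x 0| ^ p) + Ex δ (fun η => |S η - x 0| ^ p)) -
            Ex δ (fun η => |S η| ^ p) := by
        rw [Ex_sub, ← Ex_add, ← Ex_const_mul]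
        congr 2
        funext η; ring
      have e3 : (fun η : Fin N → SignType => |x 0 + rs (fun i => x i.succ) η| ^ p) =
          fun η => |S η + x 0| ^ p := by
        funext η; rw [hS, add_comm]
      have e4 : (fun η : Fin N → SignType => |-x 0 + rs (fun i => x i.succ) η| ^ p) =
          fun η => |S η - x 0| ^ p := by
        funext η; rw [hS]; congr 2; ring
      rw [e1, e2, e3, e4]
      ring
    have hmono : Ex δ (fun η => |S η| ^ p) ≤ Ex δ (fun η => |rs x η| ^ p) := by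
      rw [hrec]
      have : 0 ≤ Ex δ (fun η => (|S η + x 0| ^ p + |S η - x 0| ^ p) / 2 - |S η| ^ p) :=
        Ex_nonneg h0 h1 fun η => by
          have := tp_mono p (by linarith) (S η) (x 0)
          linarith
      have := mul_nonneg h0 this
      linarith
    have hSW : Ex δ (fun η => |S η| ^ p) ≤ W := hmono.trans hW
    have hih := ih (fun i => x i.succ) W hSW
    have hE0 : 0 ≤ Ex δ (fun η => |S η| ^ p) := Ex_nonneg h0 h1 fun η => by positivity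
    have hW0 : 0 ≤ W := hE0.trans hSW
    have hj : Ex δ (fun η => |S η| ^ (p - 2)) ≤ W ^ ((p - 2) / p) :=
      (ros_jensen p h2 h0 h1 S).trans (Real.rpow_le_rpow hE0 hSW
        (div_nonneg (by linarith) (by linarith)))
    have hstep : Ex δ (fun η => (|S η + x 0| ^ p + |S η - x 0| ^ p) / 2 - |S η| ^ p) ≤
        C₁ * (x 0 ^ 2 * W ^ ((p - 2) / p) + |x 0| ^ p) := by
      calc _ ≤ Ex δ (fun η => C₁ * x 0 ^ 2 * |S η| ^ (p - 2) + C₁ * |x 0| ^ p) :=
            Ex_mono h0 h1 fun η => by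
              have := hC (S η) (x 0)
              linarith
        _ = C₁ * x 0 ^ 2 * Ex δ (fun η => |S η| ^ (p - 2)) + C₁ * |x 0| ^ p := by
            rw [Ex_add, Ex_const_mul, Ex_const]
        _ ≤ C₁ * x 0 ^ 2 * W ^ ((p - 2) / p) + C₁ * |x 0| ^ p := by
            have := mul_le_mul_of_nonneg_left hj (by positivity : 0 ≤ C₁ * x 0 ^ 2)
            linarith
        _ = _ := by ring
    have hfin := mul_le_mul_of_nonneg_left hstep h0
    rw [hrec, Fin.sum_univ_succ (fun i => |x i| ^ p), Fin.sum_univ_succ (fun i => (x i) ^ 2)]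
    nlinarith [hfin, hih]

theorem ros (p : ℝ) (h2 : 2 ≤ p) :
    ∃ C : ℝ, 0 ≤ C ∧ ∀ (N : ℕ) (δ : ℝ), 0 ≤ δ → δ ≤ 1 → ∀ x : Fin N → ℝ,
      Ex δ (fun η => |rs x η| ^ p) ≤
        C * (δ * ∑ i, |x i| ^ p + (δ * ∑ i, (x i) ^ 2) ^ (p / 2)) := by
  obtain ⟨C₁, hC₁, hC⟩ := tp_high p h2
  have hp : 0 < p := by linarith
  refine ⟨2 * C₁ + (2 * C₁) ^ (p / 2), by positivity, ?_⟩
  intro N δ h0 h1 x
  set Z : ℝ := Ex δ (fun η => |rs x η| ^ p) with hZ
  set A : ℝ := δ * ∑ i, |x i| ^ p with hA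
  set B : ℝ := δ * ∑ i, (x i) ^ 2 with hB
  have hA0 : 0 ≤ A := mul_nonneg h0 (Finset.sum_nonneg fun _ _ => by positivity)
  have hB0 : 0 ≤ B := mul_nonneg h0 (Finset.sum_nonneg fun _ _ => by positivity)
  have hcl : Z ≤ C₁ * (A + B * Z ^ ((p - 2) / p)) :=
    ros_claim p h2 C₁ hC₁ hC δ h0 h1 N x Z le_rfl
  have hBp : 0 ≤ B ^ (p / 2) := by positivity
  have hCp : 0 ≤ (2 * C₁) ^ (p / 2) := by positivity
  by_cases hcase : Z ≤ 2 * C₁ * A
  · have e1 : 0 ≤ (2 * C₁ + (2 * C₁) ^ (p / 2)) * B ^ (p / 2) := by positivity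
    have e2 : 0 ≤ (2 * C₁) ^ (p / 2) * A := by positivity
    nlinarith
  · push Not at hcase
    have hZ0 : 0 < Z := lt_of_le_of_lt (by positivity) hcase
    have h3 : Z ≤ 2 * C₁ * B * Z ^ ((p - 2) / p) := by nlinarith
    have h4 : Z = Z ^ (2 / p) * Z ^ ((p - 2) / p) := by
      rw [← Real.rpow_add hZ0]
      have : 2 / p + (p - 2) / p = 1 := by field_simp; ring
      rw [this, Real.rpow_one]
    have h5 : Z ^ (2 / p) ≤ 2 * C₁ * B := by
      have hpos : 0 < Z ^ ((p - 2) / p) := Real.rpow_pos_of_pos hZ0 _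
      refine le_of_mul_le_mul_right ?_ hpos
      rw [← h4]; exact h3
    have h6 := Real.rpow_le_rpow (by positivity) h5 (by positivity : 0 ≤ p / 2)
    rw [← Real.rpow_mul hZ0.le, show 2 / p * (p / 2) = 1 by field_simp, Real.rpow_one,
      Real.mul_rpow (by positivity) hB0] at h6
    have e1 : 0 ≤ 2 * C₁ * B ^ (p / 2) := by positivity
    have e2 : 0 ≤ (2 * C₁ + (2 * C₁) ^ (p / 2)) * A := by positivity
    nlinarith

end Crest.Agent.R232
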