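import Crest.Agent.R232.ExApi
import Crest.Agent.R232.PIneqB

/-! # Row 232, piece VBE: moments of order `≤ 2` of the random sum

Both by induction on `N` from `Ex_rs_succ` (with `Φ = |·|^p`) and `Ex_add`, `Ex_const_mul`,
`Ex_mono`, `Ex_const`:
* `vbe`: `(|x+S'|^p + |-x+S'|^p)/2 ≤ |S'|^p + |x|^p` (`tp_low`, `|-x+S'| = |S'-x|`).
* `ex_sub` (`0 < r ≤ 1`): `|±x+S'|^r ≤ |x|^r + |S'|^r`. -/

set_option autoImplicit false

namespace Crest.Agent.R232

theorem ex_ind (r : ℝ) (hr : 0 < r)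
    (h : ∀ x y : ℝ, (|x + y| ^ r + |-x + y| ^ r) / 2 ≤ |y| ^ r + |x| ^ r) (N : ℕ) (δ : ℝ)
    (h0 : 0 ≤ δ) (hδ : δ ≤ 1) (x : Fin N → ℝ) :
    Ex δ (fun η => |rs x η| ^ r) ≤ δ * ∑ i, |x i| ^ r := by
  induction N with
  | zero =>
    rw [Ex_zero, rs_zero, abs_zero, Real.zero_rpow hr.ne']
    simp
  | succ N ih =>
    rw [Ex_rs_succ (fun s => |s| ^ r), Fin.sum_univ_succ]
    have ih' := ih (fun i => x i.succ)
    have h1 : (Ex δ (fun η => |x 0 + rs (fun i => x i.succ) η| ^ r) +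
        Ex δ (fun η => |-x 0 + rs (fun i => x i.succ) η| ^ r)) / 2 ≤
        Ex δ (fun η => |rs (fun i => x i.succ) η| ^ r) + |x 0| ^ r := by
      rw [← Ex_add]
      have h2 := Ex_mono (N := N) h0 hδ (fun η => h (x 0) (rs (fun i => x i.succ) η))
      rw [Ex_add, Ex_const] at h2
      have h3 : Ex δ (fun η : Fin N → SignType => (|x 0 + rs (fun i => x i.succ) η| ^ r +
          |-x 0 + rs (fun i => x i.succ) η| ^ r) / 2) =
          Ex δ (fun η => (|x 0 + rs (fun i => x i.succ) η| ^ r +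
          |-x 0 + rs (fun i => x i.succ) η| ^ r)) / 2 := by
        rw [div_eq_inv_mul, ← Ex_const_mul]
        congr 1
        funext η
        rw [div_eq_inv_mul]
      rw [h3] at h2
      exact h2
    have h4 := mul_le_mul_of_nonneg_left h1 h0
    nlinarith [h4, ih']

theorem vbe (p : ℝ) (h1 : 1 ≤ p) (h2 : p ≤ 2) (N : ℕ) (δ : ℝ) (h0 : 0 ≤ δ) (hδ : δ ≤ 1)
    (x : Fin N → ℝ) : Ex δ (fun η => |rs x η| ^ p) ≤ δ * ∑ i, |x i| ^ p := by
  refine ex_ind p (by linarith) (fun x y => ?_) N δ h0 hδ x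
  have h := tp_low p h1 h2 y x
  have e1 : |x + y| = |y + x| := by rw [add_comm]
  have e2 : |-x + y| = |y - x| := by congr 1; ring
  rw [e1, e2]
  exact h

theorem ex_sub (r : ℝ) (h1 : 0 < r) (h2 : r ≤ 1) (N : ℕ) (δ : ℝ) (h0 : 0 ≤ δ) (hδ : δ ≤ 1)
    (x : Fin N → ℝ) : Ex δ (fun η => |rs x η| ^ r) ≤ δ * ∑ i, |x i| ^ r := by
  refine ex_ind r h1 (fun x y => ?_) N δ h0 hδ x
  have key : ∀ a b : ℝ, |a + b| ^ r ≤ |a| ^ r + |b| ^ r := fun a b =>
    (Real.rpow_le_rpow (abs_nonneg _) (abs_add_le a b) h1.le).trans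
      (Real.rpow_add_le_add_rpow (abs_nonneg _) (abs_nonneg _) h1.le h2)
  have k1 := key x y
  have k2 := key (-x) y
  rw [abs_neg] at k2
  linarith

end Crest.Agent.R232
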