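import Crest.Agent.R232.ErrLow
import Crest.Agent.R232.ErrHigh
import Crest.Agent.R232.ErrVec
import Crest.Agent.R232.Ros
import Crest.Agent.R232.Vbe

/-! # Row 232, piece ERR: the random error, both ranges of `p`

`x ω = 2^{-l} T v_l(ω) e`, `δ = 2^{lp}` (`≤ 1` as `l < 0`): `δ |x ω|^p = |T v_l(ω) e|^p`,
`δ (x ω)² = 2^{l(p-2)} (T v_l(ω) e)²`.
`p < 2` (`gam p = 2-p`): `vbe` and `err_low` for each `ω`, sum over `ω`.
`p > 2` (`gam p = 1-2/p`): `ros`, `err_high` for each `ω` and `err_vec`: total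
`≤ C (m^{1-p} + m^{-p}) Λ^{p-2} ∑ ν ≤ 2C m^{1-p} Λ^{γp} ∑ ν = 2C Λ^γ (Λ^γ/m)^{p-1} ∑ ν ≤ 2C Λ^γ ∑ ν`. -/

set_option autoImplicit false

namespace Crest.Agent.R232

theorem scale_p (p : ℝ) (l : ℤ) (x : ℝ) :
    (2 : ℝ) ^ ((l : ℝ) * p) * |(2 : ℝ) ^ (-(l : ℝ)) * x| ^ p = |x| ^ p := by
  rw [abs_mul, abs_of_pos (Real.rpow_pos_of_pos (by norm_num) _),
    Real.mul_rpow (by positivity) (abs_nonneg _), ← Real.rpow_mul (by norm_num), ← mul_assoc,
    ← Real.rpow_add (by norm_num)]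
  have : (l : ℝ) * p + -(l : ℝ) * p = 0 := by ring
  rw [this, Real.rpow_zero, one_mul]

theorem scale_2 (p : ℝ) (l : ℤ) (x : ℝ) :
    (2 : ℝ) ^ ((l : ℝ) * p) * ((2 : ℝ) ^ (-(l : ℝ)) * x) ^ 2 =
      (2 : ℝ) ^ ((l : ℝ) * (p - 2)) * x ^ 2 := by
  rw [mul_pow, ← Real.rpow_natCast ((2 : ℝ) ^ (-(l : ℝ))) 2, ← Real.rpow_mul (by norm_num),
    ← mul_assoc, ← Real.rpow_add (by norm_num)]
  congr 2
  push_cast
  ring

theorem delta_le (p : ℝ) (hp : 1 < p) {L : ℕ} {l : ℤ} (hl : l ∈ Finset.Ico (-(L : ℤ)) 0) :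
    (2 : ℝ) ^ ((l : ℝ) * p) ≤ 1 := by
  rw [Finset.mem_Ico] at hl
  apply Real.rpow_le_one_of_one_le_of_nonpos (by norm_num)
  have : (l : ℝ) ≤ 0 := by exact_mod_cast hl.2.le
  nlinarith

theorem err (p : ℝ) (hp : 1 < p) (hp2 : p ≠ 2) :
    ∃ C : ℝ, 0 ≤ C ∧ ∀ (E : Type) [Fintype E] (ν : E → ℝ) (Λ : ℝ)
      (T : (E → ℝ) →ₗ[ℝ] (E → ℝ)), IsT ν Λ T → ∀ (N : ℕ) (f : Fin N → E → ℝ),
      (∀ ω, T (f ω) = 0) → (∀ e, ∑ ω, |f ω e| ^ p ≤ 1) → ∀ m L : ℕ, 1 ≤ m →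
      Λ ^ gam p ≤ m →
      ∑ l ∈ Finset.Ico (-(L : ℤ)) 0, ∑ e, ν e * Ex ((2 : ℝ) ^ ((l : ℝ) * p))
          (fun η => |rs (fun ω => (2 : ℝ) ^ (-(l : ℝ)) *
            T (fun e' => vlev m l (f ω e')) e) η| ^ p) ≤
        C * Λ ^ gam p * ∑ e, ν e := by
  have hp0 : 0 < p := by linarith
  rcases lt_or_gt_of_ne hp2 with h | h
  · obtain ⟨C, hC, hlow⟩ := err_low p hp h
    refine ⟨C, hC, fun E _ ν Λ T hT N f hTf hf m L hm hΛ => ?_⟩
    have hg : gam p = 2 - p := by simp [gam, h]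
    rw [hg]
    have hΛ0 : 0 ≤ Λ := by linarith [hT.one_le]
    calc ∑ l ∈ Finset.Ico (-(L : ℤ)) 0, ∑ e, ν e * Ex ((2 : ℝ) ^ ((l : ℝ) * p))
          (fun η => |rs (fun ω => (2 : ℝ) ^ (-(l : ℝ)) *
            T (fun e' => vlev m l (f ω e')) e) η| ^ p)
        ≤ ∑ l ∈ Finset.Ico (-(L : ℤ)) 0, ∑ e, ν e *
            ∑ ω, |T (fun e' => vlev m l (f ω e')) e| ^ p := by
          refine Finset.sum_le_sum fun l hl => Finset.sum_le_sum fun e _ =>
            mul_le_mul_of_nonneg_left ?_ (hT.nu_pos e).le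
          refine (vbe p hp.le h.le N _ (by positivity) (delta_le p hp hl) _).trans ?_
          rw [Finset.mul_sum]
          exact Finset.sum_le_sum fun ω _ => (scale_p p l _).le
      _ = ∑ ω, ∑ l ∈ Finset.Ico (-(L : ℤ)) 0, ∑ e, ν e *
            |T (fun e' => vlev m l (f ω e')) e| ^ p := by
          symm
          rw [Finset.sum_comm]
          refine Finset.sum_congr rfl fun l _ => ?_
          rw [Finset.sum_comm]
          refine Finset.sum_congr rfl fun e _ => ?_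
          rw [Finset.mul_sum]
      _ ≤ ∑ ω, C * Λ ^ (2 - p) * ∑ e, ν e * |f ω e| ^ p :=
          Finset.sum_le_sum fun ω _ => hlow E ν Λ T hT (f ω) (hTf ω) m L hm
      _ = C * Λ ^ (2 - p) * ∑ e, ν e * ∑ ω, |f ω e| ^ p := by
          rw [← Finset.mul_sum, Finset.sum_comm]
          congr 1
          refine Finset.sum_congr rfl fun e _ => ?_
          rw [Finset.mul_sum]
      _ ≤ C * Λ ^ (2 - p) * ∑ e, ν e := by
          refine mul_le_mul_of_nonneg_left (Finset.sum_le_sum fun e _ => ?_)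
            (mul_nonneg hC (Real.rpow_nonneg hΛ0 _))
          calc ν e * ∑ ω, |f ω e| ^ p ≤ ν e * 1 :=
                mul_le_mul_of_nonneg_left (hf e) (hT.nu_pos e).le
            _ = ν e := mul_one _
  · obtain ⟨C1, hC1, hros⟩ := ros p h.le
    obtain ⟨C2, hC2, hhigh⟩ := err_high p h
    obtain ⟨C3, hC3, hvec⟩ := err_vec p h
    refine ⟨C1 * (C2 + C3), by positivity, fun E _ ν Λ T hT N f hTf hf m L hm hΛ => ?_⟩
    have hg : gam p = 1 - 2 / p := by simp [gam, not_lt.2 h.le]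
    have hΛ1 := hT.one_le
    have hΛ0 : 0 ≤ Λ := by linarith
    have hΛpos : 0 < Λ := by linarith
    have hmpos : (0 : ℝ) < m := by exact_mod_cast hm
    have hm1 : (1 : ℝ) ≤ m := by exact_mod_cast hm
    have hνs : 0 ≤ ∑ e, ν e := Finset.sum_nonneg fun e _ => (hT.nu_pos e).le
    have hstep : ∑ l ∈ Finset.Ico (-(L : ℤ)) 0, ∑ e, ν e * Ex ((2 : ℝ) ^ ((l : ℝ) * p))
          (fun η => |rs (fun ω => (2 : ℝ) ^ (-(l : ℝ)) *
            T (fun e' => vlev m l (f ω e')) e) η| ^ p)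
        ≤ C1 * (∑ ω, ∑ l ∈ Finset.Ico (-(L : ℤ)) 0, ∑ e, ν e *
            |T (fun e' => vlev m l (f ω e')) e| ^ p) +
          C1 * ∑ l ∈ Finset.Ico (-(L : ℤ)) 0, ∑ e, ν e *
          ((2 : ℝ) ^ ((l : ℝ) * (p - 2)) *
            ∑ ω, (T (fun e' => vlev m l (f ω e')) e) ^ 2) ^ (p / 2) := by
      calc _ ≤ ∑ l ∈ Finset.Ico (-(L : ℤ)) 0, ∑ e, ν e * (C1 *
            (∑ ω, |T (fun e' => vlev m l (f ω e')) e| ^ p + ((2 : ℝ) ^ ((l : ℝ) * (p - 2)) *
            ∑ ω, (T (fun e' => vlev m l (f ω e')) e) ^ 2) ^ (p / 2))) := by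
            refine Finset.sum_le_sum fun l hl => Finset.sum_le_sum fun e _ =>
              mul_le_mul_of_nonneg_left ?_ (hT.nu_pos e).le
            refine (hros N _ (by positivity) (delta_le p hp hl) _).trans (le_of_eq ?_)
            rw [Finset.mul_sum, Finset.mul_sum, Finset.mul_sum]
            simp only [scale_p, scale_2]
        _ = _ := by
            have e1 : ∑ ω, ∑ l ∈ Finset.Ico (-(L : ℤ)) 0, ∑ e, ν e *
                |T (fun e' => vlev m l (f ω e')) e| ^ p =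
                ∑ l ∈ Finset.Ico (-(L : ℤ)) 0, ∑ e, ν e *
                  ∑ ω, |T (fun e' => vlev m l (f ω e')) e| ^ p := by
              rw [Finset.sum_comm]
              refine Finset.sum_congr rfl fun l _ => ?_
              rw [Finset.sum_comm]
              refine Finset.sum_congr rfl fun e _ => ?_
              rw [Finset.mul_sum]
            rw [e1, Finset.mul_sum, Finset.mul_sum, ← Finset.sum_add_distrib]
            refine Finset.sum_congr rfl fun l _ => ?_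
            rw [Finset.mul_sum, Finset.mul_sum, ← Finset.sum_add_distrib]
            refine Finset.sum_congr rfl fun e _ => ?_
            ring
    have h1 : ∑ ω, ∑ l ∈ Finset.Ico (-(L : ℤ)) 0, ∑ e, ν e *
            |T (fun e' => vlev m l (f ω e')) e| ^ p ≤
        C2 * (m : ℝ) ^ (1 - p) * Λ ^ (p - 2) * ∑ e, ν e := by
      calc _ ≤ ∑ ω, C2 * (m : ℝ) ^ (1 - p) * Λ ^ (p - 2) * ∑ e, ν e * |f ω e| ^ p :=
            Finset.sum_le_sum fun ω _ => hhigh E ν Λ T hT (f ω) (hTf ω) m L hm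
        _ = C2 * (m : ℝ) ^ (1 - p) * Λ ^ (p - 2) * ∑ e, ν e * ∑ ω, |f ω e| ^ p := by
            rw [← Finset.mul_sum, Finset.sum_comm]
            congr 1
            refine Finset.sum_congr rfl fun e _ => ?_
            rw [Finset.mul_sum]
        _ ≤ _ := by
            refine mul_le_mul_of_nonneg_left (Finset.sum_le_sum fun e _ => ?_)
              (by positivity)
            calc ν e * ∑ ω, |f ω e| ^ p ≤ ν e * 1 :=
                  mul_le_mul_of_nonneg_left (hf e) (hT.nu_pos e).le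
              _ = ν e := mul_one _
    have h2 := hvec E ν Λ T hT N f hf m L hm
    have h3 : (m : ℝ) ^ (-p) ≤ (m : ℝ) ^ (1 - p) :=
      Real.rpow_le_rpow_of_exponent_le hm1 (by linarith)
    -- `m^{1-p} Λ^{p-2} ≤ Λ^γ`
    have hγ : (gam p) * p = p - 2 := by
      rw [hg]; field_simp
    have h4 : (m : ℝ) ^ (1 - p) * Λ ^ (p - 2) ≤ Λ ^ gam p := by
      have hA : 0 < Λ ^ gam p := Real.rpow_pos_of_pos hΛpos _
      have h5 : Λ ^ (p - 2) = (Λ ^ gam p) ^ p := by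
        rw [← Real.rpow_mul hΛ0, hγ]
      have h6 : (m : ℝ) ^ (1 - p) ≤ (Λ ^ gam p) ^ (1 - p) :=
        Real.rpow_le_rpow_of_nonpos hA hΛ (by linarith)
      calc (m : ℝ) ^ (1 - p) * Λ ^ (p - 2) ≤ (Λ ^ gam p) ^ (1 - p) * (Λ ^ gam p) ^ p := by
            rw [h5]
            exact mul_le_mul_of_nonneg_right h6 (by positivity)
        _ = Λ ^ gam p := by
            rw [← Real.rpow_add hA]
            have : 1 - p + p = 1 := by ring
            rw [this, Real.rpow_one]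
    calc _ ≤ C1 * (C2 * (m : ℝ) ^ (1 - p) * Λ ^ (p - 2) * ∑ e, ν e) +
          C1 * (C3 * (m : ℝ) ^ (-p) * Λ ^ (p - 2) * ∑ e, ν e) := by
          refine hstep.trans (add_le_add (mul_le_mul_of_nonneg_left h1 hC1)
            (mul_le_mul_of_nonneg_left h2 hC1))
      _ ≤ C1 * (C2 * (m : ℝ) ^ (1 - p) * Λ ^ (p - 2) * ∑ e, ν e) +
          C1 * (C3 * (m : ℝ) ^ (1 - p) * Λ ^ (p - 2) * ∑ e, ν e) := by
          gcongr
      _ = C1 * (C2 + C3) * ((m : ℝ) ^ (1 - p) * Λ ^ (p - 2)) * ∑ e, ν e := by ring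
      _ ≤ C1 * (C2 + C3) * Λ ^ gam p * ∑ e, ν e := by
          gcongr

end Crest.Agent.R232
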