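import Crest.Agent.R232.Tent

/-! # Row 232, piece ELOW: error of the level truncation, `1 < p < 2`

For `i : ℤ` let `b_i = blev i ∘ f`, `τ_i = f - b_i`, `u_i = T b_i = - T τ_i` (as `T f = 0`).
(1) `vlev_abel`, linearity, `tent_diff`: `|T v_l| ≤ (1/m) ∑_{k<2m} |u_{l+k}|`, so by the power mean
inequality `|T v_l|^p ≤ (2^{p-1}/m) ∑_{k<2m} |u_{l+k}|^p` and
`∑_l |T v_l|^p ≤ 2^p ∑_{i ∈ Ico (-L) (2m)} |u_i|^p`.
(2) for `s > 0`: `|u|^p ≤ s^{p-1}|u| + s^{p-2} u²` (cases `|u| ≤ s`, `|u| ≥ s`). With `s = 2^i/Λ`: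
`∑ ν |u_i|^p ≤ s^{p-1} Λ ∑ ν|b_i| + s^{p-2} ∑ ν τ_i²` (`one` for `T b_i`, `two` for `T τ_i`).
(3) sum over `i`: `∑_i 2^{i(p-1)} |b_i| = |f| ∑_{i<bin f} 2^{i(p-1)} ≤ C|f|^p` (`geom_below`,
`s = p-1`), `∑_i 2^{i(p-2)} τ_i² = f² ∑_{i ≥ bin f} 2^{-i(2-p)} ≤ C f²|f|^{p-2}` (`geom_above`). The
powers of `Λ` are `Λ^{-(p-1)} Λ = Λ^{2-p}` and `Λ^{2-p}`. (Points with `f e = 0`: `b = τ = 0`.) -/

set_option autoImplicit false

namespace Crest.Agent.R232

/-- `|u|^p ≤ s^{p-1}|u| + s^{p-2} u²` -/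
theorem errLow_interp (p : ℝ) (hp : 1 < p) (hp2 : p < 2) (s : ℝ) (hs : 0 < s) (u : ℝ) :
    |u| ^ p ≤ s ^ (p - 1) * |u| + s ^ (p - 2) * u ^ 2 := by
  have h0 : 0 ≤ s ^ (p - 1) * |u| := by positivity
  have h1 : 0 ≤ s ^ (p - 2) * u ^ 2 := by positivity
  rcases eq_or_lt_of_le (abs_nonneg u) with hu | hu
  · rw [← hu, Real.zero_rpow (by linarith), mul_zero, zero_add]
    exact h1
  · rcases le_total |u| s with h | h
    · have h2 : |u| ^ p = |u| ^ (p - 1) * |u| := by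
        conv_lhs => rw [show p = (p - 1) + 1 by ring, Real.rpow_add hu, Real.rpow_one]
      have h3 : |u| ^ (p - 1) ≤ s ^ (p - 1) := Real.rpow_le_rpow hu.le h (by linarith)
      have h4 := mul_le_mul_of_nonneg_right h3 hu.le
      rw [h2]; linarith
    · have h2 : |u| ^ p = |u| ^ (p - 2) * u ^ 2 := by
        conv_lhs => rw [show p = (p - 2) + 2 by ring, Real.rpow_add hu]
        congr 1
        rw [← sq_abs u]
        exact_mod_cast Real.rpow_natCast |u| 2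
      have h3 : |u| ^ (p - 2) ≤ s ^ (p - 2) :=
        Real.rpow_le_rpow_of_nonpos hs h (by linarith)
      have h4 := mul_le_mul_of_nonneg_right h3 (sq_nonneg u)
      rw [h2]; linarith

/-- the levels of a sequence: `∑_l |∑_k (tent(k+1) - tent k) u(l+k)|^p ≤ 2^p ∑ |u_i|^p` -/
theorem errLow_levels (p : ℝ) (hp : 1 < p) (m L : ℕ) (hm : 1 ≤ m) (u : ℤ → ℝ) :
    ∑ l ∈ Finset.Ico (-(L : ℤ)) 0, |∑ k ∈ Finset.range (2 * m),
      (tent m ((k : ℤ) + 1) - tent m (k : ℤ)) * u (l + k)| ^ p ≤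
      (2 : ℝ) ^ p * ∑ i ∈ Finset.Ico (-(L : ℤ)) (2 * m), |u i| ^ p := by
  have hm0 : (0 : ℝ) < m := by exact_mod_cast hm
  have hstep : ∀ l : ℤ, |∑ k ∈ Finset.range (2 * m),
      (tent m ((k : ℤ) + 1) - tent m (k : ℤ)) * u (l + k)| ^ p ≤
      (2 : ℝ) ^ (p - 1) / m * ∑ k ∈ Finset.range (2 * m), |u (l + k)| ^ p := by
    intro l
    have h1 : |∑ k ∈ Finset.range (2 * m),
        (tent m ((k : ℤ) + 1) - tent m (k : ℤ)) * u (l + k)| ≤
        1 / m * ∑ k ∈ Finset.range (2 * m), |u (l + k)| := by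
      refine (Finset.abs_sum_le_sum_abs _ _).trans ?_
      rw [Finset.mul_sum]
      refine Finset.sum_le_sum fun k _ => ?_
      rw [abs_mul]
      exact mul_le_mul_of_nonneg_right (tent_diff m hm k) (abs_nonneg _)
    have h2 := Real.rpow_le_rpow (abs_nonneg _) h1 (by linarith : (0 : ℝ) ≤ p)
    have h3 := Real.rpow_sum_le_const_mul_sum_rpow (s := Finset.range (2 * m))
      (f := fun k : ℕ => u (l + k)) (p := p) hp.le
    rw [Finset.card_range] at h3
    have h4 : (1 / (m : ℝ) * ∑ k ∈ Finset.range (2 * m), |u (l + k)|) ^ p =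
        (1 / (m : ℝ)) ^ p * (∑ k ∈ Finset.range (2 * m), |u (l + k)|) ^ p :=
      Real.mul_rpow (by positivity) (Finset.sum_nonneg fun _ _ => abs_nonneg _)
    have h5 : (1 / (m : ℝ)) ^ p * ((2 * m : ℕ) : ℝ) ^ (p - 1) = (2 : ℝ) ^ (p - 1) / m := by
      push_cast
      rw [Real.mul_rpow (by norm_num) hm0.le, one_div, Real.inv_rpow hm0.le]
      have : (m : ℝ) ^ p = (m : ℝ) ^ (p - 1) * m := by
        conv_lhs => rw [show p = (p - 1) + 1 by ring, Real.rpow_add hm0, Real.rpow_one]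
      rw [this]
      have h6 : (m : ℝ) ^ (p - 1) ≠ 0 := (Real.rpow_pos_of_pos hm0 _).ne'
      field_simp
    calc _ ≤ (1 / (m : ℝ)) ^ p * (∑ k ∈ Finset.range (2 * m), |u (l + k)|) ^ p := by
          rw [← h4]; exact h2
      _ ≤ (1 / (m : ℝ)) ^ p * (((2 * m : ℕ) : ℝ) ^ (p - 1) *
            ∑ k ∈ Finset.range (2 * m), |u (l + k)| ^ p) :=
          mul_le_mul_of_nonneg_left h3 (by positivity)
      _ = _ := by rw [← mul_assoc, h5]
  calc _ ≤ ∑ l ∈ Finset.Ico (-(L : ℤ)) 0, (2 : ℝ) ^ (p - 1) / m *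
        ∑ k ∈ Finset.range (2 * m), |u (l + k)| ^ p := Finset.sum_le_sum fun l _ => hstep l
    _ = (2 : ℝ) ^ (p - 1) / m * ∑ k ∈ Finset.range (2 * m),
        ∑ l ∈ Finset.Ico (-(L : ℤ)) 0, |u (l + k)| ^ p := by
        rw [← Finset.mul_sum, Finset.sum_comm]
    _ ≤ (2 : ℝ) ^ (p - 1) / m * ∑ _k ∈ Finset.range (2 * m),
        ∑ i ∈ Finset.Ico (-(L : ℤ)) (2 * m), |u i| ^ p := by
        refine mul_le_mul_of_nonneg_left (Finset.sum_le_sum fun k hk => ?_) (by positivity)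
        have hk' : k < 2 * m := Finset.mem_range.1 hk
        have h1 : ∑ l ∈ Finset.Ico (-(L : ℤ)) 0, |u (l + k)| ^ p =
            ∑ i ∈ (Finset.Ico (-(L : ℤ)) 0).image (fun l => l + (k : ℤ)), |u i| ^ p := by
          rw [Finset.sum_image]
          intro x _ y _ hxy
          exact add_right_cancel hxy
        rw [h1]
        refine Finset.sum_le_sum_of_subset_of_nonneg ?_ (fun _ _ _ => by positivity)
        intro i hi
        obtain ⟨l, hl, rfl⟩ := Finset.mem_image.1 hi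
        rw [Finset.mem_Ico] at hl ⊢
        omega
    _ = _ := by
        rw [Finset.sum_const, Finset.card_range, nsmul_eq_mul]
        have : (2 : ℝ) ^ p = (2 : ℝ) ^ (p - 1) * 2 := by
          conv_lhs => rw [show p = (p - 1) + 1 by ring, Real.rpow_add (by norm_num), Real.rpow_one]
        rw [this]
        push_cast
        field_simp

theorem err_low (p : ℝ) (hp : 1 < p) (hp2 : p < 2) :
    ∃ C : ℝ, 0 ≤ C ∧ ∀ (E : Type) [Fintype E] (ν : E → ℝ) (Λ : ℝ)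
      (T : (E → ℝ) →ₗ[ℝ] (E → ℝ)), IsT ν Λ T → ∀ f : E → ℝ, T f = 0 → ∀ m L : ℕ, 1 ≤ m →
      ∑ l ∈ Finset.Ico (-(L : ℤ)) 0, ∑ e, ν e * |T (fun e' => vlev m l (f e')) e| ^ p ≤
        C * Λ ^ (2 - p) * ∑ e, ν e * |f e| ^ p := by
  obtain ⟨C₁, hC₁, hg1⟩ := geom_below (p - 1) (by linarith)
  obtain ⟨C₂, hC₂, hg2⟩ := geom_above (2 - p) (by linarith)
  refine ⟨(2 : ℝ) ^ p * (C₁ + C₂), by positivity, ?_⟩
  intro E _ ν Λ T hT f hf m L hm
  have hΛ : 0 < Λ := lt_of_lt_of_le one_pos hT.one_le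
  set u : ℤ → E → ℝ := fun i => T (fun e => blev i (f e)) with hu
  -- linearity
  have hlin : ∀ (l : ℤ) (e : E), T (fun e' => vlev m l (f e')) e =
      ∑ k ∈ Finset.range (2 * m), (tent m ((k : ℤ) + 1) - tent m (k : ℤ)) * u (l + k) e := by
    intro l e
    have h1 : (fun e' => vlev m l (f e')) = ∑ k ∈ Finset.range (2 * m),
        (tent m ((k : ℤ) + 1) - tent m (k : ℤ)) • (fun e' => blev (l + k) (f e')) := by
      funext e'
      rw [Finset.sum_apply, vlev_abel]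
      exact Finset.sum_congr rfl fun k _ => rfl
    rw [h1, map_sum, Finset.sum_apply]
    refine Finset.sum_congr rfl fun k _ => ?_
    rw [map_smul]
    rfl
  -- step 2: one level
  have hone : ∀ i : ℤ, ∑ e, ν e * |u i e| ^ p ≤ Λ ^ (2 - p) * ∑ e, ν e *
      ((2 : ℝ) ^ ((i : ℝ) * (p - 1)) * |blev i (f e)| +
        (2 : ℝ) ^ (-((i : ℝ) * (2 - p))) * (f e - blev i (f e)) ^ 2) := by
    intro i
    set s : ℝ := (2 : ℝ) ^ (i : ℝ) / Λ with hs
    have hs0 : 0 < s := by positivity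
    have hs1 : s ^ (p - 1) * Λ = Λ ^ (2 - p) * (2 : ℝ) ^ ((i : ℝ) * (p - 1)) := by
      rw [hs, Real.div_rpow (by positivity) hΛ.le, ← Real.rpow_mul (by norm_num)]
      have : Λ = Λ ^ (2 - p) * Λ ^ (p - 1) := by
        rw [← Real.rpow_add hΛ, show 2 - p + (p - 1) = 1 by ring, Real.rpow_one]
      have h6 : Λ ^ (p - 1) ≠ 0 := (Real.rpow_pos_of_pos hΛ _).ne'
      calc (2 : ℝ) ^ ((i : ℝ) * (p - 1)) / Λ ^ (p - 1) * Λ
          = (2 : ℝ) ^ ((i : ℝ) * (p - 1)) / Λ ^ (p - 1) * (Λ ^ (2 - p) * Λ ^ (p - 1)) := by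
            rw [← this]
        _ = _ := by field_simp
    have hs2 : s ^ (p - 2) = Λ ^ (2 - p) * (2 : ℝ) ^ (-((i : ℝ) * (2 - p))) := by
      rw [hs, Real.div_rpow (by positivity) hΛ.le, ← Real.rpow_mul (by norm_num),
        show (i : ℝ) * (p - 2) = -((i : ℝ) * (2 - p)) by ring,
        show p - 2 = -(2 - p) by ring, Real.rpow_neg hΛ.le, div_inv_eq_mul, mul_comm]
    have h1 : ∑ e, ν e * |u i e| ^ p ≤
        s ^ (p - 1) * ∑ e, ν e * |u i e| + s ^ (p - 2) * ∑ e, ν e * (u i e) ^ 2 := by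
      rw [Finset.mul_sum, Finset.mul_sum, ← Finset.sum_add_distrib]
      refine Finset.sum_le_sum fun e _ => ?_
      have := mul_le_mul_of_nonneg_left (errLow_interp p hp hp2 s hs0 (u i e)) (hT.nu_pos e).le
      linarith
    have h2 : ∑ e, ν e * |u i e| ≤ Λ * ∑ e, ν e * |blev i (f e)| := hT.one _
    have h3 : ∑ e, ν e * (u i e) ^ 2 ≤ ∑ e, ν e * (f e - blev i (f e)) ^ 2 := by
      have h4 := hT.two (fun e => f e - blev i (f e))
      have h5 : T (fun e => f e - blev i (f e)) = - u i := by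
        have : (fun e => f e - blev i (f e)) = f - (fun e => blev i (f e)) := rfl
        rw [this, map_sub, hf, zero_sub]
      rw [h5] at h4
      simpa using h4
    calc _ ≤ s ^ (p - 1) * ∑ e, ν e * |u i e| + s ^ (p - 2) * ∑ e, ν e * (u i e) ^ 2 := h1
      _ ≤ s ^ (p - 1) * (Λ * ∑ e, ν e * |blev i (f e)|) +
          s ^ (p - 2) * ∑ e, ν e * (f e - blev i (f e)) ^ 2 :=
          add_le_add (mul_le_mul_of_nonneg_left h2 (by positivity))
            (mul_le_mul_of_nonneg_left h3 (by positivity))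
      _ = (s ^ (p - 1) * Λ) * (∑ e, ν e * |blev i (f e)|) +
          s ^ (p - 2) * ∑ e, ν e * (f e - blev i (f e)) ^ 2 := by ring
      _ = _ := by
          rw [hs1, hs2, Finset.mul_sum, Finset.mul_sum, Finset.mul_sum,
            ← Finset.sum_add_distrib]
          exact Finset.sum_congr rfl fun e _ => by ring
  -- step 3: pointwise sums
  have hpt : ∀ (I : Finset ℤ) (a : ℝ), ∑ i ∈ I, ((2 : ℝ) ^ ((i : ℝ) * (p - 1)) * |blev i a| +
        (2 : ℝ) ^ (-((i : ℝ) * (2 - p))) * (a - blev i a) ^ 2) ≤ (C₁ + C₂) * |a| ^ p := by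
    intro I a
    rcases eq_or_ne a 0 with ha | ha
    · subst ha
      have h1 : ∀ i, blev i (0 : ℝ) = 0 := fun i => by unfold blev; split_ifs <;> rfl
      simp only [h1, abs_zero, mul_zero, sub_zero, ne_eq, OfNat.ofNat_ne_zero, not_false_eq_true,
        zero_pow, add_zero, Finset.sum_const_zero]
      positivity
    · have ha' : 0 < |a| := abs_pos.2 ha
      rw [Finset.sum_add_distrib]
      have h1 : ∑ i ∈ I, (2 : ℝ) ^ ((i : ℝ) * (p - 1)) * |blev i a| =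
          (∑ i ∈ I.filter (fun i => i < bin a), (2 : ℝ) ^ ((i : ℝ) * (p - 1))) * |a| := by
        rw [Finset.sum_filter, Finset.sum_mul]
        refine Finset.sum_congr rfl fun i _ => ?_
        unfold blev
        split_ifs <;> simp
      have h2 : ∑ i ∈ I, (2 : ℝ) ^ (-((i : ℝ) * (2 - p))) * (a - blev i a) ^ 2 =
          (∑ i ∈ I.filter (fun i => bin a ≤ i), (2 : ℝ) ^ (-((i : ℝ) * (2 - p)))) * |a| ^ 2 := by
        rw [Finset.sum_filter, Finset.sum_mul]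
        refine Finset.sum_congr rfl fun i _ => ?_
        unfold blev
        by_cases h : i < bin a
        · rw [if_pos h, if_neg (not_le.2 h)]; simp
        · rw [if_neg h, if_pos (not_lt.1 h)]; simp
      have h3 := mul_le_mul_of_nonneg_right (hg1 I a ha) ha'.le
      have h4 := mul_le_mul_of_nonneg_right (hg2 I a ha) (sq_nonneg |a|)
      have h5 : |a| ^ (p - 1) * |a| = |a| ^ p := by
        conv_rhs => rw [show p = (p - 1) + 1 by ring, Real.rpow_add ha', Real.rpow_one]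
      have h6 : |a| ^ (-(2 - p)) * |a| ^ 2 = |a| ^ p := by
        rw [show |a| ^ 2 = |a| ^ (2 : ℝ) from (by exact_mod_cast (Real.rpow_natCast |a| 2).symm),
          ← Real.rpow_add ha']
        congr 1; ring
      rw [h1, h2]
      calc _ ≤ C₁ * |a| ^ (p - 1) * |a| + C₂ * |a| ^ (-(2 - p)) * |a| ^ 2 := add_le_add h3 h4
        _ = C₁ * (|a| ^ (p - 1) * |a|) + C₂ * (|a| ^ (-(2 - p)) * |a| ^ 2) := by ring
        _ = _ := by rw [h5, h6]; ring
  -- assembly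
  calc ∑ l ∈ Finset.Ico (-(L : ℤ)) 0, ∑ e, ν e * |T (fun e' => vlev m l (f e')) e| ^ p
      = ∑ e, ν e * ∑ l ∈ Finset.Ico (-(L : ℤ)) 0, |∑ k ∈ Finset.range (2 * m),
          (tent m ((k : ℤ) + 1) - tent m (k : ℤ)) * u (l + k) e| ^ p := by
        rw [Finset.sum_comm]
        refine Finset.sum_congr rfl fun e _ => ?_
        rw [Finset.mul_sum]
        exact Finset.sum_congr rfl fun l _ => by rw [hlin]
    _ ≤ ∑ e, ν e * ((2 : ℝ) ^ p * ∑ i ∈ Finset.Ico (-(L : ℤ)) (2 * m), |u i e| ^ p) :=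
        Finset.sum_le_sum fun e _ => mul_le_mul_of_nonneg_left
          (errLow_levels p hp m L hm (fun i => u i e)) (hT.nu_pos e).le
    _ = (2 : ℝ) ^ p * ∑ i ∈ Finset.Ico (-(L : ℤ)) (2 * m), ∑ e, ν e * |u i e| ^ p := by
        rw [Finset.sum_comm, Finset.mul_sum]
        refine Finset.sum_congr rfl fun e _ => ?_
        rw [← Finset.mul_sum]; ring
    _ ≤ (2 : ℝ) ^ p * ∑ i ∈ Finset.Ico (-(L : ℤ)) (2 * m), (Λ ^ (2 - p) * ∑ e, ν e *
          ((2 : ℝ) ^ ((i : ℝ) * (p - 1)) * |blev i (f e)| +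
          (2 : ℝ) ^ (-((i : ℝ) * (2 - p))) * (f e - blev i (f e)) ^ 2)) :=
        mul_le_mul_of_nonneg_left (Finset.sum_le_sum fun i _ => hone i) (by positivity)
    _ = (2 : ℝ) ^ p * (Λ ^ (2 - p) * ∑ e, ν e * ∑ i ∈ Finset.Ico (-(L : ℤ)) (2 * m),
          ((2 : ℝ) ^ ((i : ℝ) * (p - 1)) * |blev i (f e)| +
          (2 : ℝ) ^ (-((i : ℝ) * (2 - p))) * (f e - blev i (f e)) ^ 2)) := by
        rw [← Finset.mul_sum, Finset.sum_comm]
        congr 2
        refine Finset.sum_congr rfl fun e _ => ?_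
        rw [← Finset.mul_sum]
    _ ≤ (2 : ℝ) ^ p * (Λ ^ (2 - p) * ∑ e, ν e * ((C₁ + C₂) * |f e| ^ p)) := by
        refine mul_le_mul_of_nonneg_left (mul_le_mul_of_nonneg_left
          (Finset.sum_le_sum fun e _ => mul_le_mul_of_nonneg_left (hpt _ _) (hT.nu_pos e).le)
          (by positivity)) (by positivity)
    _ = _ := by
        rw [Finset.mul_sum, Finset.mul_sum, Finset.mul_sum]
        exact Finset.sum_congr rfl fun e _ => by ring

end Crest.Agent.R232
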