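import Crest.Agent.R232.Defs

/-! # Row 232: API for the expectation `Ex` over independent `{0,±1}`-valued variables (complete) -/

set_option autoImplicit false

namespace Crest.Agent.R232

theorem sum_sign {β : Type} [AddCommMonoid β] (f : SignType → β) :
    ∑ s, f s = f 0 + f 1 + f (-1) := by
  have h : (Finset.univ : Finset SignType) = {0, 1, -1} := by decide
  rw [h, Finset.sum_insert (by decide), Finset.sum_insert (by decide), Finset.sum_singleton,
    add_assoc]

theorem wt_zero (δ : ℝ) : wt δ 0 = 1 - δ := by simp [wt]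
theorem wt_one (δ : ℝ) : wt δ 1 = δ / 2 := by simp [wt]
theorem wt_neg_one (δ : ℝ) : wt δ (-1) = δ / 2 := by simp [wt]

theorem wt_nonneg {δ : ℝ} (h0 : 0 ≤ δ) (h1 : δ ≤ 1) (s : SignType) : 0 ≤ wt δ s := by
  unfold wt; split_ifs <;> linarith

theorem sum_wt (δ : ℝ) : ∑ s, wt δ s = 1 := by
  rw [sum_sign, wt_zero, wt_one, wt_neg_one]; ring

variable {N : ℕ} {δ : ℝ}

theorem Ex_add (F F' : (Fin N → SignType) → ℝ) :
    Ex δ (fun η => F η + F' η) = Ex δ F + Ex δ F' := by
  unfold Ex; rw [← Finset.sum_add_distrib]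
  exact Finset.sum_congr rfl fun η _ => by ring

theorem Ex_sub (F F' : (Fin N → SignType) → ℝ) :
    Ex δ (fun η => F η - F' η) = Ex δ F - Ex δ F' := by
  unfold Ex; rw [← Finset.sum_sub_distrib]
  exact Finset.sum_congr rfl fun η _ => by ring

theorem Ex_const_mul (c : ℝ) (F : (Fin N → SignType) → ℝ) :
    Ex δ (fun η => c * F η) = c * Ex δ F := by
  unfold Ex; rw [Finset.mul_sum]
  exact Finset.sum_congr rfl fun η _ => by ring

theorem Ex_sum {ι : Type} (s : Finset ι) (F : ι → (Fin N → SignType) → ℝ) :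
    Ex δ (fun η => ∑ i ∈ s, F i η) = ∑ i ∈ s, Ex δ (F i) := by
  unfold Ex; rw [Finset.sum_comm]
  exact Finset.sum_congr rfl fun η _ => by rw [Finset.mul_sum]

theorem wprod_nonneg (h0 : 0 ≤ δ) (h1 : δ ≤ 1) (η : Fin N → SignType) : 0 ≤ ∏ i, wt δ (η i) :=
  Finset.prod_nonneg fun _ _ => wt_nonneg h0 h1 _

theorem wprod_sum (N : ℕ) (δ : ℝ) : ∑ η : Fin N → SignType, ∏ i, wt δ (η i) = 1 := by
  have := (Finset.prod_univ_sum (fun _ : Fin N => (Finset.univ : Finset SignType))
    (fun _ s => wt δ s)).symm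
  rw [Fintype.piFinset_univ] at this
  rw [this]
  simp [sum_wt]

theorem Ex_const (c : ℝ) : Ex (N := N) δ (fun _ => c) = c := by
  unfold Ex; rw [← Finset.sum_mul, wprod_sum, one_mul]

theorem Ex_mono (h0 : 0 ≤ δ) (h1 : δ ≤ 1) {F F' : (Fin N → SignType) → ℝ} (h : ∀ η, F η ≤ F' η) :
    Ex δ F ≤ Ex δ F' := by
  unfold Ex
  exact Finset.sum_le_sum fun η _ => mul_le_mul_of_nonneg_left (h η) (wprod_nonneg h0 h1 η)

theorem Ex_nonneg (h0 : 0 ≤ δ) (h1 : δ ≤ 1) {F : (Fin N → SignType) → ℝ} (h : ∀ η, 0 ≤ F η) :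
    0 ≤ Ex δ F := by
  unfold Ex
  exact Finset.sum_nonneg fun η _ => mul_nonneg (wprod_nonneg h0 h1 η) (h η)

theorem abs_Ex_le (h0 : 0 ≤ δ) (h1 : δ ≤ 1) (F : (Fin N → SignType) → ℝ) :
    |Ex δ F| ≤ Ex δ (fun η => |F η|) := by
  rw [abs_le]
  constructor
  · have : Ex δ (fun η => (-1) * |F η|) ≤ Ex δ F :=
      Ex_mono h0 h1 fun η => by have := neg_abs_le (F η); linarith
    rw [Ex_const_mul] at this; linarith
  · exact Ex_mono h0 h1 fun η => le_abs_self _

/-- conditioning on the first sign -/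
theorem Ex_succ (F : (Fin (N + 1) → SignType) → ℝ) :
    Ex δ F = (1 - δ) * Ex δ (fun η => F (Fin.cons 0 η)) +
      δ / 2 * (Ex δ (fun η => F (Fin.cons 1 η)) + Ex δ (fun η => F (Fin.cons (-1) η))) := by
  have key : Ex δ F = ∑ s : SignType, wt δ s * Ex δ (fun η => F (Fin.cons s η)) := by
    unfold Ex
    rw [← (Fin.consEquiv (fun _ : Fin (N + 1) => SignType)).sum_comp, Fintype.sum_prod_type]
    refine Finset.sum_congr rfl fun s _ => ?_
    rw [Finset.mul_sum]
    refine Finset.sum_congr rfl fun η _ => ?_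
    have he : (Fin.consEquiv (fun _ : Fin (N + 1) => SignType)) (s, η) = Fin.cons s η := rfl
    rw [he, Fin.prod_univ_succ]
    simp only [Fin.cons_zero, Fin.cons_succ]
    ring
  rw [key, sum_sign, wt_zero, wt_one, wt_neg_one]; ring

theorem Ex_zero (F : (Fin 0 → SignType) → ℝ) : Ex δ F = F Fin.elim0 := by
  unfold Ex
  rw [Fintype.sum_unique]
  simp
  congr 1

theorem rs_zero (x : Fin 0 → ℝ) (η : Fin 0 → SignType) : rs x η = 0 := by simp [rs]

theorem rs_cons (x : Fin (N + 1) → ℝ) (s : SignType) (η : Fin N → SignType) :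
    rs x (Fin.cons s η) = (s : ℝ) * x 0 + rs (fun i => x i.succ) η := by
  simp [rs, Fin.sum_univ_succ]

/-- the basic recursion for symmetric functions of the random sum: with `S' = ∑_{i≥1} η_i x_i`,
`E Φ(S) = (1-δ) E Φ(S') + δ/2 (E Φ(x_0 + S') + E Φ(-x_0 + S'))`. -/
theorem Ex_rs_succ (Φ : ℝ → ℝ) (x : Fin (N + 1) → ℝ) :
    Ex δ (fun η => Φ (rs x η)) = (1 - δ) * Ex δ (fun η => Φ (rs (fun i => x i.succ) η)) +
      δ / 2 * (Ex δ (fun η => Φ (x 0 + rs (fun i => x i.succ) η)) +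
        Ex δ (fun η => Φ (-x 0 + rs (fun i => x i.succ) η))) := by
  rw [Ex_succ]
  simp only [rs_cons]
  simp

/-- product formula: `E ∏ g_i(η_i) = ∏ (∑_s wt s * g_i s)` -/
theorem Ex_prod (g : Fin N → SignType → ℝ) :
    Ex δ (fun η => ∏ i, g i (η i)) = ∏ i, ∑ s, wt δ s * g i s := by
  unfold Ex
  have := (Finset.prod_univ_sum (fun _ : Fin N => (Finset.univ : Finset SignType))
    (fun i s => wt δ s * g i s))
  rw [Fintype.piFinset_univ] at this
  rw [this]
  exact Finset.sum_congr rfl fun η _ => by rw [Finset.prod_mul_distrib]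

theorem rs_add (x y : Fin N → ℝ) (η : Fin N → SignType) :
    rs (fun i => x i + y i) η = rs x η + rs y η := by
  simp [rs, mul_add, Finset.sum_add_distrib]

theorem rs_sub (x y : Fin N → ℝ) (η : Fin N → SignType) :
    rs (fun i => x i - y i) η = rs x η - rs y η := by
  simp [rs, mul_sub, Finset.sum_sub_distrib]

theorem rs_smul (c : ℝ) (x : Fin N → ℝ) (η : Fin N → SignType) :
    rs (fun i => c * x i) η = c * rs x η := by
  simp only [rs, Finset.mul_sum]
  exact Finset.sum_congr rfl fun i _ => by ring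

end Crest.Agent.R232
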