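import Crest.Agent.R232.ExApi

/-! # Row 232, piece EXPM: exponential moment of the random sum

`exp(|s|/B) ≤ exp(s/B) + exp(-s/B)`; `Ex_prod` with `g i s = exp(s x_i/B)`:
`Ex exp(rs x/B) = ∏ (1-δ + δ cosh(x_i/B)) ≤ ∏ exp(δ(cosh(x_i/B)-1)) ≤ exp(δ ∑ (x_i/B)²) ≤ e`,
using `Real.cosh_le_exp_half_sq` and `exp(y²/2) ≤ 1 + y²` for `|y| ≤ 1`. Same for `-x`. -/

set_option autoImplicit false

namespace Crest.Agent.R232

private theorem expm_cosh_le (y : ℝ) (hy : |y| ≤ 1) : Real.cosh y ≤ 1 + y ^ 2 := by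
  have h1 := Real.cosh_le_exp_half_sq y
  have hy2 : y ^ 2 ≤ 1 := by
    have := sq_abs y
    nlinarith [abs_nonneg y]
  have ht0 : 0 ≤ y ^ 2 / 2 := by positivity
  have hpos : 0 < 1 - y ^ 2 / 2 := by linarith
  have h2 : Real.exp (y ^ 2 / 2) ≤ 1 / (1 - y ^ 2 / 2) := by
    have h3 : 1 - y ^ 2 / 2 ≤ Real.exp (-(y ^ 2 / 2)) := by
      have := Real.add_one_le_exp (-(y ^ 2 / 2)); linarith
    rw [Real.exp_neg] at h3
    rw [le_div_iff₀ hpos]
    have h4 := Real.exp_pos (y ^ 2 / 2)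
    calc Real.exp (y ^ 2 / 2) * (1 - y ^ 2 / 2)
        ≤ Real.exp (y ^ 2 / 2) * (Real.exp (y ^ 2 / 2))⁻¹ := mul_le_mul_of_nonneg_left h3 h4.le
      _ = 1 := mul_inv_cancel₀ h4.ne'
  have h5 : 1 / (1 - y ^ 2 / 2) ≤ 1 + y ^ 2 := by
    rw [div_le_iff₀ hpos]
    nlinarith
  linarith

private theorem expm_one (N : ℕ) (δ : ℝ) (h0 : 0 ≤ δ) (x : Fin N → ℝ) (B : ℝ) (hB : 0 < B)
    (h1 : δ ≤ 1) (hx : ∀ i, |x i| ≤ B) (hx2 : δ * ∑ i, (x i) ^ 2 ≤ B ^ 2) :
    Ex δ (fun η => Real.exp (rs x η / B)) ≤ Real.exp 1 := by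
  have hrew : (fun η : Fin N → SignType => Real.exp (rs x η / B)) =
      fun η => ∏ i, (fun (i : Fin N) (s : SignType) => Real.exp ((s : ℝ) * x i / B)) i (η i) := by
    funext η
    simp only [rs]
    rw [← Real.exp_sum, Finset.sum_div]
  rw [hrew, Ex_prod (fun (i : Fin N) (s : SignType) => Real.exp ((s : ℝ) * x i / B))]
  have hfac : ∀ i : Fin N, ∑ s, wt δ s * Real.exp ((s : ℝ) * x i / B) ≤
      Real.exp (δ * (x i / B) ^ 2) := by
    intro i
    have hy : |x i / B| ≤ 1 := by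
      rw [abs_div, abs_of_pos hB, div_le_one hB]; exact hx i
    have hc := expm_cosh_le _ hy
    rw [sum_sign, wt_zero, wt_one, wt_neg_one]
    have e1 : ((1 : SignType) : ℝ) * x i / B = x i / B := by simp
    have e2 : ((-1 : SignType) : ℝ) * x i / B = -(x i / B) := by simp [neg_div]
    have e3 : ((0 : SignType) : ℝ) * x i / B = 0 := by simp
    rw [e1, e2, e3, Real.exp_zero]
    rw [Real.cosh_eq] at hc
    have h2 := Real.add_one_le_exp (δ * (x i / B) ^ 2)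
    nlinarith
  calc ∏ i, ∑ s, wt δ s * Real.exp ((s : ℝ) * x i / B)
      ≤ ∏ i, Real.exp (δ * (x i / B) ^ 2) := by
        refine Finset.prod_le_prod (fun i _ => ?_) (fun i _ => hfac i)
        exact Finset.sum_nonneg fun s _ => mul_nonneg (wt_nonneg h0 h1 s) (Real.exp_pos _).le
    _ = Real.exp (∑ i, δ * (x i / B) ^ 2) := by rw [Real.exp_sum]
    _ ≤ Real.exp 1 := by
        apply Real.exp_le_exp.mpr
        have : ∑ i, δ * (x i / B) ^ 2 = (δ * ∑ i, (x i) ^ 2) / B ^ 2 := by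
          rw [Finset.mul_sum, Finset.sum_div]
          exact Finset.sum_congr rfl fun i _ => by rw [div_pow]; ring
        rw [this, div_le_one (by positivity)]
        exact hx2

theorem exp_mom (N : ℕ) (δ : ℝ) (h0 : 0 ≤ δ) (h1 : δ ≤ 1) (x : Fin N → ℝ) (B : ℝ) (hB : 0 < B)
    (hx : ∀ i, |x i| ≤ B) (hx2 : δ * ∑ i, (x i) ^ 2 ≤ B ^ 2) :
    Ex δ (fun η => Real.exp (|rs x η| / B)) ≤ 2 * Real.exp 1 := by
  have ha := expm_one N δ h0 x B hB h1 hx hx2
  have hb := expm_one N δ h0 (fun i => (-1) * x i) B hB h1 (fun i => by simpa using hx i)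
    (by simpa using hx2)
  have hmono : Ex δ (fun η : Fin N → SignType => Real.exp (|rs x η| / B)) ≤
      Ex δ (fun η => Real.exp (rs x η / B) + Real.exp (rs (fun i => (-1) * x i) η / B)) := by
    refine Ex_mono h0 h1 fun η => ?_
    rw [rs_smul]
    rcases abs_cases (rs x η) with ⟨h, _⟩ | ⟨h, _⟩
    · rw [h]
      have := Real.exp_pos (-1 * rs x η / B)
      linarith
    · rw [h]
      have h3 := Real.exp_pos (rs x η / B)
      have : -1 * rs x η / B = -rs x η / B := by ring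
      rw [this]; linarith
  rw [Ex_add] at hmono
  linarith

end Crest.Agent.R232
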