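import Crest.Agent.R232.Sampling

/-! # Row 232, piece PRE: preliminary reduction to polynomially many coordinates

`d = lpd p z`, `E = V × V`, `f ω = grad d (z·ω)`, `F ω = ∑_e |f ω e|^p`, `∑_ω F ω = n² - n =: M`
(each off-diagonal `e` contributes 1). Let `φ ω = F ω/M` (`∑ φ = 1`), and for `φ ω > 0`
`w_ω e = |f ω e|^p/φ ω ∈ [0, M]` (as `|f ω e|^p ≤ F ω`). `t = ∑_{φ ω>0} φ ω w_ω` (`t = 1` off the
diagonal, `0` on it) is in the convex hull of `W = {w_ω}`. `sampling` with `R = M` (or `n²`), small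
`ε`, `N' = ⌈4 R² log(2n²)/ε²⌉₊ ≤ C₀ n⁶` gives indices `ω_k`; put
`z' i k = z i (ω_k) / (N' φ (ω_k))^{1/p}`. Then `(lpd p z' i j)^p = d^p (1/N') ∑_k w_{ω_k}(i,j)`. -/

set_option autoImplicit false

namespace Crest.Agent.R232

theorem lpd_selfP {V : Type} (p : ℝ) (hp : 0 < p) {N : ℕ} (z : V → Fin N → ℝ) (i : V) :
    lpd p z i i = 0 := by
  unfold lpd
  simp only [sub_self, abs_zero]
  rw [Real.zero_rpow hp.ne', Finset.sum_const_zero, Real.zero_rpow]
  positivity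

theorem lpd_rpowP {V : Type} (p : ℝ) (hp : 0 < p) {N : ℕ} (z : V → Fin N → ℝ) (i j : V) :
    lpd p z i j ^ p = ∑ k, |z i k - z j k| ^ p := by
  unfold lpd
  rw [← Real.rpow_mul (Finset.sum_nonneg fun k _ => Real.rpow_nonneg (abs_nonneg _) _),
    one_div, inv_mul_cancel₀ hp.ne', Real.rpow_one]

theorem lpd_nn {V : Type} (p : ℝ) {N : ℕ} (z : V → Fin N → ℝ) (i j : V) :
    0 ≤ lpd p z i j :=
  Real.rpow_nonneg (Finset.sum_nonneg fun k _ => Real.rpow_nonneg (abs_nonneg _) _) _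

set_option maxHeartbeats 2000000 in
theorem prelim (p : ℝ) (hp : 1 < p) (D : ℝ) (hD : 1 < D) :
    ∃ C₀ : ℝ, 0 ≤ C₀ ∧ ∀ n : ℕ, 2 ≤ n → ∀ (N : ℕ) (z : Fin n → Fin N → ℝ),
      (∀ i j, i ≠ j → 0 < lpd p z i j) →
      ∃ N' : ℕ, (N' : ℝ) ≤ C₀ * (n : ℝ) ^ 6 ∧ ∃ z' : Fin n → Fin N' → ℝ,
        Dst D (lpd p z) (lpd p z') := by
  have hp0 : 0 < p := by linarith
  have hD0 : 0 < D := by linarith
  have hDp : 1 < D ^ p := Real.one_lt_rpow hD hp0
  set ε : ℝ := (D ^ p - 1) / (D ^ p + 1) with hε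
  have hε0 : 0 < ε := by rw [hε]; apply div_pos <;> linarith
  have hε1 : ε < 1 := by rw [hε, div_lt_one (by linarith)]; linarith
  have hεD : 1 + ε = D ^ p * (1 - ε) := by
    rw [hε]; field_simp; ring
  refine ⟨8 / ε ^ 2 + 1, by positivity, ?_⟩
  intro n hn N z hz
  have hn2 : (2 : ℝ) ≤ n := by exact_mod_cast hn
  have : Nonempty (Fin n) := ⟨⟨0, by omega⟩⟩
  set R : ℝ := (n : ℝ) ^ 2 with hR
  have hR4 : 4 ≤ R := by rw [hR]; nlinarith
  have hcard : (Fintype.card (Fin n × Fin n) : ℝ) = R := by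
    rw [Fintype.card_prod, Fintype.card_fin, hR]; push_cast; ring
  set d : Fin n → Fin n → ℝ := lpd p z with hd
  have hd0 : ∀ i, d i i = 0 := fun i => lpd_selfP p hp0 z i
  have hdn : ∀ i j, 0 ≤ d i j := fun i j => lpd_nn p z i j
  -- the functions
  set f : Fin N → Fin n × Fin n → ℝ := fun ω e => grad d (fun i => z i ω) e with hf
  have hfd : ∀ ω e, |z e.1 ω - z e.2 ω| ^ p = d e.1 e.2 ^ p * |f ω e| ^ p := by
    intro ω e
    by_cases h : e.1 = e.2
    · rw [h, hd0, Real.zero_rpow hp0.ne', zero_mul, sub_self, abs_zero,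
        Real.zero_rpow hp0.ne']
    · have h1 : 0 < d e.1 e.2 := hz _ _ h
      rw [← Real.mul_rpow h1.le (abs_nonneg _)]
      congr 1
      rw [hf]
      simp only [grad]
      rw [abs_div, abs_of_pos h1]
      field_simp
  have hfdiag : ∀ ω (e : Fin n × Fin n), e.1 = e.2 → |f ω e| ^ p = 0 := by
    intro ω e h
    rw [hf]
    simp only [grad]
    rw [h, sub_self, zero_div, abs_zero, Real.zero_rpow hp0.ne']
  have hsum1 : ∀ e : Fin n × Fin n, e.1 ≠ e.2 → ∑ ω, |f ω e| ^ p = 1 := by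
    intro e h
    have h1 : 0 < d e.1 e.2 := hz _ _ h
    have h2 := lpd_rpowP p hp0 z e.1 e.2
    rw [Finset.sum_congr rfl (fun ω _ => hfd ω e), ← Finset.mul_sum] at h2
    have h3 : 0 < d e.1 e.2 ^ p := Real.rpow_pos_of_pos h1 _
    have h4 : d e.1 e.2 ^ p * 1 = d e.1 e.2 ^ p * ∑ ω, |f ω e| ^ p := by
      rw [mul_one]; exact h2
    exact (mul_left_cancel₀ h3.ne' h4).symm
  set F : Fin N → ℝ := fun ω => ∑ e, |f ω e| ^ p with hF
  have hFn : ∀ ω, 0 ≤ F ω := fun ω => Finset.sum_nonneg fun e _ => Real.rpow_nonneg (abs_nonneg _) _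
  have hfF : ∀ ω e, |f ω e| ^ p ≤ F ω := fun ω e =>
    Finset.single_le_sum (f := fun e => |f ω e| ^ p)
      (fun e _ => Real.rpow_nonneg (abs_nonneg _) _) (Finset.mem_univ e)
  set M : ℝ := ∑ ω, F ω with hM
  have hMR : M ≤ R := by
    rw [hM, hF, Finset.sum_comm, ← hcard, ← nsmul_one, ← Finset.card_univ,
      ← Finset.sum_const]
    refine Finset.sum_le_sum fun e _ => ?_
    by_cases h : e.1 = e.2
    · rw [Finset.sum_eq_zero fun ω _ => hfdiag ω e h]; exact zero_le_one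
    · rw [hsum1 e h]
  have hM0 : 0 < M := by
    have h1 : ∑ ω, |f ω (⟨0, by omega⟩, ⟨1, by omega⟩)| ^ p = 1 := by
      apply hsum1
      simp
    have h2 : ∑ ω, |f ω (⟨0, by omega⟩, ⟨1, by omega⟩)| ^ p ≤ M := by
      rw [hM]
      exact Finset.sum_le_sum fun ω _ => hfF ω _
    linarith
  -- the set W
  set w : Fin N → Fin n × Fin n → ℝ := fun ω e => M * |f ω e| ^ p / F ω with hw
  set W : Set (Fin n × Fin n → ℝ) := {v | ∃ ω, 0 < F ω ∧ v = w ω} with hW
  set t : Fin n × Fin n → ℝ := fun e => ∑ ω, |f ω e| ^ p with ht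
  have hWb : ∀ v ∈ W, ∀ e, 0 ≤ v e ∧ v e ≤ R := by
    rintro v ⟨ω, hω, rfl⟩ e
    constructor
    · have := Real.rpow_nonneg (abs_nonneg (f ω e)) p
      rw [hw]; positivity
    · refine le_trans ?_ hMR
      rw [hw]
      simp only
      rw [div_le_iff₀ hω]
      exact mul_le_mul_of_nonneg_left (hfF ω e) hM0.le
  have htW : t ∈ convexHull ℝ W := by
    have h1 : ∑ ω ∈ Finset.univ.filter (fun ω => 0 < F ω), (F ω / M) • w ω = t := by
      funext e
      rw [Finset.sum_apply, ht]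
      simp only [Pi.smul_apply, smul_eq_mul]
      rw [Finset.sum_filter]
      refine Finset.sum_congr rfl fun ω _ => ?_
      split_ifs with h
      · rw [hw]; field_simp
      · have h2 : F ω = 0 := le_antisymm (not_lt.1 h) (hFn ω)
        have h3 := hfF ω e
        rw [h2] at h3
        exact (le_antisymm h3 (Real.rpow_nonneg (abs_nonneg _) _)).symm
    rw [← h1]
    refine Convex.sum_mem (convex_convexHull ℝ W) ?_ ?_ ?_
    · intro ω _
      exact div_nonneg (hFn ω) hM0.le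
    · rw [← Finset.sum_div, div_eq_one_iff_eq hM0.ne', hM, Finset.sum_filter]
      refine Finset.sum_congr rfl fun ω _ => ?_
      split_ifs with h
      · rfl
      · exact (le_antisymm (not_lt.1 h) (hFn ω)).symm
    · intro ω hω
      exact subset_convexHull ℝ W ⟨ω, (Finset.mem_filter.1 hω).2, rfl⟩
  -- sampling
  set x : ℝ := 4 * R ^ 2 * Real.log (2 * Fintype.card (Fin n × Fin n)) / ε ^ 2 with hx
  have hlog0 : 0 < Real.log (2 * (Fintype.card (Fin n × Fin n) : ℝ)) := by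
    rw [hcard]; exact Real.log_pos (by linarith)
  have hx0 : 0 < x := by
    rw [hx]; positivity
  have hx1 : x ≤ 8 / ε ^ 2 * (n : ℝ) ^ 6 := by
    have h1 : Real.log (2 * (Fintype.card (Fin n × Fin n) : ℝ)) ≤ 2 * R := by
      rw [hcard]
      have := Real.log_le_sub_one_of_pos (show 0 < 2 * R by linarith)
      linarith
    rw [hx, show 8 / ε ^ 2 * (n : ℝ) ^ 6 = 4 * R ^ 2 * (2 * R) / ε ^ 2 by rw [hR]; ring]
    gcongr
  obtain ⟨v, hv, hv'⟩ := sampling W R (by linarith) hWb t htW ε hε0 (by linarith) ⌈x⌉₊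
    (Nat.one_le_iff_ne_zero.2 (by
      rw [← Nat.pos_iff_ne_zero]; exact Nat.ceil_pos.2 hx0)) (Nat.le_ceil x)
  have hN'0 : 0 < ⌈x⌉₊ := Nat.ceil_pos.2 hx0
  have hN'0' : (0 : ℝ) < (⌈x⌉₊ : ℝ) := by exact_mod_cast hN'0
  refine ⟨⌈x⌉₊, ?_, ?_⟩
  · have h1 := (Nat.ceil_lt_add_one hx0.le).le
    have h2 : (1 : ℝ) ≤ (n : ℝ) ^ 6 := one_le_pow₀ (by linarith)
    calc (⌈x⌉₊ : ℝ) ≤ x + 1 := h1
      _ ≤ 8 / ε ^ 2 * (n : ℝ) ^ 6 + (n : ℝ) ^ 6 := by linarith
      _ = (8 / ε ^ 2 + 1) * (n : ℝ) ^ 6 := by ring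
  · choose om hom hvom using hv
    refine ⟨fun i k => z i (om k) / ((⌈x⌉₊ : ℝ) * (F (om k) / M)) ^ (1 / p), ?_⟩
    set z' : Fin n → Fin ⌈x⌉₊ → ℝ :=
      fun i k => z i (om k) / ((⌈x⌉₊ : ℝ) * (F (om k) / M)) ^ (1 / p) with hz'
    have hs : 0 ≤ (1 - ε) ^ (1 / p) := Real.rpow_nonneg (by linarith) _
    refine ⟨(1 - ε) ^ (1 / p), Real.rpow_pos_of_pos (by linarith) _, ?_⟩
    intro i j
    by_cases hij : i = j
    · subst hij
      have h1 : lpd p z' i i = 0 := lpd_selfP p hp0 z' i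
      have h2 : d i i = 0 := hd0 i
      rw [h1, h2]
      simp
    -- main computation
    have hdij : 0 < d i j := hz i j hij
    have hkey : lpd p z' i j ^ p = d i j ^ p * ((1 / (⌈x⌉₊ : ℝ)) * ∑ k, v k (i, j)) := by
      rw [lpd_rpowP p hp0 z' i j, Finset.mul_sum, Finset.mul_sum]
      refine Finset.sum_congr rfl fun k _ => ?_
      have hFk : 0 < F (om k) := hom k
      rw [hvom k, hw, hz']
      simp only
      have h1 : 0 < (⌈x⌉₊ : ℝ) * (F (om k) / M) := by positivity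
      rw [← sub_div, abs_div, Real.div_rpow (abs_nonneg _) (abs_nonneg _),
        abs_of_pos (Real.rpow_pos_of_pos h1 _), ← Real.rpow_mul h1.le, one_div,
        inv_mul_cancel₀ hp0.ne', Real.rpow_one, hfd (om k) (i, j)]
      field_simp
    set A : ℝ := (1 / (⌈x⌉₊ : ℝ)) * ∑ k, v k (i, j) with hA
    have hAt := hv' (i, j)
    have ht1 : t (i, j) = 1 := hsum1 (i, j) hij
    rw [ht1, abs_le] at hAt
    have hA1 : 1 - ε ≤ A := by linarith [hAt.1]
    have hA2 : A ≤ 1 + ε := by linarith [hAt.2]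
    have hA0 : 0 ≤ A := by linarith
    have hb : lpd p z' i j = d i j * A ^ (1 / p) := by
      have h1 : lpd p z' i j = (lpd p z' i j ^ p) ^ (1 / p) := by
        rw [← Real.rpow_mul (lpd_nn p z' i j), mul_one_div, div_self hp0.ne', Real.rpow_one]
      rw [h1, hkey, Real.mul_rpow (Real.rpow_nonneg hdij.le _) hA0, ← Real.rpow_mul hdij.le,
        mul_one_div, div_self hp0.ne', Real.rpow_one]
    rw [hb]
    have hpp : (0 : ℝ) ≤ 1 / p := by positivity
    constructor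
    · rw [mul_comm]
      exact mul_le_mul_of_nonneg_left (Real.rpow_le_rpow (by linarith) hA1 hpp) hdij.le
    · have h1 : D * (1 - ε) ^ (1 / p) = (1 + ε) ^ (1 / p) := by
        rw [hεD, Real.mul_rpow (Real.rpow_nonneg hD0.le _) (by linarith),
          ← Real.rpow_mul hD0.le, mul_one_div, div_self hp0.ne', Real.rpow_one]
      rw [h1, mul_comm ((1 + ε) ^ (1 / p))]
      exact mul_le_mul_of_nonneg_left (Real.rpow_le_rpow hA0 hA2 hpp) hdij.le

end Crest.Agent.R232
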