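import Crest.Agent.R232.Defs

/-! # Row 232, piece SIMPLE: points of `L^p(μ)` are almost points of `ℓ_p^N`

`X a = (fun i => x i a) : Fin n → ℝ` is in `MemLp` (`memLp_pi_iff` or: AEStronglyMeasurable and
norm `≤ ∑_i |x i a|`); `MemLp.exists_simpleFunc_eLpNorm_sub_lt` gives a simple `S : α →ₛ (Fin n → ℝ)`
with `MemLp S p μ`, `eLpNorm (X - S) p μ < η`. `simple_coord`: for such an `S` the numbers
`z i k = μ(S⁻¹{v_k}).toReal^{1/p} (v_k i)`, `v_k` the points of `S.range` (as a `Fin N`), satisfy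
`lpd p z i j = (eLpNorm (S_i - S_j) p μ).toReal` (values `v` with `μ(S⁻¹{v}) = ∞` are `v = 0` since
`S ∈ L^p`; `eLpNorm_eq_lintegral_rpow_enorm`, `SimpleFunc.lintegral_eq_lintegral`/`map_lintegral`).
Finally `η` = small multiple of `min_{i≠j} ‖x i - x j‖` and the triangle inequality. -/

set_option autoImplicit false

open MeasureTheory
open scoped ENNReal

universe u

namespace Crest.Agent.R232

theorem simple_coord (p : ℝ≥0∞) (hp1 : 1 ≤ p) (hptop : p ≠ ⊤) {α : Type u} [MeasurableSpace α]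
    (μ : Measure α) (n : ℕ) (S : SimpleFunc α (Fin n → ℝ)) (hS : MemLp S p μ) :
    ∃ (N : ℕ) (z : Fin n → Fin N → ℝ), ∀ i j,
      lpd p.toReal z i j = (eLpNorm (fun a => S a i - S a j) p μ).toReal := by
  classical
  have hp0 : p ≠ 0 := by
    rintro rfl
    exact absurd hp1 (by simp)
  have hpr : 0 < p.toReal := ENNReal.toReal_pos hp0 hptop
  let e := S.range.equivFin
  let w : Fin n → {v // v ∈ S.range} → ℝ := fun i v =>
    (μ (S ⁻¹' {v.1})).toReal ^ (1 / p.toReal) * v.1 i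
  refine ⟨S.range.card, fun i k => w i (e.symm k), fun i j => ?_⟩
  -- the left side
  have hL : ∑ k, |w i (e.symm k) - w j (e.symm k)| ^ p.toReal =
      ∑ v ∈ S.range, (μ (S ⁻¹' {v})).toReal * |v i - v j| ^ p.toReal := by
    rw [Equiv.sum_comp e.symm (fun v => |w i v - w j v| ^ p.toReal),
      ← Finset.sum_coe_sort S.range
        (fun v => (μ (S ⁻¹' {v})).toReal * |v i - v j| ^ p.toReal)]
    apply Finset.sum_congr rfl
    intro v _
    have h1 : (0:ℝ) ≤ (μ (S ⁻¹' {v.1})).toReal := ENNReal.toReal_nonneg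
    simp only [w]
    rw [← mul_sub, abs_mul, Real.mul_rpow (abs_nonneg _) (abs_nonneg _),
      abs_of_nonneg (Real.rpow_nonneg h1 _), ← Real.rpow_mul h1, one_div_mul_cancel hpr.ne',
      Real.rpow_one]
  -- the right side
  have hR : eLpNorm (fun a => S a i - S a j) p μ =
      (∑ v ∈ S.range, ‖v i - v j‖ₑ ^ p.toReal * μ (S ⁻¹' {v})) ^ (1 / p.toReal) := by
    rw [eLpNorm_eq_lintegral_rpow_enorm_toReal hp0 hptop]
    congr 1
    rw [← SimpleFunc.map_lintegral (fun v : Fin n → ℝ => ‖v i - v j‖ₑ ^ p.toReal) S,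
      ← SimpleFunc.lintegral_eq_lintegral]
    rfl
  rw [hR]
  unfold lpd
  rw [hL, ← ENNReal.toReal_rpow, ENNReal.toReal_sum]
  · congr 1
    apply Finset.sum_congr rfl
    intro v _
    rw [ENNReal.toReal_mul, ← ENNReal.toReal_rpow, mul_comm, toReal_enorm, Real.norm_eq_abs]
  · intro v _
    by_cases hv : v = 0
    · subst hv
      simp [hpr]
    · apply ENNReal.mul_ne_top
      · exact ENNReal.rpow_ne_top_of_nonneg hpr.le enorm_ne_top
      · exact (SimpleFunc.measure_preimage_lt_top_of_memLp hp0 hptop S hS v hv).ne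

theorem simple_approx (p : ℝ≥0∞) [Fact (1 ≤ p)] (hptop : p ≠ ⊤) {α : Type u} [MeasurableSpace α]
    (μ : Measure α) (n : ℕ) (x : Fin n → Lp ℝ p μ) (η : ℝ) (hη : 0 < η) :
    ∃ S : SimpleFunc α (Fin n → ℝ), MemLp S p μ ∧ ∀ i j,
      |(eLpNorm (fun a => S a i - S a j) p μ).toReal - ‖x i - x j‖| ≤ η := by
  have hX : MemLp (fun a => (fun i => x i a : Fin n → ℝ)) p μ :=
    memLp_pi_iff.mpr fun i => Lp.memLp (x i)
  obtain ⟨S, hS1, hS2⟩ := hX.exists_simpleFunc_eLpNorm_sub_lt hptop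
    (ε := ENNReal.ofReal (η / 2)) (by simp [hη])
  refine ⟨S, hS2, fun i j => ?_⟩
  have hSi : ∀ i, MemLp (fun a => S a i) p μ := fun i => memLp_pi_iff.mp hS2 i
  have hd : ∀ i, ‖(hSi i).toLp - x i‖ ≤ η / 2 := by
    intro i
    have h1 : (hSi i).toLp - x i = ((hSi i).sub (Lp.memLp (x i))).toLp := by
      rw [MemLp.toLp_sub (hSi i) (Lp.memLp (x i)), Lp.toLp_coeFn (x i) (Lp.memLp (x i))]
    rw [h1, Lp.norm_toLp]
    apply ENNReal.toReal_le_of_le_ofReal (by positivity)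
    refine le_trans ?_ hS1.le
    apply eLpNorm_mono
    intro a
    have h2 := norm_le_pi_norm ((fun i => x i a : Fin n → ℝ) - S a) i
    calc ‖((fun a => S a i) - ⇑(x i)) a‖ = ‖((fun i => x i a : Fin n → ℝ) - S a) i‖ := by
          rw [Pi.sub_apply, Pi.sub_apply, ← norm_neg, neg_sub]
      _ ≤ _ := h2
  have h3 : (eLpNorm (fun a => S a i - S a j) p μ).toReal = ‖(hSi i).toLp - (hSi j).toLp‖ := by
    rw [← MemLp.toLp_sub, Lp.norm_toLp]
    rfl
  rw [h3]
  calc |‖(hSi i).toLp - (hSi j).toLp‖ - ‖x i - x j‖|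
      ≤ ‖((hSi i).toLp - (hSi j).toLp) - (x i - x j)‖ := abs_norm_sub_norm_le _ _
    _ = ‖((hSi i).toLp - x i) - ((hSi j).toLp - x j)‖ := by congr 1; abel
    _ ≤ ‖(hSi i).toLp - x i‖ + ‖(hSi j).toLp - x j‖ := norm_sub_le _ _
    _ ≤ η := by linarith [hd i, hd j]

theorem simple (p : ℝ≥0∞) [Fact (1 ≤ p)] (hp1 : 1 < p) (hptop : p ≠ ⊤) (D : ℝ) (hD : 1 < D)
    {α : Type u} [MeasurableSpace α] (μ : Measure α) (n : ℕ) (x : Fin n → Lp ℝ p μ)
    (hx : Function.Injective x) :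
    ∃ (N : ℕ) (z : Fin n → Fin N → ℝ), Dst D (fun i j => ‖x i - x j‖) (lpd p.toReal z) := by
  have hp0 : p ≠ 0 := by
    rintro rfl
    exact absurd hp1 (by simp)
  have hpr : 0 < p.toReal := ENNReal.toReal_pos hp0 hptop
  obtain ⟨δ, hδ, hδ'⟩ := Pi.exists_forall_pos_add_lt
    (ι := {q : Fin n × Fin n // q.1 ≠ q.2}) (x := fun _ => (0 : ℝ))
    (y := fun q => ‖x q.1.1 - x q.1.2‖) (fun q => by
      apply norm_pos_iff.mpr
      exact sub_ne_zero.mpr (fun h => q.2 (hx h)))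
  have hδ2 : ∀ i j, i ≠ j → δ ≤ ‖x i - x j‖ := by
    intro i j hij
    have := hδ' ⟨(i, j), hij⟩
    simp only [zero_add] at this
    exact this.le
  have hD1 : 0 < D + 1 := by linarith
  obtain ⟨S, hS, hS'⟩ := simple_approx p hptop μ n x ((D - 1) / (D + 1) * δ) (by
    have : 0 < D - 1 := by linarith
    positivity)
  obtain ⟨N, z, hz⟩ := simple_coord p hp1.le hptop μ n S hS
  refine ⟨N, z, 2 / (D + 1), by positivity, fun i j => ?_⟩
  by_cases hij : i = j
  · subst hij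
    have h1 : lpd p.toReal z i i = 0 := by
      unfold lpd
      simp [hpr.ne']
    simp [h1]
  · have h1 := hS' i j
    rw [← hz i j, abs_le] at h1
    have h2 := hδ2 i j hij
    have h3 : (D - 1) / (D + 1) * δ ≤ (D - 1) / (D + 1) * ‖x i - x j‖ := by
      apply mul_le_mul_of_nonneg_left h2
      have : 0 < D - 1 := by linarith
      positivity
    have h4 : (2 / (D + 1)) = 1 - (D - 1) / (D + 1) := by
      field_simp
      ring
    have h5 : D * (2 / (D + 1)) = 1 + (D - 1) / (D + 1) := by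
      field_simp
      ring
    show 2 / (D + 1) * ‖x i - x j‖ ≤ lpd p.toReal z i j ∧
      lpd p.toReal z i j ≤ D * (2 / (D + 1)) * ‖x i - x j‖
    rw [h5, h4]
    constructor
    · linarith [h1.1]
    · linarith [h1.2]

end Crest.Agent.R232
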