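import Crest.Agent.R232.StepC
import Crest.Agent.R232.Prelim
import Crest.Agent.R232.Simple

/-! # Row 232, piece FIN: the final assembly of S0358

`D₁ = D^{1/3} > 1`. Compose `simple`, `prelim` (`C₀`), `stepC` via `Dst.trans`; positivity of the
intermediate distances from `Dst` and injectivity of `x`. `y i = WithLp.toLp p (z' i)` and
`PiLp.norm_eq_sum`. -/

set_option autoImplicit false

open MeasureTheory
open scoped ENNReal

universe u

namespace Crest.Agent.R232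

theorem Dst.trans {V : Type} {D D' : ℝ} {a b c : V → V → ℝ} (hD' : 0 ≤ D')
    (h : Dst D a b) (h' : Dst D' b c) : Dst (D * D') a c := by
  obtain ⟨s, hs, h⟩ := h
  obtain ⟨s', hs', h'⟩ := h'
  refine ⟨s' * s, mul_pos hs' hs, fun i j => ⟨?_, ?_⟩⟩
  · have h1 := mul_le_mul_of_nonneg_left (h i j).1 hs'.le
    calc s' * s * a i j = s' * (s * a i j) := by ring
      _ ≤ s' * b i j := h1
      _ ≤ c i j := (h' i j).1
  · have h1 := mul_le_mul_of_nonneg_left (h i j).2 (mul_nonneg hD' hs'.le)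
    calc c i j ≤ D' * s' * b i j := (h' i j).2
      _ ≤ D' * s' * (D * s * a i j) := h1
      _ = D * D' * (s' * s) * a i j := by ring

theorem Dst.pos {V : Type} {D : ℝ} (_hD : 0 ≤ D) {a b : V → V → ℝ} (h : Dst D a b) {i j : V}
    (ha : 0 < a i j) : 0 < b i j := by
  obtain ⟨s, hs, h⟩ := h
  exact lt_of_lt_of_le (mul_pos hs ha) (h i j).1

theorem fin358 (p : ℝ≥0∞) [Fact (1 ≤ p)] (hp1 : 1 < p) (hptop : p ≠ ⊤) (hp2 : p ≠ 2)
    (D : ℝ) (hD : 1 < D) :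
    ∃ C : ℝ, ∀ (n : ℕ), 2 ≤ n →
      ∀ (α : Type u) [MeasurableSpace α] (μ : Measure α) (x : Fin n → Lp ℝ p μ),
        Function.Injective x →
        ∃ d : ℕ, (d : ℝ) ≤ Real.exp (C * Real.log n ^ (if p.toReal < 2 then 2 - p.toReal else 1 - 2 / p.toReal)) ∧
          ∃ (y : Fin n → PiLp p (fun _ : Fin d => ℝ)) (s : ℝ), 0 < s ∧
            ∀ i j, s * ‖x i - x j‖ ≤ ‖y i - y j‖ ∧ ‖y i - y j‖ ≤ D * s * ‖x i - x j‖ := by
  have hpr1 : 1 < p.toReal := by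
    rw [← ENNReal.toReal_one]
    exact (ENNReal.toReal_lt_toReal (by simp) hptop).2 hp1
  have hpr2 : p.toReal ≠ 2 := by
    intro h
    apply hp2
    rw [← ENNReal.ofReal_toReal hptop, h]
    simp
  set D₁ : ℝ := D ^ (1 / 3 : ℝ) with hD₁
  have hD1 : 1 < D₁ := Real.one_lt_rpow hD (by norm_num)
  have hD3 : D₁ * D₁ * D₁ = D := by
    rw [hD₁, ← Real.rpow_add (by linarith), ← Real.rpow_add (by linarith)]
    norm_num
  obtain ⟨C₀, hC₀, hpre⟩ := prelim p.toReal hpr1 D₁ hD1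
  obtain ⟨C, hC⟩ := stepC p.toReal hpr1 hpr2 D₁ hD1 C₀ hC₀
  refine ⟨C, fun n hn α _ μ x hx => ?_⟩
  obtain ⟨N₁, z₁, h₁⟩ := simple p hp1 hptop D₁ hD1 μ n x hx
  have hpos1 : ∀ i j, i ≠ j → 0 < lpd p.toReal z₁ i j := fun i j hij =>
    Dst.pos (by linarith) h₁ (norm_pos_iff.2 (sub_ne_zero.2 (hx.ne hij)))
  obtain ⟨N₂, hN₂, z₂, h₂⟩ := hpre n hn N₁ z₁ hpos1
  have hpos2 : ∀ i j, i ≠ j → 0 < lpd p.toReal z₂ i j := fun i j hij =>
    Dst.pos (by linarith) h₂ (hpos1 i j hij)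
  obtain ⟨N₃, hN₃, z₃, h₃⟩ := hC n hn N₂ z₂ hN₂ hpos2
  refine ⟨N₃, hN₃, fun i => WithLp.toLp p (z₃ i), ?_⟩
  have h := (h₁.trans (by linarith) h₂).trans (by linarith) h₃
  rw [hD3] at h
  obtain ⟨s, hs, h⟩ := h
  refine ⟨s, hs, fun i j => ?_⟩
  have hn : ‖(WithLp.toLp p (z₃ i) : PiLp p (fun _ : Fin N₃ => ℝ)) - WithLp.toLp p (z₃ j)‖ =
      lpd p.toReal z₃ i j := by
    rw [PiLp.norm_eq_sum (by linarith)]
    rfl
  rw [hn]
  exact h i j

end Crest.Agent.R232
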