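import Crest.Agent.R232.Defs

/-! # Row 232, piece FCS: Cauchy-Schwarz between the total variation of `p` and its information

`∑_e ν e |grad d p e| = ∑_e ν e |p x - p y| / d(x,y)`, `e = (x,y)`. For each `e` (off-diagonal, the
diagonal terms vanish) `|p x - p y|/d = sqrt((p x-p y)²/(d² (p x+p y))) * sqrt(p x+p y)` (if
`p x + p y = 0` both are 0). Cauchy-Schwarz (`Finset.sum_mul_sq_le_sq_mul_sq` or
`Finset.inner_mul_le_norm_mul_norm`) with weights `ν e`:
`(…)² ≤ (∑_e ν e (p x-p y)²/(d²(p x+p y))) * (∑_e ν e (p x + p y))`. The second factor is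
`∑_x piw ν x * p x = 1`; the first is `Fi (cond d ν) p` after symmetrisation
(`d` symmetric; `∑_{(x,y)} ν(x,y) F(x,y) = ½ ∑_{x,y} (ν(x,y)+ν(y,x)) F(x,y)` for symmetric `F`). -/

set_option autoImplicit false

namespace Crest.Agent.R232

theorem fisher_cs {V : Type} [Fintype V] (d : V → V → ℝ) (hd : IsDist d) (ν : V × V → ℝ)
    (hν : ∀ e, 0 ≤ ν e) (p : V → ℝ) (hp : ∀ x, 0 ≤ p x) (hmass : ∑ x, piw ν x * p x = 1) :
    (∑ e, ν e * |grad d p e|) ^ 2 ≤ Fi (cond d ν) p := by
  have hcs := Finset.sum_sq_le_sum_mul_sum_of_sq_le_mul (Finset.univ : Finset (V × V))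
    (r := fun e => ν e * |grad d p e|)
    (f := fun e => ν e * ((grad d p e) ^ 2 / (p e.1 + p e.2)))
    (g := fun e => ν e * (p e.1 + p e.2))
    (fun e _ => mul_nonneg (hν e) (div_nonneg (sq_nonneg _) (add_nonneg (hp _) (hp _))))
    (fun e _ => mul_nonneg (hν e) (add_nonneg (hp _) (hp _)))
    (fun e _ => by
      rw [mul_pow, sq_abs]
      rcases (add_nonneg (hp e.1) (hp e.2)).eq_or_lt with h0 | h0
      · have h1 : p e.1 = 0 := by linarith [hp e.1, hp e.2]
        have h2 : p e.2 = 0 := by linarith [hp e.1, hp e.2]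
        simp [grad, h1, h2]
      · refine le_of_eq ?_; field_simp)
  have hg : ∑ e : V × V, ν e * (p e.1 + p e.2) = 1 := by
    rw [← hmass, Fintype.sum_prod_type]
    simp only [mul_add, Finset.sum_add_distrib]
    rw [Finset.sum_comm (f := fun x y => ν (x, y) * p y), ← Finset.sum_add_distrib]
    refine Finset.sum_congr rfl fun x _ => ?_
    rw [piw, Finset.sum_mul, ← Finset.sum_add_distrib]
    exact Finset.sum_congr rfl fun y _ => by ring
  have hf : ∑ e : V × V, ν e * ((grad d p e) ^ 2 / (p e.1 + p e.2)) = Fi (cond d ν) p := by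
    rw [Fintype.sum_prod_type]
    have h1 : ∑ x, ∑ y, ν (x, y) * ((grad d p (x, y)) ^ 2 / (p x + p y)) =
        ∑ x, ∑ y, ν (y, x) * ((grad d p (x, y)) ^ 2 / (p x + p y)) := by
      rw [Finset.sum_comm]
      refine Finset.sum_congr rfl fun x _ => Finset.sum_congr rfl fun y _ => ?_
      have : (grad d p (y, x)) ^ 2 = (grad d p (x, y)) ^ 2 := by
        simp only [grad]
        rw [hd.symm y x]; ring
      rw [this, add_comm (p y)]
    have h2 : Fi (cond d ν) p = 1 / 2 * (∑ x, ∑ y, ν (x, y) * ((grad d p (x, y)) ^ 2 / (p x + p y)) +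
        ∑ x, ∑ y, ν (y, x) * ((grad d p (x, y)) ^ 2 / (p x + p y))) := by
      unfold Fi
      congr 1
      rw [← Finset.sum_add_distrib]
      refine Finset.sum_congr rfl fun x _ => ?_
      rw [← Finset.sum_add_distrib]
      refine Finset.sum_congr rfl fun y _ => ?_
      simp only [grad, cond]
      ring
    rw [h2, ← h1]
    ring
  rw [hg, mul_one, hf] at hcs
  exact hcs

end Crest.Agent.R232
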