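import Crest.Agent.R232.Defs

/-! # Row 232, piece LAP: the matrix `M = (L+J)⁻¹`

`uᵀ(L+J)u = ½ ∑_{x,y} cond x y (u x-u y)² + (∑ u)²`, which is `> 0` for `u ≠ 0` (`cond x y > 0`
for `x ≠ y`). So `LJ` is injective/invertible (`Matrix.exists_mulVec_eq_zero_iff`). `LJ` is
symmetric, `(L+J) 1 = n 1`, hence `M 1 = (1/n) 1`, `1ᵀ M = (1/n) 1ᵀ`; `L M = 1 - J M`,
`M L = 1 - M J`, `(J M b) = (1/n)(∑ b) 1 = 0` if `∑ b = 0`. -/

set_option autoImplicit false

namespace Crest.Agent.R232

variable {V : Type} [Fintype V] [DecidableEq V] (d : V → V → ℝ) (ν : V × V → ℝ)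

omit [Fintype V] [DecidableEq V] in
theorem cond_symm (hd : IsDist d) (x y : V) : cond d ν x y = cond d ν y x := by
  unfold cond
  rw [hd.symm x y, add_comm]

omit [Fintype V] [DecidableEq V] in
theorem cond_nonneg (hν : ∀ e, 0 < ν e) (x y : V) : 0 ≤ cond d ν x y := by
  unfold cond
  have h1 := hν (x, y)
  have h2 := hν (y, x)
  positivity

omit [Fintype V] [DecidableEq V] in
theorem cond_pos (hd : IsDist d) (hν : ∀ e, 0 < ν e) (x y : V) (hxy : x ≠ y) :
    0 < cond d ν x y := by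
  unfold cond
  have h1 := hν (x, y)
  have h2 := hν (y, x)
  have h3 := hd.pos x y hxy
  positivity

theorem LJ_mul_apply (g : V → ℝ) (x : V) :
    ∑ y, LJ d ν x y * g y = ∑ y, cond d ν x y * (g x - g y) + ∑ y, g y := by
  have h1 : ∀ y, LJ d ν x y * g y =
      (if x = y then (∑ z, cond d ν x z) * g y else 0) - cond d ν x y * g y + g y := by
    intro y
    simp only [LJ, Matrix.of_apply]
    split_ifs <;> ring
  simp only [h1, Finset.sum_add_distrib, Finset.sum_sub_distrib, Finset.sum_ite_eq,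
    Finset.mem_univ, if_true, mul_sub, Finset.sum_mul]

theorem LJ_symm (hd : IsDist d) (x y : V) : LJ d ν x y = LJ d ν y x := by
  simp only [LJ, Matrix.of_apply]
  rw [cond_symm d ν hd x y]
  by_cases h : x = y
  · subst h; rfl
  · rw [if_neg h, if_neg (fun h' => h h'.symm)]

theorem LJ_det_ne (hd : IsDist d) (hν : ∀ e, 0 < ν e) : (LJ d ν).det ≠ 0 := by
  intro h0
  obtain ⟨u, hu, hu0⟩ := Matrix.exists_mulVec_eq_zero_iff.mpr h0
  have hx : ∀ x, ∑ y, cond d ν x y * (u x - u y) + ∑ y, u y = 0 := by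
    intro x
    rw [← LJ_mul_apply]
    have := congrFun hu0 x
    simpa [Matrix.mulVec, dotProduct] using this
  have hsum : ∑ x, u x * (∑ y, cond d ν x y * (u x - u y) + ∑ y, u y) = 0 := by
    apply Finset.sum_eq_zero
    intro x _
    rw [hx x, mul_zero]
  have hq : ∑ x, ∑ y, cond d ν x y * (u x * (u x - u y)) + (∑ x, u x) * (∑ y, u y) = 0 := by
    rw [← hsum, Finset.sum_mul, ← Finset.sum_add_distrib]
    refine Finset.sum_congr rfl fun x _ => ?_
    have h3 : u x * ∑ y, cond d ν x y * (u x - u y) =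
        ∑ y, cond d ν x y * (u x * (u x - u y)) := by
      rw [Finset.mul_sum]
      exact Finset.sum_congr rfl fun y _ => by ring
    rw [mul_add, h3]
  have hswap : ∑ x, ∑ y, cond d ν x y * (u x * (u x - u y)) =
      ∑ x, ∑ y, cond d ν x y * (u y * (u y - u x)) := by
    rw [Finset.sum_comm]
    refine Finset.sum_congr rfl fun x _ => Finset.sum_congr rfl fun y _ => ?_
    rw [cond_symm d ν hd y x]
  have hsq : ∑ x, ∑ y, cond d ν x y * (u x - u y) ^ 2 + 2 * (∑ x, u x) ^ 2 = 0 := by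
    have h2 : ∑ x, ∑ y, cond d ν x y * (u x - u y) ^ 2 =
        ∑ x, ∑ y, cond d ν x y * (u x * (u x - u y)) +
          ∑ x, ∑ y, cond d ν x y * (u y * (u y - u x)) := by
      rw [← Finset.sum_add_distrib]
      refine Finset.sum_congr rfl fun x _ => ?_
      rw [← Finset.sum_add_distrib]
      exact Finset.sum_congr rfl fun y _ => by ring
    rw [h2, ← hswap]
    linarith [hq, sq (∑ x, u x)]
  have hnn : ∀ x ∈ Finset.univ, 0 ≤ ∑ y, cond d ν x y * (u x - u y) ^ 2 := fun x _ =>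
    Finset.sum_nonneg fun y _ => mul_nonneg (cond_nonneg d ν hν x y) (sq_nonneg _)
  have hnn' := Finset.sum_nonneg hnn
  have hA : ∑ x, ∑ y, cond d ν x y * (u x - u y) ^ 2 = 0 := by
    have := sq_nonneg (∑ x, u x)
    linarith
  have hB : ∑ x, u x = 0 := by
    have : (∑ x, u x) ^ 2 = 0 := by
      have := sq_nonneg (∑ x, u x)
      linarith
    exact pow_eq_zero_iff (two_ne_zero) |>.mp this
  have hC : ∀ x y, u x = u y := by
    intro x y
    by_cases hxy : x = y
    · rw [hxy]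
    · have h1 := (Finset.sum_eq_zero_iff_of_nonneg hnn).mp hA x (Finset.mem_univ _)
      have h2 := (Finset.sum_eq_zero_iff_of_nonneg (fun y _ =>
        mul_nonneg (cond_nonneg d ν hν x y) (sq_nonneg _))).mp h1 y (Finset.mem_univ _)
      have h3 := cond_pos d ν hd hν x y hxy
      have h4 : (u x - u y) ^ 2 = 0 := by
        rcases mul_eq_zero.mp h2 with h | h
        · exact absurd h h3.ne'
        · exact h
      have h5 := pow_eq_zero_iff (two_ne_zero) |>.mp h4
      linarith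
  apply hu
  funext x
  have : ∑ y, u y = (Fintype.card V : ℝ) * u x := by
    rw [Finset.sum_congr rfl (fun y _ => hC y x), Finset.sum_const, Finset.card_univ,
      nsmul_eq_mul]
  rw [hB] at this
  have hcard : (Fintype.card V : ℝ) ≠ 0 := by
    have : 0 < Fintype.card V := Fintype.card_pos_iff.mpr ⟨x⟩
    positivity
  rcases mul_eq_zero.mp this.symm with h | h
  · exact absurd h hcard
  · exact h

set_option linter.unusedVariables false in
theorem Mm_symm (hd : IsDist d) (hν : ∀ e, 0 < ν e) (x y : V) : Mm d ν x y = Mm d ν y x := by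
  have h1 : (LJ d ν).transpose = LJ d ν := by
    ext i j
    rw [Matrix.transpose_apply, LJ_symm d ν hd]
  have h2 : (Mm d ν).transpose = Mm d ν := by
    unfold Mm
    rw [Matrix.transpose_nonsing_inv, h1]
  conv_lhs => rw [← h2]
  rfl

theorem LJ_Mm (hd : IsDist d) (hν : ∀ e, 0 < ν e) (x a : V) :
    ∑ y, LJ d ν x y * Mm d ν y a = if x = a then 1 else 0 := by
  have h := Matrix.mul_nonsing_inv (LJ d ν) (isUnit_iff_ne_zero.mpr (LJ_det_ne d ν hd hν))
  have h2 := congrFun (congrFun h x) a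
  rw [Matrix.mul_apply, Matrix.one_apply] at h2
  exact h2

theorem Mm_LJ (hd : IsDist d) (hν : ∀ e, 0 < ν e) (x a : V) :
    ∑ y, Mm d ν x y * LJ d ν y a = if x = a then 1 else 0 := by
  have h := Matrix.nonsing_inv_mul (LJ d ν) (isUnit_iff_ne_zero.mpr (LJ_det_ne d ν hd hν))
  have h2 := congrFun (congrFun h x) a
  rw [Matrix.mul_apply, Matrix.one_apply] at h2
  exact h2

theorem Mm_LJ_apply (hd : IsDist d) (hν : ∀ e, 0 < ν e) (g : V → ℝ) (x : V) :
    ∑ y, Mm d ν x y * (∑ z, LJ d ν y z * g z) = g x := by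
  have h1 : ∑ y, Mm d ν x y * (∑ z, LJ d ν y z * g z) =
      ∑ z, (∑ y, Mm d ν x y * LJ d ν y z) * g z := by
    simp only [Finset.mul_sum, Finset.sum_mul]
    rw [Finset.sum_comm]
    exact Finset.sum_congr rfl fun z _ => Finset.sum_congr rfl fun y _ => by ring
  rw [h1]
  simp only [Mm_LJ d ν hd hν, ite_mul, one_mul, zero_mul, Finset.sum_ite_eq, Finset.mem_univ,
    if_true]

theorem Mm_row_sum (hd : IsDist d) (hν : ∀ e, 0 < ν e) (x : V) :
    ∑ y, Mm d ν x y = 1 / (Fintype.card V : ℝ) := by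
  have h := Mm_LJ_apply d ν hd hν (fun _ => 1) x
  have h1 : ∀ y, ∑ z, LJ d ν y z * (1 : ℝ) = (Fintype.card V : ℝ) := by
    intro y
    rw [LJ_mul_apply d ν (fun _ => (1 : ℝ)) y]
    simp
  simp only [h1] at h
  rw [← Finset.sum_mul] at h
  have hcard : (Fintype.card V : ℝ) ≠ 0 := by
    have : 0 < Fintype.card V := Fintype.card_pos_iff.mpr ⟨x⟩
    positivity
  field_simp
  exact h

theorem Mm_col_sum (hd : IsDist d) (hν : ∀ e, 0 < ν e) (x : V) :
    ∑ y, Mm d ν y x = 1 / (Fintype.card V : ℝ) := by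
  rw [← Mm_row_sum d ν hd hν x]
  exact Finset.sum_congr rfl fun y _ => Mm_symm d ν hd hν y x

/-- `L M (1_a - 1_b) = 1_a - 1_b` -/
theorem Mm_solve (hd : IsDist d) (hν : ∀ e, 0 < ν e) (a b x : V) :
    ∑ y, cond d ν x y * ((Mm d ν x a - Mm d ν x b) - (Mm d ν y a - Mm d ν y b)) =
      (if x = a then 1 else 0) - (if x = b then 1 else 0) := by
  have h1 := LJ_Mm d ν hd hν x a
  have h2 := LJ_Mm d ν hd hν x b
  rw [LJ_mul_apply d ν (fun y => Mm d ν y a) x, Mm_col_sum d ν hd hν a] at h1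
  rw [LJ_mul_apply d ν (fun y => Mm d ν y b) x, Mm_col_sum d ν hd hν b] at h2
  rw [← h1, ← h2]
  have h3 : ∑ y, cond d ν x y * ((Mm d ν x a - Mm d ν x b) - (Mm d ν y a - Mm d ν y b)) =
      ∑ y, cond d ν x y * (Mm d ν x a - Mm d ν y a) -
        ∑ y, cond d ν x y * (Mm d ν x b - Mm d ν y b) := by
    rw [← Finset.sum_sub_distrib]
    exact Finset.sum_congr rfl fun y _ => by ring
  rw [h3]
  ring

/-- `(1_x - 1_y)ᵀ M L g = g x - g y` -/
theorem Mm_lap (hd : IsDist d) (hν : ∀ e, 0 < ν e) (g : V → ℝ) (x y : V) :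
    ∑ z, (Mm d ν x z - Mm d ν y z) * ∑ w, cond d ν z w * (g z - g w) = g x - g y := by
  have key : ∀ x, ∑ z, Mm d ν x z * ∑ w, cond d ν z w * (g z - g w) =
      g x - 1 / (Fintype.card V : ℝ) * ∑ w, g w := by
    intro x
    have h := Mm_LJ_apply d ν hd hν g x
    simp only [LJ_mul_apply d ν g, mul_add, Finset.sum_add_distrib] at h
    rw [← Finset.sum_mul, Mm_row_sum d ν hd hν x] at h
    linarith
  simp only [sub_mul, Finset.sum_sub_distrib]
  rw [key x, key y]
  ring

theorem G_symm (hd : IsDist d) (hν : ∀ e, 0 < ν e) (e e' : V × V) :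
    G d ν e e' = G d ν e' e := by
  unfold G
  rw [Mm_symm d ν hd hν e.1 e'.1, Mm_symm d ν hd hν e.1 e'.2, Mm_symm d ν hd hν e.2 e'.1,
    Mm_symm d ν hd hν e.2 e'.2, mul_comm (d e.1 e.2)]
  ring

end Crest.Agent.R232
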