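import Crest.Agent.R232.HeatK
import Crest.Agent.R232.Lap

/-! # Row 232, piece GREEN: Neumann series for the Green function

`exists_net`: `piw ν x > 0`; take `δ` = min over the finite set of `x` of
`piw x / (2 (1 + ∑ y, cond x y))` (`cond ≥ 0`, symmetric).

`green_exp`: let `u v = Mm v a - Mm v b`. By `Mm_solve`,
`(Qop u)(x) = u x - (δ/π x) ((if x = a then 1 else 0) - (if x = b then 1 else 0))
  = u x - δ (hk 0 a x - hk 0 b x)`. Apply `Qop^[k]` (linear) and sum over `k < K`. -/

set_option autoImplicit false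

namespace Crest.Agent.R232

variable {V : Type} [Fintype V] [DecidableEq V] (d : V → V → ℝ) (ν : V × V → ℝ)

omit [DecidableEq V] in
theorem piw_pos (hν : ∀ e, 0 < ν e) (x : V) : 0 < piw ν x := by
  unfold piw
  apply Finset.sum_pos
  · intro y _
    exact add_pos (hν _) (hν _)
  · exact ⟨x, Finset.mem_univ x⟩

omit [DecidableEq V] in
theorem exists_net [Nonempty V] (hd : IsDist d) (hν : ∀ e, 0 < ν e) :
    ∃ δ, IsNet (cond d ν) (piw ν) δ := by
  obtain ⟨x0, -, hx0⟩ := Finset.exists_min_image (Finset.univ : Finset V) (piw ν)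
    Finset.univ_nonempty
  have hS0 : 0 ≤ ∑ x, ∑ y, cond d ν x y :=
    Finset.sum_nonneg fun x _ => Finset.sum_nonneg fun y _ => cond_nonneg d ν hν x y
  have hp0 := piw_pos ν hν x0
  refine ⟨piw ν x0 / (2 * (∑ x, ∑ y, cond d ν x y + 1)), ⟨cond_symm d ν hd,
    cond_nonneg d ν hν, piw_pos ν hν, by positivity, ?_⟩⟩
  intro x
  have h1 : ∑ y, cond d ν x y ≤ ∑ x, ∑ y, cond d ν x y :=
    Finset.single_le_sum (f := fun x => ∑ y, cond d ν x y)
      (fun x _ => Finset.sum_nonneg fun y _ => cond_nonneg d ν hν x y) (Finset.mem_univ x)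
  have h2 := hx0 x (Finset.mem_univ x)
  set S := ∑ x, ∑ y, cond d ν x y with hS
  calc piw ν x0 / (2 * (S + 1)) * ∑ y, cond d ν x y ≤ piw ν x0 / (2 * (S + 1)) * (S + 1) :=
        mul_le_mul_of_nonneg_left (by linarith) (by positivity)
    _ = piw ν x0 / 2 := by field_simp
    _ ≤ piw ν x / 2 := by linarith

omit [DecidableEq V] in
theorem Qop_iter_lin (c : V → V → ℝ) (π : V → ℝ) (δ : ℝ) (K : ℕ) :
    ∀ (u w w' : V → ℝ) (t : ℝ), (Qop c π δ)^[K] (fun v => u v - t * (w v - w' v)) =
      fun x => (Qop c π δ)^[K] u x - t * ((Qop c π δ)^[K] w x - (Qop c π δ)^[K] w' x) := by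
  induction K with
  | zero => intro u w w' t; rfl
  | succ K ih =>
    intro u w w' t
    rw [Function.iterate_succ_apply]
    have h1 : Qop c π δ (fun v => u v - t * (w v - w' v)) =
        fun v => Qop c π δ u v - t * (Qop c π δ w v - Qop c π δ w' v) := by
      funext v
      unfold Qop
      have h2 : ∑ y, c v y * (u v - t * (w v - w' v) - (u y - t * (w y - w' y))) =
          ∑ y, c v y * (u v - u y) - t * (∑ y, c v y * (w v - w y) -
            ∑ y, c v y * (w' v - w' y)) := by
        rw [← Finset.sum_sub_distrib, Finset.mul_sum, ← Finset.sum_sub_distrib]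
        exact Finset.sum_congr rfl fun y _ => by ring
      rw [h2]
      ring
    rw [h1, ih]
    rfl

set_option linter.unusedVariables false in
theorem green_exp (hd : IsDist d) (hν : ∀ e, 0 < ν e) (δ : ℝ)
    (hδ : IsNet (cond d ν) (piw ν) δ) (a b x : V) (K : ℕ) :
    Mm d ν x a - Mm d ν x b =
      (Qop (cond d ν) (piw ν) δ)^[K] (fun v => Mm d ν v a - Mm d ν v b) x +
        δ * ∑ k ∈ Finset.range K,
          (hk (cond d ν) (piw ν) δ k a x - hk (cond d ν) (piw ν) δ k b x) := by
  have h0 : Qop (cond d ν) (piw ν) δ (fun v => Mm d ν v a - Mm d ν v b) =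
      fun v => (fun v => Mm d ν v a - Mm d ν v b) v - δ *
        ((fun x => if x = a then 1 / piw ν a else 0) v -
          (fun x => if x = b then 1 / piw ν b else 0) v) := by
    funext v
    unfold Qop
    rw [Mm_solve d ν hd hν a b v]
    by_cases h1 : v = a <;> by_cases h2 : v = b
    · subst h1; subst h2; simp
    · subst h1; simp [h2]; ring
    · subst h2; simp [h1]; ring
    · simp [h1, h2]
  induction K with
  | zero => simp
  | succ K ih =>
    rw [Finset.sum_range_succ, Function.iterate_succ_apply, h0, Qop_iter_lin]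
    have h3 : (Qop (cond d ν) (piw ν) δ)^[K] (fun x => if x = a then 1 / piw ν a else 0) x =
        hk (cond d ν) (piw ν) δ K a x := rfl
    have h4 : (Qop (cond d ν) (piw ν) δ)^[K] (fun x => if x = b then 1 / piw ν b else 0) x =
        hk (cond d ν) (piw ν) δ K b x := rfl
    simp only [h3, h4]
    rw [ih]
    ring

end Crest.Agent.R232
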