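import Crest.Agent.R232.Chain

/-! # Row 232, piece HK: heat kernel facts

* `Qop` is linear, preserves nonnegativity (`(Qp)(x) ≥ p x - (δ/π x)(∑ c) p x ≥ 0` by `lazy`),
  is self-adjoint for `⟨u,v⟩ = ∑ π x u x v x` (symmetry of `c`), preserves the mass `∑ π x u x`.
* `hk k z x = ⟨hk 0 x, Q^k (hk 0 z)⟩`, so symmetry and the semigroup property follow from
  self-adjointness.
* `hk_fisher_sum`: telescope `ent_diss`; `Ent π (hk 0 z) = log (1/π z)`, and for any `p ≥ 0` with
  `∑ π p = 1`: `Ent π p ≥ - log (∑ π)` (Jensen / `log x ≤ x - 1` with `x = 1/(p(x) π(V))`). -/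

set_option autoImplicit false

namespace Crest.Agent.R232

variable {V : Type} [Fintype V] [DecidableEq V] (c : V → V → ℝ) (π : V → ℝ) (δ : ℝ)

theorem hk_zero (z : V) : hk c π δ 0 z = fun x => if x = z then 1 / π z else 0 := rfl

theorem hk_succ (k : ℕ) (z : V) : hk c π δ (k + 1) z = Qop c π δ (hk c π δ k z) := by
  unfold hk; rw [Function.iterate_succ_apply']

theorem HKaux.Qop_nonneg {V : Type} [Fintype V] (c : V → V → ℝ) (π : V → ℝ) (δ : ℝ)
    (h : IsNet c π δ) (u : V → ℝ) (hu : ∀ x, 0 ≤ u x) (x : V) :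
    0 ≤ Qop c π δ u x := by
  have h1 : ∑ y, c x y * (u x - u y) ≤ (∑ y, c x y) * u x := by
    rw [Finset.sum_mul]
    refine Finset.sum_le_sum fun y _ => ?_
    have := mul_nonneg (h.nonneg x y) (hu y)
    nlinarith [h.nonneg x y, hu x, hu y]
  have hπ := h.pi_pos x
  have h2 : δ / π x * ∑ y, c x y * (u x - u y) ≤ δ / π x * ((∑ y, c x y) * u x) :=
    mul_le_mul_of_nonneg_left h1 (div_pos h.δ_pos hπ).le
  have h3 : δ / π x * ((∑ y, c x y) * u x) = (δ * ∑ y, c x y) / π x * u x := by ring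
  have h4 : (δ * ∑ y, c x y) / π x ≤ 1 / 2 := by
    rw [div_le_iff₀ hπ]; have := h.lazy x; linarith
  have h5 : (δ * ∑ y, c x y) / π x * u x ≤ 1 / 2 * u x := mul_le_mul_of_nonneg_right h4 (hu x)
  unfold Qop
  have := hu x
  linarith

theorem HKaux.Qop_selfadj {V : Type} [Fintype V] (c : V → V → ℝ) (π : V → ℝ) (δ : ℝ)
    (h : IsNet c π δ) (u v : V → ℝ) :
    ∑ x, π x * u x * Qop c π δ v x = ∑ x, π x * Qop c π δ u x * v x := by
  have e1 : ∀ (u v : V → ℝ), ∑ x, π x * u x * Qop c π δ v x =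
      ∑ x, π x * u x * v x - δ * ((∑ x, ∑ y, c x y * u x * v x) - ∑ x, ∑ y, c x y * u x * v y) := by
    intro u v
    rw [← Finset.sum_sub_distrib, Finset.mul_sum, ← Finset.sum_sub_distrib]
    refine Finset.sum_congr rfl fun x _ => ?_
    rw [← Finset.sum_sub_distrib]
    unfold Qop
    have hπ := (h.pi_pos x).ne'
    have : ∑ y, (c x y * u x * v x - c x y * u x * v y) = u x * ∑ y, c x y * (v x - v y) := by
      rw [Finset.mul_sum]; exact Finset.sum_congr rfl fun y _ => by ring
    rw [this]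
    field_simp
  have e2 : ∑ x, ∑ y, c x y * u x * v y = ∑ x, ∑ y, c x y * v x * u y := by
    rw [Finset.sum_comm]
    refine Finset.sum_congr rfl fun x _ => Finset.sum_congr rfl fun y _ => ?_
    rw [h.symm y x]; ring
  have e3 : ∑ x, ∑ y, c x y * u x * v x = ∑ x, ∑ y, c x y * v x * u x :=
    Finset.sum_congr rfl fun x _ => Finset.sum_congr rfl fun y _ => by ring
  have e4 : ∑ x, π x * Qop c π δ u x * v x = ∑ x, π x * v x * Qop c π δ u x :=
    Finset.sum_congr rfl fun x _ => by ring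
  have e5 : ∑ x, π x * u x * v x = ∑ x, π x * v x * u x :=
    Finset.sum_congr rfl fun x _ => by ring
  rw [e4, e1 u v, e1 v u, e2, e3, e5]

theorem HKaux.iter_selfadj {V : Type} [Fintype V] (c : V → V → ℝ) (π : V → ℝ) (δ : ℝ)
    (h : IsNet c π δ) (k : ℕ) : ∀ (u v : V → ℝ),
    ∑ x, π x * u x * ((Qop c π δ)^[k] v) x = ∑ x, π x * ((Qop c π δ)^[k] u) x * v x := by
  induction k with
  | zero => intro u v; rfl
  | succ k ih =>
    intro u v
    rw [Function.iterate_succ_apply', HKaux.Qop_selfadj c π δ h, ih, ← Function.iterate_succ_apply]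

theorem HKaux.delta_inner (h : IsNet c π δ) (z : V) (v : V → ℝ) :
    ∑ x, π x * hk c π δ 0 z x * v x = v z := by
  rw [hk_zero]
  rw [Finset.sum_eq_single z]
  · have := (h.pi_pos z).ne'
    simp [this]
  · intro b _ hb; simp [hb]
  · intro hz; exact absurd (Finset.mem_univ z) hz

theorem hk_nonneg (h : IsNet c π δ) (k : ℕ) (z x : V) : 0 ≤ hk c π δ k z x := by
  induction k generalizing x with
  | zero =>
    rw [hk_zero]
    have := (h.pi_pos z)
    dsimp only
    split_ifs
    · positivity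
    · exact le_rfl
  | succ k ih => rw [hk_succ]; exact HKaux.Qop_nonneg c π δ h _ ih x

theorem hk_mass (h : IsNet c π δ) (k : ℕ) (z : V) : ∑ x, π x * hk c π δ k z x = 1 := by
  induction k with
  | zero =>
    have := HKaux.delta_inner c π δ h z (fun _ => 1)
    simpa using this
  | succ k ih =>
    rw [hk_succ]
    have h1 := HKaux.Qop_selfadj c π δ h (fun _ => 1) (hk c π δ k z)
    have h2 : Qop c π δ (fun _ => (1 : ℝ)) = fun _ => 1 := by
      funext x; simp [Qop]
    rw [h2] at h1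
    simp only [mul_one] at h1
    rw [h1, ih]

theorem hk_add (h : IsNet c π δ) (j k : ℕ) (z x : V) :
    hk c π δ (j + k) z x = ∑ w, π w * hk c π δ j x w * hk c π δ k z w := by
  have h1 : hk c π δ (j + k) z = (Qop c π δ)^[j] (hk c π δ k z) := by
    unfold hk; rw [Function.iterate_add_apply]
  rw [h1, ← HKaux.delta_inner c π δ h x ((Qop c π δ)^[j] (hk c π δ k z)),
    HKaux.iter_selfadj c π δ h]
  rfl

theorem hk_symm (h : IsNet c π δ) (k : ℕ) (z x : V) : hk c π δ k z x = hk c π δ k x z := by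
  have h1 := hk_add c π δ h k 0 z x
  rw [add_zero] at h1
  rw [h1, ← HKaux.delta_inner c π δ h z (hk c π δ k x)]
  exact Finset.sum_congr rfl fun w _ => by ring

theorem HKaux.ent_ge {V : Type} [Fintype V] (π : V → ℝ) (p : V → ℝ) (hπ : ∀ x, 0 < π x)
    (hp : ∀ x, 0 ≤ p x) (hm : ∑ x, π x * p x = 1) (hS : 0 < ∑ x, π x) :
    - Real.log (∑ x, π x) ≤ Ent π p := by
  set S := ∑ x, π x with hSdef
  have key : ∀ x, π x * (p x - 1 / S) ≤ π x * (p x * Real.log (p x)) + π x * p x * Real.log S := by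
    intro x
    have : p x - 1 / S ≤ p x * Real.log (p x) + p x * Real.log S := by
      rcases (hp x).eq_or_lt with h0 | h0
      · rw [← h0]; simp; positivity
      · have h1 := Real.log_le_sub_one_of_pos (show 0 < 1 / (p x * S) by positivity)
        rw [one_div, Real.log_inv, Real.log_mul h0.ne' hS.ne'] at h1
        have h2 : p x * (-(Real.log (p x) + Real.log S)) ≤ p x * ((p x * S)⁻¹ - 1) :=
          mul_le_mul_of_nonneg_left h1 h0.le
        have h3 : p x * ((p x * S)⁻¹ - 1) = 1 / S - p x := by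
          field_simp
        rw [h3] at h2
        nlinarith
    calc π x * (p x - 1 / S) ≤ π x * (p x * Real.log (p x) + p x * Real.log S) :=
          mul_le_mul_of_nonneg_left this (hπ x).le
      _ = _ := by ring
  have hsum := Finset.sum_le_sum fun x (_ : x ∈ Finset.univ) => key x
  rw [Finset.sum_add_distrib, ← Finset.sum_mul, hm] at hsum
  have : ∑ x, π x * (p x - 1 / S) = 0 := by
    simp only [mul_sub, Finset.sum_sub_distrib, hm, ← Finset.sum_mul]
    rw [← hSdef, mul_one_div, div_self hS.ne', sub_self]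
  rw [this] at hsum
  unfold Ent
  linarith

theorem hk_fisher_sum (h : IsNet c π δ) (K : ℕ) (z : V) :
    δ * ∑ k ∈ Finset.range K, Fi c (hk c π δ k z) ≤ Real.log ((∑ x, π x) / π z) := by
  have hz := h.pi_pos z
  have hS : 0 < ∑ x, π x :=
    Finset.sum_pos (fun x _ => h.pi_pos x) ⟨z, Finset.mem_univ z⟩
  have h1 : ∀ K : ℕ, δ * ∑ k ∈ Finset.range K, Fi c (hk c π δ k z) ≤
      Ent π (hk c π δ 0 z) - Ent π (hk c π δ K z) := by
    intro K
    induction K with
    | zero => simp
    | succ K ih =>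
      rw [Finset.sum_range_succ, mul_add]
      have := ent_diss c π δ h (hk c π δ K z) (hk_nonneg c π δ h K z)
      rw [← hk_succ] at this
      linarith
  have h2 : Ent π (hk c π δ 0 z) = - Real.log (π z) := by
    have := HKaux.delta_inner c π δ h z (fun x => Real.log (hk c π δ 0 z x))
    have h3 : Ent π (hk c π δ 0 z) = ∑ x, π x * hk c π δ 0 z x * Real.log (hk c π δ 0 z x) := by
      unfold Ent; exact Finset.sum_congr rfl fun x _ => by ring
    rw [h3, this, hk_zero]
    simp
  have h4 := HKaux.ent_ge π (hk c π δ K z) h.pi_pos (hk_nonneg c π δ h K z) (hk_mass c π δ h K z) hS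
  have h5 := h1 K
  rw [Real.log_div hS.ne' hz.ne']
  linarith

end Crest.Agent.R232
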