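import Crest.Agent.R232.Green
import Crest.Agent.R232.FisherCS
import Crest.Agent.R232.Contr

/-! # Row 232, piece LOC: average localization of electrical flows

Fix `δ` from `exists_net`; `c = cond d ν`, `π = piw ν`, `q k z = hk c π δ k z`.
`A k z = ∑_e ν e |grad d (q k z) e|`; `A k z ^2 ≤ Fi c (q k z)` by `fisher_cs` (+ `hk_mass`,
`hk_nonneg`), and `δ ∑_{k<K} Fi c (q k z) ≤ log(π(V)/π z)` (`hk_fisher_sum`).

For `e = (x,y)`, `e' = (a,b)`, `green_exp` at `x` and at `y` gives for every `K`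
`G(e,e') = (osc_K(e,e') + δ ∑_{k<K} [q k a x - q k b x - q k a y + q k b y])/(d(e) d(e'))`, with
`osc_K → 0` by `osc_tendsto`.
By `hk_add`: `q (i+j) a x = ∑_w π w (q i x w)(q j a w)` so (with `hk_symm`)
`[q (i+j) a x - …]/(d(e)d(e')) = ∑_w π w (grad (q i w) e) (grad (q j w) e')`. Hence
`∑_{e,e'} ν e ν e' |[q (i+j) …]/(d d')| ≤ ∑_w π w A i w A j w`. Split `k = 2i` (use `A i²`) and
`k = 2i+1` (`A i A (i+1) ≤ (A i² + A (i+1)²)/2`), `k < 2K`: total
`≤ 2 ∑_w π w ∑_{k≤K} δ A k w² ≤ 2 ∑_w π w log(π(V)/π w) ≤ 2 π(V) log n`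
(concavity of `log`, or `log t ≤ t - 1` with `t = π(V)/(n π w)`), and `π(V) = 2 ∑ ν`.
Let `K → ∞`. -/

set_option autoImplicit false

namespace Crest.Agent.R232

/-- `∑_w π w log(π(V)/π w) ≤ π(V) log n` -/
theorem entropy_le {V : Type} [Fintype V] (π : V → ℝ) (hπ : ∀ x, 0 < π x) :
    ∑ w, π w * Real.log ((∑ x, π x) / π w) ≤ (∑ x, π x) * Real.log (Fintype.card V) := by
  rcases isEmpty_or_nonempty V with hV | hV
  · simp
  have hn : (0 : ℝ) < Fintype.card V := by exact_mod_cast Fintype.card_pos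
  set P := ∑ x, π x with hP
  have hPpos : 0 < P := Finset.sum_pos (fun x _ => hπ x) Finset.univ_nonempty
  have key : ∀ w, π w * Real.log (P / π w) ≤
      π w * Real.log (Fintype.card V) + (P / (Fintype.card V : ℝ) - π w) := by
    intro w
    have hw := hπ w
    have h1 : Real.log (P / π w) =
        Real.log (Fintype.card V) + Real.log (P / (Fintype.card V * π w)) := by
      rw [← Real.log_mul hn.ne' (by positivity)]
      congr 1
      field_simp
    have h2 : Real.log (P / (Fintype.card V * π w)) ≤ P / (Fintype.card V * π w) - 1 :=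
      Real.log_le_sub_one_of_pos (by positivity)
    rw [h1, mul_add]
    have h3 : π w * Real.log (P / (Fintype.card V * π w)) ≤
        π w * (P / (Fintype.card V * π w) - 1) := mul_le_mul_of_nonneg_left h2 hw.le
    have h4 : π w * (P / (Fintype.card V * π w) - 1) = P / (Fintype.card V : ℝ) - π w := by
      field_simp
    linarith
  calc ∑ w, π w * Real.log (P / π w)
      ≤ ∑ w, (π w * Real.log (Fintype.card V) + (P / (Fintype.card V : ℝ) - π w)) :=
        Finset.sum_le_sum fun w _ => key w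
    _ = P * Real.log (Fintype.card V) := by
        rw [Finset.sum_add_distrib, Finset.sum_sub_distrib, ← Finset.sum_mul, ← hP]
        simp only [Finset.sum_const, Finset.card_univ, nsmul_eq_mul]
        field_simp
        ring

namespace Locaux

/-- total variation of a function -/
noncomputable def TV {V : Type} [Fintype V] (d : V → V → ℝ) (ν : V × V → ℝ) (p : V → ℝ) : ℝ :=
  ∑ e, ν e * |grad d p e|

/-- mixed second difference of the heat kernel -/
noncomputable def Dl {V : Type} [Fintype V] [DecidableEq V] (c : V → V → ℝ) (π : V → ℝ) (δ : ℝ)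
    (k : ℕ) (e e' : V × V) : ℝ :=
  hk c π δ k e'.1 e.1 - hk c π δ k e'.2 e.1 - hk c π δ k e'.1 e.2 + hk c π δ k e'.2 e.2

theorem Dl_factor {V : Type} [Fintype V] [DecidableEq V] (d : V → V → ℝ)
    (c : V → V → ℝ) (π : V → ℝ) (δ : ℝ) (h : IsNet c π δ) (i j : ℕ) (e e' : V × V) :
    Dl c π δ (i + j) e e' / (d e.1 e.2 * d e'.1 e'.2) =
      ∑ w, π w * (grad d (hk c π δ i w) e * grad d (hk c π δ j w) e') := by
  unfold Dl
  rw [hk_add c π δ h i j e'.1 e.1, hk_add c π δ h i j e'.2 e.1, hk_add c π δ h i j e'.1 e.2,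
    hk_add c π δ h i j e'.2 e.2]
  rw [← Finset.sum_sub_distrib, ← Finset.sum_sub_distrib, ← Finset.sum_add_distrib,
    Finset.sum_div]
  refine Finset.sum_congr rfl fun w _ => ?_
  rw [hk_symm c π δ h i e.1 w, hk_symm c π δ h i e.2 w, hk_symm c π δ h j e'.1 w,
    hk_symm c π δ h j e'.2 w]
  unfold grad
  rw [div_mul_div_comm, mul_div_assoc']
  congr 1
  ring

theorem S_le {V : Type} [Fintype V] [DecidableEq V] (d : V → V → ℝ) (ν : V × V → ℝ)
    (hν : ∀ e, 0 < ν e)
    (c : V → V → ℝ) (π : V → ℝ) (δ : ℝ) (h : IsNet c π δ) (i j : ℕ) :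
    ∑ e : V × V, ∑ e' : V × V, ν e * ν e' *
      |Dl c π δ (i + j) e e' / (d e.1 e.2 * d e'.1 e'.2)| ≤
      ∑ w, π w * (TV d ν (hk c π δ i w) * TV d ν (hk c π δ j w)) := by
  have h1 : ∀ e e' : V × V, ν e * ν e' *
      |Dl c π δ (i + j) e e' / (d e.1 e.2 * d e'.1 e'.2)| ≤
      ∑ w, π w * ((ν e * |grad d (hk c π δ i w) e|) * (ν e' * |grad d (hk c π δ j w) e'|)) := by
    intro e e'
    rw [Dl_factor d c π δ h]
    calc ν e * ν e' * |∑ w, π w * (grad d (hk c π δ i w) e * grad d (hk c π δ j w) e')|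
        ≤ ν e * ν e' * ∑ w, |π w * (grad d (hk c π δ i w) e * grad d (hk c π δ j w) e')| := by
          apply mul_le_mul_of_nonneg_left (Finset.abs_sum_le_sum_abs _ _)
          exact mul_nonneg (hν e).le (hν e').le
      _ = _ := by
          rw [Finset.mul_sum]
          refine Finset.sum_congr rfl fun w _ => ?_
          rw [abs_mul, abs_mul, abs_of_pos (h.pi_pos w)]
          ring
  calc _ ≤ ∑ e : V × V, ∑ e' : V × V, ∑ w, π w * ((ν e * |grad d (hk c π δ i w) e|) *
          (ν e' * |grad d (hk c π δ j w) e'|)) :=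
        Finset.sum_le_sum fun e _ => Finset.sum_le_sum fun e' _ => h1 e e'
    _ = ∑ w, π w * (TV d ν (hk c π δ i w) * TV d ν (hk c π δ j w)) := by
        have : ∀ e : V × V, ∑ e' : V × V, ∑ w, π w * ((ν e * |grad d (hk c π δ i w) e|) *
          (ν e' * |grad d (hk c π δ j w) e'|)) = ∑ w, ∑ e' : V × V, π w *
          ((ν e * |grad d (hk c π δ i w) e|) * (ν e' * |grad d (hk c π δ j w) e'|)) :=
          fun e => Finset.sum_comm
        simp_rw [this]
        rw [Finset.sum_comm]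
        refine Finset.sum_congr rfl fun w _ => ?_
        unfold TV
        rw [Finset.sum_mul_sum, Finset.mul_sum]
        refine Finset.sum_congr rfl fun e _ => ?_
        rw [Finset.mul_sum]

theorem sum_range_two_mul (f : ℕ → ℝ) (K : ℕ) :
    ∑ k ∈ Finset.range (2 * K), f k = ∑ i ∈ Finset.range K, (f (2 * i) + f (2 * i + 1)) := by
  induction K with
  | zero => simp
  | succ K ih =>
    rw [show 2 * (K + 1) = 2 * K + 1 + 1 by ring, Finset.sum_range_succ, Finset.sum_range_succ,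
      ih, Finset.sum_range_succ]
    ring

theorem sum_piw {V : Type} [Fintype V] (ν : V × V → ℝ) :
    ∑ x, piw ν x = 2 * ∑ e, ν e := by
  unfold piw
  simp only [Finset.sum_add_distrib]
  have h1 : ∑ x, ∑ y, ν (x, y) = ∑ e, ν e := (Fintype.sum_prod_type ν).symm
  have h2 : ∑ x, ∑ y, ν (y, x) = ∑ e, ν e := by
    rw [Finset.sum_comm]; exact (Fintype.sum_prod_type ν).symm
  rw [h1, h2]; ring

end Locaux

open Locaux

/-- finite-time estimate -/
theorem loc_fin {V : Type} [Fintype V] [DecidableEq V] [Nonempty V] (d : V → V → ℝ)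
    (ν : V × V → ℝ) (hd : IsDist d) (hν : ∀ e, 0 < ν e) (δ : ℝ)
    (hδ : IsNet (cond d ν) (piw ν) δ) (K : ℕ) :
    ∑ e : V × V, ∑ e' : V × V, ν e * ν e' *
      |(δ * ∑ k ∈ Finset.range (2 * K),
        (hk (cond d ν) (piw ν) δ k e'.1 e.1 - hk (cond d ν) (piw ν) δ k e'.2 e.1
          - hk (cond d ν) (piw ν) δ k e'.1 e.2 + hk (cond d ν) (piw ν) δ k e'.2 e.2)) /
        (d e.1 e.2 * d e'.1 e'.2)| ≤ 4 * Real.log (Fintype.card V) * ∑ e, ν e := by
  set c := cond d ν with hc
  set π := piw ν with hπ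
  -- A i w ^ 2 ≤ Fi
  have hA : ∀ i w, (TV d ν (hk c π δ i w)) ^ 2 ≤ Fi c (hk c π δ i w) := by
    intro i w
    exact fisher_cs d hd ν (fun e => (hν e).le) _ (fun x => hk_nonneg c π δ hδ i w x)
      (hk_mass c π δ hδ i w)
  have hδ0 : 0 < δ := hδ.δ_pos
  -- step 1
  have h1 : ∀ e e' : V × V, ν e * ν e' *
      |(δ * ∑ k ∈ Finset.range (2 * K),
        (hk c π δ k e'.1 e.1 - hk c π δ k e'.2 e.1
          - hk c π δ k e'.1 e.2 + hk c π δ k e'.2 e.2)) /
        (d e.1 e.2 * d e'.1 e'.2)| ≤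
      δ * ∑ k ∈ Finset.range (2 * K), ν e * ν e' *
        |Dl c π δ k e e' / (d e.1 e.2 * d e'.1 e'.2)| := by
    intro e e'
    have : (δ * ∑ k ∈ Finset.range (2 * K),
        (hk c π δ k e'.1 e.1 - hk c π δ k e'.2 e.1
          - hk c π δ k e'.1 e.2 + hk c π δ k e'.2 e.2)) /
        (d e.1 e.2 * d e'.1 e'.2) =
        δ * ∑ k ∈ Finset.range (2 * K), Dl c π δ k e e' / (d e.1 e.2 * d e'.1 e'.2) := by
      rw [mul_div_assoc, Finset.sum_div]; rfl
    rw [this, abs_mul, abs_of_pos hδ0, ← Finset.mul_sum]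
    have h2 := Finset.abs_sum_le_sum_abs
      (fun k => Dl c π δ k e e' / (d e.1 e.2 * d e'.1 e'.2)) (Finset.range (2 * K))
    have h3 : 0 ≤ ν e * ν e' * δ := by
      have := hν e; have := hν e'; positivity
    calc ν e * ν e' * (δ * |∑ k ∈ Finset.range (2 * K),
            Dl c π δ k e e' / (d e.1 e.2 * d e'.1 e'.2)|)
        = ν e * ν e' * δ * |∑ k ∈ Finset.range (2 * K),
            Dl c π δ k e e' / (d e.1 e.2 * d e'.1 e'.2)| := by ring
      _ ≤ ν e * ν e' * δ * ∑ k ∈ Finset.range (2 * K),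
            |Dl c π δ k e e' / (d e.1 e.2 * d e'.1 e'.2)| := mul_le_mul_of_nonneg_left h2 h3
      _ = _ := by ring
  calc _ ≤ ∑ e : V × V, ∑ e' : V × V, δ * ∑ k ∈ Finset.range (2 * K), ν e * ν e' *
        |Dl c π δ k e e' / (d e.1 e.2 * d e'.1 e'.2)| :=
        Finset.sum_le_sum fun e _ => Finset.sum_le_sum fun e' _ => h1 e e'
    _ = δ * ∑ k ∈ Finset.range (2 * K), ∑ e : V × V, ∑ e' : V × V, ν e * ν e' *
        |Dl c π δ k e e' / (d e.1 e.2 * d e'.1 e'.2)| := by
        have hsw : ∀ F : ℕ → V × V → V × V → ℝ,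
            ∑ e : V × V, ∑ e' : V × V, δ * ∑ k ∈ Finset.range (2 * K), F k e e' =
            δ * ∑ k ∈ Finset.range (2 * K), ∑ e : V × V, ∑ e' : V × V, F k e e' := by
          intro F
          simp only [Finset.mul_sum]
          have h5 : ∀ e : V × V, ∑ e' : V × V, ∑ k ∈ Finset.range (2 * K), δ * F k e e' =
              ∑ k ∈ Finset.range (2 * K), ∑ e' : V × V, δ * F k e e' := fun e => Finset.sum_comm
          simp only [h5]
          exact Finset.sum_comm
        exact hsw _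
    _ ≤ δ * ∑ i ∈ Finset.range K, ∑ w, π w * ((3 / 2) * (TV d ν (hk c π δ i w)) ^ 2 +
          (1 / 2) * (TV d ν (hk c π δ (i + 1) w)) ^ 2) := by
        apply mul_le_mul_of_nonneg_left _ hδ0.le
        rw [sum_range_two_mul]
        apply Finset.sum_le_sum
        intro i _
        have e1 := S_le d ν hν c π δ hδ i i
        have e2 := S_le d ν hν c π δ hδ i (i + 1)
        rw [← two_mul] at e1
        rw [show i + (i + 1) = 2 * i + 1 by ring] at e2
        refine (add_le_add e1 e2).trans ?_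
        rw [← Finset.sum_add_distrib]
        apply Finset.sum_le_sum
        intro w _
        rw [← mul_add]
        apply mul_le_mul_of_nonneg_left _ (hδ.pi_pos w).le
        nlinarith [sq_nonneg (TV d ν (hk c π δ i w) - TV d ν (hk c π δ (i + 1) w))]
    _ = ∑ w, π w * ((3 / 2) * (δ * ∑ i ∈ Finset.range K, (TV d ν (hk c π δ i w)) ^ 2) +
          (1 / 2) * (δ * ∑ i ∈ Finset.range K, (TV d ν (hk c π δ (i + 1) w)) ^ 2)) := by
        rw [Finset.sum_comm, Finset.mul_sum]
        refine Finset.sum_congr rfl fun w _ => ?_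
        simp only [Finset.mul_sum, ← Finset.sum_add_distrib]
        refine Finset.sum_congr rfl fun i _ => ?_
        ring
    _ ≤ ∑ w, π w * (2 * Real.log ((∑ x, π x) / π w)) := by
        apply Finset.sum_le_sum
        intro w _
        apply mul_le_mul_of_nonneg_left _ (hδ.pi_pos w).le
        have hs := hk_fisher_sum c π δ hδ (K + 1) w
        have hle : δ * ∑ i ∈ Finset.range (K + 1), (TV d ν (hk c π δ i w)) ^ 2 ≤
            δ * ∑ k ∈ Finset.range (K + 1), Fi c (hk c π δ k w) :=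
          mul_le_mul_of_nonneg_left (Finset.sum_le_sum fun i _ => hA i w) hδ0.le
        have ha : ∑ i ∈ Finset.range K, (TV d ν (hk c π δ i w)) ^ 2 ≤
            ∑ i ∈ Finset.range (K + 1), (TV d ν (hk c π δ i w)) ^ 2 := by
          rw [Finset.sum_range_succ]
          have := sq_nonneg (TV d ν (hk c π δ K w))
          linarith
        have hb : ∑ i ∈ Finset.range K, (TV d ν (hk c π δ (i + 1) w)) ^ 2 ≤
            ∑ i ∈ Finset.range (K + 1), (TV d ν (hk c π δ i w)) ^ 2 := by
          rw [Finset.sum_range_succ']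
          have := sq_nonneg (TV d ν (hk c π δ 0 w))
          linarith
        have ha' := mul_le_mul_of_nonneg_left ha hδ0.le
        have hb' := mul_le_mul_of_nonneg_left hb hδ0.le
        linarith
    _ = 2 * ∑ w, π w * Real.log ((∑ x, π x) / π w) := by
        rw [Finset.mul_sum]
        exact Finset.sum_congr rfl fun w _ => by ring
    _ ≤ 2 * ((∑ x, π x) * Real.log (Fintype.card V)) := by
        have := entropy_le π hδ.pi_pos
        linarith
    _ = 4 * Real.log (Fintype.card V) * ∑ e, ν e := by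
        rw [hπ, sum_piw]; ring

/-- average localization -/
theorem loc {V : Type} [Fintype V] [DecidableEq V] [Nonempty V] (d : V → V → ℝ)
    (ν : V × V → ℝ) (hd : IsDist d) (hν : ∀ e, 0 < ν e) :
    ∑ e, ∑ e', ν e * ν e' * |G d ν e e'| ≤ 4 * Real.log (Fintype.card V) * ∑ e, ν e := by
  obtain ⟨δ, hδ⟩ := exists_net d ν hd hν
  have hpos : ∀ x y, x ≠ y → 0 < cond d ν x y := by
    intro x y hxy
    unfold cond
    have h1 := hd.pos x y hxy
    have h2 := hν (x, y)
    have h3 := hν (y, x)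
    positivity
  have htend : ∀ e e' : V × V, Filter.Tendsto (fun K : ℕ => (δ * ∑ k ∈ Finset.range (2 * K),
        (hk (cond d ν) (piw ν) δ k e'.1 e.1 - hk (cond d ν) (piw ν) δ k e'.2 e.1
          - hk (cond d ν) (piw ν) δ k e'.1 e.2 + hk (cond d ν) (piw ν) δ k e'.2 e.2)) /
        (d e.1 e.2 * d e'.1 e'.2)) Filter.atTop (nhds (G d ν e e')) := by
    intro e e'
    set u : V → ℝ := fun v => Mm d ν v e'.1 - Mm d ν v e'.2 with hu
    have ho := osc_tendsto (cond d ν) (piw ν) δ hδ hpos u e.1 e.2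
    have ho2 := ho.comp (Filter.tendsto_id.const_mul_atTop' (show 0 < 2 by norm_num))
    have heq : ∀ K : ℕ, (δ * ∑ k ∈ Finset.range (2 * K),
        (hk (cond d ν) (piw ν) δ k e'.1 e.1 - hk (cond d ν) (piw ν) δ k e'.2 e.1
          - hk (cond d ν) (piw ν) δ k e'.1 e.2 + hk (cond d ν) (piw ν) δ k e'.2 e.2)) /
        (d e.1 e.2 * d e'.1 e'.2) = G d ν e e' -
          ((Qop (cond d ν) (piw ν) δ)^[2 * K] u e.1 - (Qop (cond d ν) (piw ν) δ)^[2 * K] u e.2) /
          (d e.1 e.2 * d e'.1 e'.2) := by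
      intro K
      have g1 := green_exp d ν hd hν δ hδ e'.1 e'.2 e.1 (2 * K)
      have g2 := green_exp d ν hd hν δ hδ e'.1 e'.2 e.2 (2 * K)
      rw [← hu] at g1 g2
      unfold G
      rw [← sub_div]
      congr 1
      have hsum : ∑ k ∈ Finset.range (2 * K),
        (hk (cond d ν) (piw ν) δ k e'.1 e.1 - hk (cond d ν) (piw ν) δ k e'.2 e.1
          - hk (cond d ν) (piw ν) δ k e'.1 e.2 + hk (cond d ν) (piw ν) δ k e'.2 e.2) =
          ∑ k ∈ Finset.range (2 * K),
        (hk (cond d ν) (piw ν) δ k e'.1 e.1 - hk (cond d ν) (piw ν) δ k e'.2 e.1) -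
          ∑ k ∈ Finset.range (2 * K),
        (hk (cond d ν) (piw ν) δ k e'.1 e.2 - hk (cond d ν) (piw ν) δ k e'.2 e.2) := by
        rw [← Finset.sum_sub_distrib]
        exact Finset.sum_congr rfl fun k _ => by ring
      rw [hsum, mul_sub]
      linarith
    simp_rw [heq]
    have := (ho2.div_const (d e.1 e.2 * d e'.1 e'.2)).const_sub (G d ν e e')
    simpa using this
  have hT : Filter.Tendsto (fun K : ℕ => ∑ e : V × V, ∑ e' : V × V, ν e * ν e' *
      |(δ * ∑ k ∈ Finset.range (2 * K),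
        (hk (cond d ν) (piw ν) δ k e'.1 e.1 - hk (cond d ν) (piw ν) δ k e'.2 e.1
          - hk (cond d ν) (piw ν) δ k e'.1 e.2 + hk (cond d ν) (piw ν) δ k e'.2 e.2)) /
        (d e.1 e.2 * d e'.1 e'.2)|) Filter.atTop
      (nhds (∑ e, ∑ e', ν e * ν e' * |G d ν e e'|)) := by
    apply tendsto_finsetSum
    intro e _
    apply tendsto_finsetSum
    intro e' _
    exact (htend e e').abs.const_mul _
  exact le_of_tendsto' hT fun K => loc_fin d ν hd hν δ hδ K

end Crest.Agent.R232
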