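import Crest.Agent.R232.Defs
import Crest.Agent.R232.PIneqB

/-! # Row 232, piece PIA: elementary inequalities for `|·|^p`, part A

* `pert`: for `s ∈ (0,1)` convexity gives `|a+b|^p ≤ (1-s)^{1-p}|a|^p + s^{1-p}|b|^p`
  (`a+b = (1-s)(a/(1-s)) + s (b/s)`), and, applied to `a = (a+b) + (-b)`,
  `|a|^p ≤ (1-s)^{1-p}|a+b|^p + s^{1-p}|b|^p`, i.e.
  `|a+b|^p ≥ (1-s)^{p-1}(|a|^p - s^{1-p}|b|^p)`. Choose `s` with `(1-s)^{1-p} ≤ 1+θ` and
  `(1-s)^{p-1} ≥ 1-θ` (continuity at `s = 0`, or explicit).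
* `tp_err`: symmetric in `x,y` (also `|x-y| = |y-x|`), so let `|y| ≤ |x|`; the mean value theorem
  (`||u|^p - |v|^p| ≤ p max(|u|,|v|)^{p-1} |u-v|`) gives `||x±y|^p - |x|^p| ≤ p (2|x|)^{p-1}|y|`, and
  `|y|^p = |y|^{p-1}|y| ≤ |y|^{p-1}|x|`. -/

set_option autoImplicit false

namespace Crest.Agent.R232

theorem rpow_diff_le (p : ℝ) (hp : 1 ≤ p) (u v : ℝ) (hu : 0 ≤ u) (hv : 0 ≤ v) (w d : ℝ)
    (huw : u ≤ w) (hvw : v ≤ w) (hd : |u - v| ≤ d) :
    |u ^ p - v ^ p| ≤ p * w ^ (p - 1) * d := by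
  have hw : 0 ≤ w := le_trans hu huw
  have hd0 : 0 ≤ d := le_trans (abs_nonneg _) hd
  have main : ∀ u v : ℝ, 0 ≤ v → v ≤ u → u ≤ w → u - v ≤ d →
      |u ^ p - v ^ p| ≤ p * w ^ (p - 1) * d := by
    intro u v hv0 huv huw hd
    have hu0 : 0 ≤ u := le_trans hv0 huv
    rw [abs_of_nonneg (sub_nonneg.2 (Real.rpow_le_rpow hv0 huv (by linarith)))]
    rcases eq_or_lt_of_le hu0 with h0 | h0
    · have hv1 : v = 0 := le_antisymm (by rw [h0]; exact huv) hv0
      rw [← h0, hv1, sub_self]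
      have := Real.rpow_nonneg hw (p - 1)
      positivity
    · have t := tang p hp v u hv0 h0
      have h1 : u ^ (p - 1) ≤ w ^ (p - 1) := Real.rpow_le_rpow hu0 huw (by linarith)
      have h2 : 0 ≤ u ^ (p - 1) := Real.rpow_nonneg hu0 _
      have h3 : u ^ (p - 1) * (u - v) ≤ w ^ (p - 1) * d :=
        mul_le_mul h1 hd (by linarith) (Real.rpow_nonneg hw _)
      have h4 : p * (u ^ (p - 1) * (u - v)) ≤ p * (w ^ (p - 1) * d) :=
        mul_le_mul_of_nonneg_left h3 (by linarith)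
      nlinarith
  rcases le_total v u with h | h
  · exact main u v hv h huw (le_trans (le_abs_self _) hd)
  · rw [abs_sub_comm]
    rw [abs_sub_comm] at hd
    exact main v u hu h hvw (le_trans (le_abs_self _) hd)

theorem pert (p : ℝ) (hp : 1 < p) (θ : ℝ) (hθ : 0 < θ) :
    ∃ C : ℝ, 0 ≤ C ∧ ∀ a b : ℝ, |(|a + b| ^ p - |a| ^ p)| ≤ θ * |a| ^ p + C * |b| ^ p := by
  set δ : ℝ := min 1 (θ / (p * 2 ^ (p - 1))) with hδ
  have h2p : (0 : ℝ) < 2 ^ (p - 1) := by positivity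
  have hpp : 0 < p * (2 : ℝ) ^ (p - 1) := by positivity
  have hδ0 : 0 < δ := lt_min one_pos (by positivity)
  have hδ1 : δ ≤ 1 := min_le_left _ _
  have hδ2 : p * 2 ^ (p - 1) * δ ≤ θ := by
    have : δ ≤ θ / (p * 2 ^ (p - 1)) := min_le_right _ _
    rw [le_div_iff₀ hpp] at this
    linarith
  refine ⟨p * (1 / δ + 1) ^ (p - 1), by positivity, ?_⟩
  intro a b
  have hA : 0 ≤ |a| := abs_nonneg a
  have hB : 0 ≤ |b| := abs_nonneg b
  have hd : |(|a + b| - |a|)| ≤ |b| := by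
    have := abs_abs_sub_abs_le (a + b) a
    simpa using this
  have h0 := rpow_diff_le p hp.le |a + b| |a| (abs_nonneg _) hA (|a| + |b|) |b|
    (abs_add_le a b) (by linarith) hd
  have hAp : 0 ≤ |a| ^ p := Real.rpow_nonneg hA _
  have hBp : 0 ≤ |b| ^ p := Real.rpow_nonneg hB _
  have spl : ∀ z : ℝ, 0 ≤ z → z ^ (p - 1) * z = z ^ p := by
    intro z hz
    rcases eq_or_lt_of_le hz with h | h
    · rw [← h, mul_zero, Real.zero_rpow (by linarith)]
    · rw [Real.rpow_sub_one h.ne']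
      field_simp
  rcases le_or_gt |b| (δ * |a|) with h | h
  · have h1 : (|a| + |b|) ^ (p - 1) ≤ 2 ^ (p - 1) * |a| ^ (p - 1) := by
      rw [← Real.mul_rpow (by norm_num) hA]
      refine Real.rpow_le_rpow (by positivity) ?_ (by linarith)
      nlinarith
    have h2 : (|a| + |b|) ^ (p - 1) * |b| ≤ (2 ^ (p - 1) * |a| ^ (p - 1)) * (δ * |a|) :=
      mul_le_mul h1 h hB (by positivity)
    have h3 : (2 ^ (p - 1) * |a| ^ (p - 1)) * (δ * |a|) = 2 ^ (p - 1) * δ * |a| ^ p := by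
      rw [← spl |a| hA]; ring
    rw [h3] at h2
    have h4 : p * ((|a| + |b|) ^ (p - 1) * |b|) ≤ p * (2 ^ (p - 1) * δ * |a| ^ p) :=
      mul_le_mul_of_nonneg_left h2 (by linarith)
    have h5 : p * 2 ^ (p - 1) * δ * |a| ^ p ≤ θ * |a| ^ p :=
      mul_le_mul_of_nonneg_right hδ2 hAp
    have h6 : 0 ≤ p * (1 / δ + 1) ^ (p - 1) * |b| ^ p := by positivity
    nlinarith
  · have h1 : (|a| + |b|) ^ (p - 1) ≤ (1 / δ + 1) ^ (p - 1) * |b| ^ (p - 1) := by
      rw [← Real.mul_rpow (by positivity) hB]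
      refine Real.rpow_le_rpow (by positivity) ?_ (by linarith)
      have : |a| ≤ 1 / δ * |b| := by
        rw [one_div, ← div_eq_inv_mul, le_div_iff₀ hδ0]
        linarith
      linarith
    have h2 : (|a| + |b|) ^ (p - 1) * |b| ≤ (1 / δ + 1) ^ (p - 1) * |b| ^ p := by
      rw [← spl |b| hB, ← mul_assoc]
      exact mul_le_mul_of_nonneg_right h1 hB
    have h4 : p * ((|a| + |b|) ^ (p - 1) * |b|) ≤ p * ((1 / δ + 1) ^ (p - 1) * |b| ^ p) :=
      mul_le_mul_of_nonneg_left h2 (by linarith)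
    have h6 : 0 ≤ θ * |a| ^ p := by positivity
    nlinarith

theorem tp_err (p : ℝ) (hp : 1 < p) :
    ∃ C : ℝ, 0 ≤ C ∧ ∀ x y : ℝ, |((|x + y| ^ p + |x - y| ^ p) / 2 - |x| ^ p - |y| ^ p)| ≤
      C * (|x| ^ (p - 1) * |y| + |x| * |y| ^ (p - 1)) := by
  have key : ∀ x y : ℝ, |y| ≤ |x| →
      |((|x + y| ^ p + |x - y| ^ p) / 2 - |x| ^ p - |y| ^ p)| ≤
        (p * 2 ^ (p - 1) + 1) * (|x| ^ (p - 1) * |y| + |x| * |y| ^ (p - 1)) := by
    intro x y h
    have hX : 0 ≤ |x| := abs_nonneg x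
    have hY : 0 ≤ |y| := abs_nonneg y
    have hd1 : |(|x + y| - |x|)| ≤ |y| := by
      have := abs_abs_sub_abs_le (x + y) x
      simpa using this
    have hd2 : |(|x - y| - |x|)| ≤ |y| := by
      have := abs_abs_sub_abs_le (x - y) x
      simpa using this
    have hb2 : |x - y| ≤ 2 * |x| := by
      have h9 : |x - y| ≤ |x| + |y| := by
        have := abs_add_le x (-y)
        rw [abs_neg] at this
        simpa [sub_eq_add_neg] using this
      linarith
    have e1 := rpow_diff_le p hp.le |x + y| |x| (abs_nonneg _) hX (2 * |x|) |y|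
      (by have := abs_add_le x y; linarith) (by linarith) hd1
    have e2 := rpow_diff_le p hp.le |x - y| |x| (abs_nonneg _) hX (2 * |x|) |y|
      hb2 (by linarith) hd2
    rw [Real.mul_rpow (by norm_num) hX] at e1 e2
    have e3 : |y| ^ p ≤ |x| * |y| ^ (p - 1) := by
      rcases eq_or_lt_of_le hY with h0 | h0
      · rw [← h0, Real.zero_rpow (by linarith), Real.zero_rpow (by linarith)]
        simp
      · have : |y| ^ p = |y| ^ (p - 1) * |y| := by
          rw [Real.rpow_sub_one h0.ne']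
          field_simp
        rw [this, mul_comm]
        exact mul_le_mul_of_nonneg_right h (by positivity)
    have e4 : 0 ≤ |y| ^ p := by positivity
    have e5 : 0 ≤ |x| ^ (p - 1) * |y| := by positivity
    have e6 : 0 ≤ p * (2 : ℝ) ^ (p - 1) * (|x| * |y| ^ (p - 1)) := by positivity
    rw [abs_le] at e1 e2 ⊢
    obtain ⟨a1, a2⟩ := e1
    obtain ⟨b1, b2⟩ := e2
    constructor <;> nlinarith
  refine ⟨p * 2 ^ (p - 1) + 1, by positivity, ?_⟩
  intro x y
  rcases le_total |y| |x| with h | h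
  · exact key x y h
  · have := key y x h
    rw [add_comm y x, abs_sub_comm y x] at this
    have e1 : (|x + y| ^ p + |x - y| ^ p) / 2 - |y| ^ p - |x| ^ p =
      (|x + y| ^ p + |x - y| ^ p) / 2 - |x| ^ p - |y| ^ p := by ring
    have e2 : |y| ^ (p - 1) * |x| + |y| * |x| ^ (p - 1) =
      |x| ^ (p - 1) * |y| + |x| * |y| ^ (p - 1) := by ring
    rw [e1, e2] at this
    exact this

end Crest.Agent.R232
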