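import Crest.Agent.R232.Ros
import Crest.Agent.R232.Vbe
import Crest.Agent.R232.PIneqA

/-! # Row 232, piece MONE: `E|∑ η_i a_i|^p` is almost `δ ∑ |a_i|^p` (one level)

Write `S = rs a`, `S'` = the sum without the first term `x = a 0`. By `Ex_rs_succ`
`E|S|^p = E|S'|^p + δ|x|^p + δ E err(S',x)` with
`err(s,x) = (|s+x|^p+|s-x|^p)/2 - |s|^p - |x|^p`, `|err| ≤ C₁(|s|^{p-1}|x| + |s||x|^{p-1})` (`tp_err`).
(i) Moment bounds under the hypotheses (which are inherited by tails; note `b^r ≤ b^p` for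
`0 < r ≤ p` since `b = 0` or `b ≥ 1`, so `δ∑ b^r ≤ 1`):
`E|S'| ≤ δ ∑ b` (`ex_sub` with `r = 1`); `E|S'|^{p-1} ≤ m₀`: if `p ≤ 2` by `ex_sub` with `r = p-1`
(`m₀ = 1`); if `p > 2` by `|s|^{p-1} ≤ 1 + |s|^p` and `ros` (`m₀ = 1 + 2 C_ros`).
(ii) induction on `N`: if `δ ∑ b ≤ A` then
`|E|S|^p - δ∑|a|^p| ≤ C₁ (m₀ δ ∑ b + A δ ∑ b^{p-1})`.
(iii) take `A = δ ∑ b` and `δ ∑ b^{p-1} ≤ 1`: total `≤ C₁ (m₀ + 1) δ ∑ b`. -/

set_option autoImplicit false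

namespace Crest.Agent.R232

theorem mone_rpow_le {b r p : ℝ} (hb : b = 0 ∨ 1 ≤ b) (hr : 0 < r) (hrp : r ≤ p) :
    b ^ r ≤ b ^ p := by
  rcases hb with rfl | hb
  · rw [Real.zero_rpow hr.ne', Real.zero_rpow (by linarith)]
  · exact Real.rpow_le_rpow_of_exponent_le hb hrp

theorem mone_b_nonneg {b : ℝ} (hb : b = 0 ∨ 1 ≤ b) : 0 ≤ b := by
  rcases hb with rfl | hb <;> linarith

theorem mone_sum_le {N : ℕ} {δ p r : ℝ} (h0 : 0 ≤ δ) {b : Fin N → ℝ}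
    (hb : ∀ i, b i = 0 ∨ 1 ≤ b i) (hs : δ * ∑ i, (b i) ^ p ≤ 1) (hr : 0 < r) (hrp : r ≤ p) :
    δ * ∑ i, (b i) ^ r ≤ 1 :=
  (mul_le_mul_of_nonneg_left (Finset.sum_le_sum fun i _ => mone_rpow_le (hb i) hr hrp) h0).trans hs

/-- moment bound -/
theorem mone_mom (p : ℝ) (hp : 1 < p) :
    ∃ m₀ : ℝ, 0 ≤ m₀ ∧ ∀ (N : ℕ) (δ : ℝ), 0 ≤ δ → δ ≤ 1 → ∀ a b : Fin N → ℝ,
      (∀ i, b i = 0 ∨ 1 ≤ b i) → (∀ i, |a i| ≤ b i) → δ * ∑ i, (b i) ^ p ≤ 1 →
      Ex δ (fun η => |rs a η| ^ (p - 1)) ≤ m₀ := by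
  by_cases h2 : p ≤ 2
  · refine ⟨1, zero_le_one, fun N δ h0 h1 a b hb hab hs => ?_⟩
    have h := ex_sub (p - 1) (by linarith) (by linarith) N δ h0 h1 a
    refine h.trans ?_
    refine (mul_le_mul_of_nonneg_left (Finset.sum_le_sum fun i _ =>
      Real.rpow_le_rpow (abs_nonneg (a i)) (hab i) (by linarith)) h0).trans ?_
    exact mone_sum_le h0 hb hs (by linarith) (by linarith)
  · push Not at h2
    obtain ⟨C, hC, hros⟩ := ros p h2.le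
    refine ⟨1 + 2 * C, by linarith, fun N δ h0 h1 a b hb hab hs => ?_⟩
    have hpt : ∀ s : ℝ, |s| ^ (p - 1) ≤ 1 + |s| ^ p := by
      intro s
      by_cases hs1 : |s| ≤ 1
      · have h3 := Real.rpow_le_one (abs_nonneg s) hs1 (show 0 ≤ p - 1 by linarith)
        have h4 := Real.rpow_nonneg (abs_nonneg s) p
        linarith
      · push Not at hs1
        have h3 := Real.rpow_le_rpow_of_exponent_le hs1.le (show p - 1 ≤ p by linarith)
        linarith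
    have h3 : Ex δ (fun η => |rs a η| ^ (p - 1)) ≤ Ex δ (fun η => 1 + |rs a η| ^ p) :=
      Ex_mono h0 h1 fun η => hpt _
    have h4 : Ex δ (fun η => 1 + |rs a η| ^ p) = 1 + Ex δ (fun η => |rs a η| ^ p) := by
      rw [Ex_add, Ex_const]
    have h5 := hros N δ h0 h1 a
    have h6 : δ * ∑ i, |a i| ^ p ≤ 1 := by
      refine (mul_le_mul_of_nonneg_left (Finset.sum_le_sum fun i _ =>
        Real.rpow_le_rpow (abs_nonneg (a i)) (hab i) (by linarith)) h0).trans hs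
    have h7 : δ * ∑ i, (a i) ^ 2 ≤ 1 := by
      have h8 : δ * ∑ i, (b i) ^ (2 : ℝ) ≤ 1 := mone_sum_le h0 hb hs (by norm_num) h2.le
      refine (mul_le_mul_of_nonneg_left (Finset.sum_le_sum fun i _ => ?_) h0).trans h8
      rw [← sq_abs, Real.rpow_two]
      exact pow_le_pow_left₀ (abs_nonneg _) (hab i) 2
    have h9 : 0 ≤ δ * ∑ i, (a i) ^ 2 :=
      mul_nonneg h0 (Finset.sum_nonneg fun i _ => sq_nonneg _)
    have h10 : (δ * ∑ i, (a i) ^ 2) ^ (p / 2) ≤ 1 :=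
      Real.rpow_le_one h9 h7 (by linarith)
    have h11 : C * (δ * ∑ i, |a i| ^ p + (δ * ∑ i, (a i) ^ 2) ^ (p / 2)) ≤ C * (1 + 1) :=
      mul_le_mul_of_nonneg_left (add_le_add h6 h10) hC
    linarith

theorem mone_ind (p : ℝ) (hp : 1 < p) (C₁ m₀ : ℝ) (hC₁ : 0 ≤ C₁)
    (herr : ∀ x y : ℝ, |((|x + y| ^ p + |x - y| ^ p) / 2 - |x| ^ p - |y| ^ p)| ≤
      C₁ * (|x| ^ (p - 1) * |y| + |x| * |y| ^ (p - 1)))
    (hm₀ : 0 ≤ m₀)
    (hm : ∀ (N : ℕ) (δ : ℝ), 0 ≤ δ → δ ≤ 1 → ∀ a b : Fin N → ℝ,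
      (∀ i, b i = 0 ∨ 1 ≤ b i) → (∀ i, |a i| ≤ b i) → δ * ∑ i, (b i) ^ p ≤ 1 →
      Ex δ (fun η => |rs a η| ^ (p - 1)) ≤ m₀)
    (δ A : ℝ) (h0 : 0 ≤ δ) (h1 : δ ≤ 1) :
    ∀ (N : ℕ) (a b : Fin N → ℝ), (∀ i, b i = 0 ∨ 1 ≤ b i) → (∀ i, |a i| ≤ b i) →
      δ * ∑ i, (b i) ^ p ≤ 1 → δ * ∑ i, b i ≤ A →
      |Ex δ (fun η => |rs a η| ^ p) - δ * ∑ i, |a i| ^ p| ≤
        C₁ * (m₀ * (δ * ∑ i, b i) + A * (δ * ∑ i, (b i) ^ (p - 1))) := by
  intro N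
  induction N with
  | zero =>
    intro a b hb hab hs hA
    rw [Ex_zero, rs_zero]
    simp [Real.zero_rpow (show p ≠ 0 by linarith)]
  | succ N ih =>
    intro a b hb hab hs hA
    have hb0 : ∀ i, 0 ≤ b i := fun i => mone_b_nonneg (hb i)
    rw [Fin.sum_univ_succ] at hs hA
    have hs' : δ * ∑ i : Fin N, (b i.succ) ^ p ≤ 1 := by
      have : 0 ≤ δ * (b 0) ^ p := mul_nonneg h0 (Real.rpow_nonneg (hb0 0) p)
      rw [mul_add] at hs
      linarith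
    have hA' : δ * ∑ i : Fin N, b i.succ ≤ A := by
      have : 0 ≤ δ * b 0 := mul_nonneg h0 (hb0 0)
      rw [mul_add] at hA
      linarith
    have hI := ih (fun i => a i.succ) (fun i => b i.succ) (fun i => hb _) (fun i => hab _) hs' hA'
    have hM := hm N δ h0 h1 (fun i => a i.succ) (fun i => b i.succ) (fun i => hb _)
      (fun i => hab _) hs'
    have hE1 : Ex δ (fun η => |rs (fun i : Fin N => a i.succ) η|) ≤ A := by
      have h := ex_sub 1 one_pos le_rfl N δ h0 h1 (fun i : Fin N => a i.succ)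
      simp only [Real.rpow_one] at h
      refine h.trans (le_trans ?_ hA')
      exact mul_le_mul_of_nonneg_left (Finset.sum_le_sum fun i _ => hab _) h0
    have hrec := Ex_rs_succ (δ := δ) (fun t => |t| ^ p) a
    -- the error term
    set S' := fun η : Fin N → SignType => rs (fun i : Fin N => a i.succ) η with hS'
    have hid : Ex δ (fun η => |rs a η| ^ p) = Ex δ (fun η => |S' η| ^ p) + δ * |a 0| ^ p +
        δ * Ex δ (fun η => (|S' η + a 0| ^ p + |S' η - a 0| ^ p) / 2 - |S' η| ^ p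
          - |a 0| ^ p) := by
      have e1 : Ex δ (fun η => (|S' η + a 0| ^ p + |S' η - a 0| ^ p) / 2 - |S' η| ^ p
          - |a 0| ^ p) = (Ex δ (fun η => |a 0 + S' η| ^ p) +
            Ex δ (fun η => |-a 0 + S' η| ^ p)) / 2 - Ex δ (fun η => |S' η| ^ p) - |a 0| ^ p := by
        rw [Ex_sub, Ex_sub, Ex_const, ← Ex_add]
        congr 2
        rw [div_eq_inv_mul, ← Ex_const_mul]
        congr 1
        funext η
        rw [add_comm (a 0), neg_add_eq_sub]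
        ring
      rw [e1, hrec]
      ring
    have herrE : |Ex δ (fun η => (|S' η + a 0| ^ p + |S' η - a 0| ^ p) / 2 - |S' η| ^ p
          - |a 0| ^ p)| ≤ C₁ * (m₀ * b 0 + A * (b 0) ^ (p - 1)) := by
      refine (abs_Ex_le h0 h1 _).trans ?_
      refine (Ex_mono h0 h1 fun η => herr (S' η) (a 0)).trans ?_
      rw [Ex_const_mul]
      apply mul_le_mul_of_nonneg_left _ hC₁
      rw [Ex_add]
      have e2 : Ex δ (fun η => |S' η| ^ (p - 1) * |a 0|) = |a 0| * Ex δ (fun η =>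
          |S' η| ^ (p - 1)) := by
        rw [← Ex_const_mul]
        congr 1
        funext η
        ring
      have e3 : Ex δ (fun η => |S' η| * |a 0| ^ (p - 1)) = |a 0| ^ (p - 1) * Ex δ (fun η =>
          |S' η|) := by
        rw [← Ex_const_mul]
        congr 1
        funext η
        ring
      rw [e2, e3]
      have hM0 : 0 ≤ Ex δ (fun η => |S' η| ^ (p - 1)) :=
        Ex_nonneg h0 h1 fun η => Real.rpow_nonneg (abs_nonneg _) _
      have hE0 : 0 ≤ Ex δ (fun η => |S' η|) := Ex_nonneg h0 h1 fun η => abs_nonneg _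
      have hA0 : 0 ≤ A := hE0.trans hE1
      have h3 : |a 0| ^ (p - 1) ≤ (b 0) ^ (p - 1) :=
        Real.rpow_le_rpow (abs_nonneg _) (hab 0) (by linarith)
      have h4 : |a 0| * Ex δ (fun η => |S' η| ^ (p - 1)) ≤ m₀ * b 0 := by
        rw [mul_comm m₀]
        exact mul_le_mul (hab 0) hM hM0 (hb0 0)
      have h5 : |a 0| ^ (p - 1) * Ex δ (fun η => |S' η|) ≤ A * (b 0) ^ (p - 1) := by
        rw [mul_comm A]
        exact mul_le_mul h3 hE1 hE0 (Real.rpow_nonneg (hb0 0) _)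
      linarith
    rw [hid, Fin.sum_univ_succ, Fin.sum_univ_succ, Fin.sum_univ_succ]
    have e4 : Ex δ (fun η => |S' η| ^ p) + δ * |a 0| ^ p +
        δ * Ex δ (fun η => (|S' η + a 0| ^ p + |S' η - a 0| ^ p) / 2 - |S' η| ^ p - |a 0| ^ p) -
        δ * (|a 0| ^ p + ∑ i : Fin N, |a i.succ| ^ p) =
        (Ex δ (fun η => |S' η| ^ p) - δ * ∑ i : Fin N, |a i.succ| ^ p) +
        δ * Ex δ (fun η => (|S' η + a 0| ^ p + |S' η - a 0| ^ p) / 2 - |S' η| ^ p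
          - |a 0| ^ p) := by ring
    rw [e4]
    refine (abs_add_le _ _).trans ?_
    rw [abs_mul, abs_of_nonneg h0]
    have h6 := mul_le_mul_of_nonneg_left herrE h0
    calc _ ≤ C₁ * (m₀ * (δ * ∑ i : Fin N, b i.succ) +
            A * (δ * ∑ i : Fin N, (b i.succ) ^ (p - 1))) +
            δ * (C₁ * (m₀ * b 0 + A * (b 0) ^ (p - 1))) := add_le_add hI h6
      _ = _ := by ring

theorem main_one (p : ℝ) (hp : 1 < p) :
    ∃ C : ℝ, 0 ≤ C ∧ ∀ (N : ℕ) (δ : ℝ), 0 ≤ δ → δ ≤ 1 → ∀ a b : Fin N → ℝ,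
      (∀ i, b i = 0 ∨ 1 ≤ b i) → (∀ i, |a i| ≤ b i) → δ * ∑ i, (b i) ^ p ≤ 1 →
      |Ex δ (fun η => |rs a η| ^ p) - δ * ∑ i, |a i| ^ p| ≤ C * (δ * ∑ i, b i) := by
  obtain ⟨C₁, hC₁, herr⟩ := tp_err p hp
  obtain ⟨m₀, hm₀, hm⟩ := mone_mom p hp
  refine ⟨C₁ * (m₀ + 1), by positivity, fun N δ h0 h1 a b hb hab hs => ?_⟩
  have h := mone_ind p hp C₁ m₀ hC₁ herr hm₀ hm δ (δ * ∑ i, b i) h0 h1 N a b hb hab hs le_rfl
  refine h.trans ?_
  have h2 : δ * ∑ i, (b i) ^ (p - 1) ≤ 1 := mone_sum_le h0 hb hs (by linarith) (by linarith)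
  have h3 : 0 ≤ δ * ∑ i, b i :=
    mul_nonneg h0 (Finset.sum_nonneg fun i _ => mone_b_nonneg (hb i))
  have h4 : (δ * ∑ i, b i) * (δ * ∑ i, (b i) ^ (p - 1)) ≤ (δ * ∑ i, b i) * 1 :=
    mul_le_mul_of_nonneg_left h2 h3
  calc C₁ * (m₀ * (δ * ∑ i, b i) + (δ * ∑ i, b i) * (δ * ∑ i, (b i) ^ (p - 1)))
      ≤ C₁ * (m₀ * (δ * ∑ i, b i) + (δ * ∑ i, b i) * 1) := by
        apply mul_le_mul_of_nonneg_left _ hC₁
        linarith
    _ = _ := by ring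

end Crest.Agent.R232
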