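import Crest.Agent.R232.Defs

/-! # Row 232, piece MM: from averaged to uniform approximation (Hahn-Banach)

Suppose no `w ∈ W` has `∀ e, |w e - t e| < 2ε`. The box `U = {w | ∀ e, |w e - t e| < 2ε}` is open,
convex and disjoint from the convex set `W`; `geometric_hahn_banach_open` gives a continuous linear
`ψ` and `u` with `ψ < u` on `U`, `u ≤ ψ` on `W`. Write `ψ w = ∑ θ e * w e`
(`θ e = ψ (Pi.single e 1)`); `ψ ≠ 0` (`U` nonempty, `ψ t < u ≤ ψ w`), so `s = ∑ |θ e| > 0`.
For `r < 2ε` the point `t + r sign θ ∈ U`, so `ψ t + r s < u ≤ ψ w` for all `w ∈ W`, i.e.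
`∑ θ (w - t) ≥ r s`; take `r = 3ε/2`. With `ν₀ = |θ|/s` the hypothesis gives `w ∈ W` with
`∑ θ (w-t) ≤ s ε`: contradiction. -/

set_option autoImplicit false

namespace Crest.Agent.R232

theorem minimax {E : Type} [Fintype E] [Nonempty E] (W : Set (E → ℝ)) (hW : Convex ℝ W)
    (t : E → ℝ) (ε : ℝ) (hε : 0 < ε)
    (h : ∀ ν₀ : E → ℝ, (∀ e, 0 ≤ ν₀ e) → ∑ e, ν₀ e = 1 → ∃ w ∈ W, ∑ e, ν₀ e * |w e - t e| ≤ ε) :
    ∃ w ∈ W, ∀ e, |w e - t e| ≤ 2 * ε := by
  classical
  by_contra hcon
  push Not at hcon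
  have hdisj : Disjoint (Metric.ball t (2 * ε)) W := by
    rw [Set.disjoint_left]
    intro w hw hwW
    obtain ⟨e, he⟩ := hcon w hwW
    have h1 : dist w t < 2 * ε := Metric.mem_ball.1 hw
    have h2 : dist (w e) (t e) ≤ dist w t := dist_le_pi_dist w t e
    rw [Real.dist_eq] at h2
    linarith
  obtain ⟨ψ, u, hψ1, hψ2⟩ := geometric_hahn_banach_open (convex_ball t (2 * ε)) Metric.isOpen_ball
    hW hdisj
  let θ : E → ℝ := fun e => ψ (Pi.single e 1)
  have hψ : ∀ w : E → ℝ, ψ w = ∑ e, w e * θ e := by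
    intro w
    have h1 := LinearMap.pi_apply_eq_sum_univ (ψ : (E → ℝ) →ₗ[ℝ] ℝ) w
    have h2 : ∀ i : E, (fun j : E => if i = j then (1 : ℝ) else 0) = Pi.single i 1 := by
      intro i
      funext j
      by_cases hij : i = j
      · subst hij; simp
      · rw [if_neg hij, Pi.single_eq_of_ne (Ne.symm hij)]
    simp only [h2] at h1
    simpa [θ, smul_eq_mul] using h1
  have hcard : 0 < Fintype.card E := Fintype.card_pos
  obtain ⟨w0, hw0, -⟩ := h (fun _ => (1 : ℝ) / Fintype.card E) (fun _ => by positivity) (by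
    rw [Finset.sum_const, Finset.card_univ, nsmul_eq_mul]
    field_simp)
  have hspos : 0 < ∑ e, |θ e| := by
    rcases (Finset.sum_nonneg (fun e _ => abs_nonneg (θ e)) : 0 ≤ ∑ e, |θ e|).lt_or_eq with hlt | heq
    · exact hlt
    · exfalso
      have hz : ∀ e, θ e = 0 := by
        intro e
        have := (Finset.sum_eq_zero_iff_of_nonneg (fun e _ => abs_nonneg (θ e))).1 heq.symm e
          (Finset.mem_univ e)
        exact abs_eq_zero.1 this
      have h1 := hψ1 t (Metric.mem_ball_self (by linarith))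
      have h2 := hψ2 w0 hw0
      rw [hψ] at h1 h2
      simp [hz] at h1 h2
      linarith
  set s := ∑ e, |θ e| with hs
  have hsgn : ∀ x : ℝ, (SignType.sign x : ℝ) * x = |x| := by
    intro x
    rcases lt_trichotomy x 0 with hx | hx | hx
    · rw [sign_neg hx, abs_of_neg hx]; simp
    · subst hx; simp
    · rw [sign_pos hx, abs_of_pos hx]; simp
  have hsgn' : ∀ x : ℝ, |(SignType.sign x : ℝ)| ≤ 1 := by
    intro x
    rcases lt_trichotomy x 0 with hx | hx | hx
    · rw [sign_neg hx]; simp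
    · subst hx; simp
    · rw [sign_pos hx]; simp
  have hp : (fun e => t e + 3 * ε / 2 * (SignType.sign (θ e) : ℝ)) ∈ Metric.ball t (2 * ε) := by
    rw [Metric.mem_ball, dist_pi_lt_iff (by linarith)]
    intro e
    rw [Real.dist_eq, add_sub_cancel_left, abs_mul, abs_of_pos (by linarith : (0:ℝ) < 3 * ε / 2)]
    have := hsgn' (θ e)
    nlinarith
  have h1 := hψ1 _ hp
  rw [hψ] at h1
  have h1' : ∑ e, (t e + 3 * ε / 2 * (SignType.sign (θ e) : ℝ)) * θ e
      = ∑ e, t e * θ e + 3 * ε / 2 * s := by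
    rw [hs, Finset.mul_sum, ← Finset.sum_add_distrib]
    refine Finset.sum_congr rfl fun e _ => ?_
    rw [add_mul, mul_assoc, hsgn]
  rw [h1'] at h1
  obtain ⟨w, hwW, hw⟩ := h (fun e => |θ e| / s) (fun e => by positivity) (by
    rw [← Finset.sum_div, ← hs, div_self hspos.ne'])
  have h2 := hψ2 w hwW
  rw [hψ] at h2
  have h3 : ∑ e, w e * θ e - ∑ e, t e * θ e ≤ s * ε := by
    have h4 : ∑ e, |θ e| / s * |w e - t e| = (∑ e, |θ e| * |w e - t e|) / s := by
      rw [Finset.sum_div]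
      exact Finset.sum_congr rfl fun e _ => by ring
    rw [h4, div_le_iff₀ hspos] at hw
    calc ∑ e, w e * θ e - ∑ e, t e * θ e = ∑ e, θ e * (w e - t e) := by
          rw [← Finset.sum_sub_distrib]
          exact Finset.sum_congr rfl fun e _ => by ring
      _ ≤ ∑ e, |θ e| * |w e - t e| := by
          refine Finset.sum_le_sum fun e _ => ?_
          rw [← abs_mul]
          exact le_abs_self _
      _ ≤ s * ε := by linarith
  nlinarith [mul_pos hspos hε]

end Crest.Agent.R232
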