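import Crest.Agent.R232.Defs

/-! # Row 232, piece NUM: choice of the parameters

`x = log n ≥ log 2`, `Λ = 40 x ≥ 1`, `0 < γ < 1`. Choose `m = ⌈C₁ (1+Λ)^γ⌉₊` with `C₁ ≥ 1` large
(so that `2^p C'/C₁ ≤ ε` and `2^p C/m ≤ ε`), `J = ⌈log(N/ε)/(p log 2)⌉₊` (0 if `N = 0`) so that
`N 2^{-Jp} ≤ ε`, `J ≤ C₂ x` as `N ≤ C₀ n⁶`; `t` with `exp(-t/2) * (J+2m) 2^p/m * C n² (Λ 2^{2m})^p ≤ ε`,
`t = 2 |log(…)| ≤ C₃ x` (all of `m ≤ C x^γ`, `J ≤ C x` and `log x ≤ x`). Then
`log K ≤ (1/p) log((J+2m) 2^p/m) + log t + log Λ + 2 m log 2 ≤ C (1 + log(1+x)) + C x^γ ≤ K₀ x^γ`,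
because `log(1+x) ≤ C x^γ` for `x ≥ log 2` (`Real.log_le_rpow_div` or similar) and
`1 ≤ C x^γ`. The monotone dependence on `c ≥ 2^{-p} m` is clear. -/

set_option autoImplicit false

namespace Crest.Agent.R232

namespace NumAux

lemma le_exp_self (y : ℝ) : y ≤ Real.exp y := by
  have := Real.add_one_le_exp y; linarith

lemma two_rpow_le_exp (p : ℝ) (hp : 0 ≤ p) : (2 : ℝ) ^ p ≤ Real.exp p := by
  rw [Real.rpow_def_of_pos (by norm_num)]
  apply Real.exp_le_exp.mpr
  have := Real.log_two_lt_d9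
  have h0 := Real.log_two_gt_d9
  nlinarith

lemma two_pow_le_exp (k : ℕ) : (2 : ℝ) ^ k ≤ Real.exp k := by
  have := two_rpow_le_exp (k : ℝ) (by positivity)
  rwa [Real.rpow_natCast] at this

/-- `x ≤ exp (x^γ/γ)` -/
lemma le_exp_rpow (x γ : ℝ) (hx : 0 < x) (hγ : 0 < γ) : x ≤ Real.exp (x ^ γ / γ) := by
  have h1 : Real.log x ≤ x ^ γ / γ := by
    have h2 : Real.log (x ^ γ) ≤ x ^ γ - 1 := Real.log_le_sub_one_of_pos (Real.rpow_pos_of_pos hx γ)
    rw [Real.log_rpow hx] at h2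
    rw [le_div_iff₀ hγ]
    linarith
  calc x = Real.exp (Real.log x) := (Real.exp_log hx).symm
    _ ≤ _ := Real.exp_le_exp.mpr h1

end NumAux

open NumAux in
set_option maxHeartbeats 4000000 in
theorem num (p : ℝ) (hp : 1 < p) (γ : ℝ) (hγ0 : 0 < γ) (hγ1 : γ < 1) (C C' ε C₀ : ℝ)
    (hC : 0 ≤ C) (hC' : 0 ≤ C') (hε : 0 < ε) (hC₀ : 0 ≤ C₀) :
    ∃ K₀ : ℝ, ∀ n : ℕ, 2 ≤ n → ∀ N : ℕ, (N : ℝ) ≤ C₀ * (n : ℝ) ^ 6 →
      ∃ (m J : ℕ) (t : ℝ), 1 ≤ m ∧ 0 ≤ t ∧ (1 + 40 * Real.log n) ^ γ ≤ m ∧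
        N * (2 : ℝ) ^ (-((J : ℝ) * p)) ≤ ε ∧
        ∀ c : ℝ, (2 : ℝ) ^ (-p) * m ≤ c →
          C' * (1 + 40 * Real.log n) ^ γ / c ≤ ε ∧ C / c ≤ ε ∧
          (((J + 2 * m : ℕ) : ℝ) / c) * (C * ((n : ℝ) * n) *
                ((40 * Real.log n) * 2 ^ (2 * m)) ^ p * Real.exp (-(t / 2))) ≤ ε ∧
          (((J + 2 * m : ℕ) : ℝ) / c) ^ (1 / p) * (t * ((40 * Real.log n) * 2 ^ (2 * m))) ≤
            Real.exp (K₀ * Real.log n ^ γ) := by
  have hp0 : 0 < p := by linarith
  -- constants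
  set C₁ : ℝ := 1 + 2 ^ p * (C + C') / ε with hC₁
  set L0 : ℝ := Real.log (1 + C₀ / ε) with hL0
  have h2p : (0 : ℝ) < 2 ^ p := by positivity
  have hC₁1 : 1 ≤ C₁ := by
    rw [hC₁]
    have : 0 ≤ 2 ^ p * (C + C') / ε := by positivity
    linarith
  have hL00 : 0 ≤ L0 := Real.log_nonneg (by
    have : 0 ≤ C₀ / ε := by positivity
    linarith)
  set C₂ : ℝ := 4 * L0 + 14 with hC₂
  have hC₂0 : 0 ≤ C₂ := by positivity
  set C₄ : ℝ := 2 * p + (C₂ + 4) + 2 * (C / ε) + 2 + p * (40 + 168 * C₁) + 2 with hC₄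
  have hCε : 0 ≤ C / ε := by positivity
  have hC₄0 : 0 ≤ C₄ := by positivity
  clear_value C₁ L0 C₂ C₄
  refine ⟨2 * (160 * (C₂ + 4) * C₄) + 3 / γ + 168 * C₁, ?_⟩
  intro n hn N hN
  set x : ℝ := Real.log n with hx
  have hn2 : (2 : ℝ) ≤ n := by exact_mod_cast hn
  have hn0 : (0 : ℝ) < n := by linarith
  have hxlog2 : Real.log 2 ≤ x := Real.log_le_log (by norm_num) hn2
  have hlog2 := Real.log_two_gt_d9
  have hlog2' := Real.log_two_lt_d9
  have hx2 : 1 ≤ 2 * x := by linarith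
  have hx0 : 0 < x := by linarith
  set a : ℝ := (1 + 40 * x) ^ γ with ha
  have ha1 : 1 ≤ a := Real.one_le_rpow (by linarith) hγ0.le
  have hale : a ≤ 42 * x := by
    have h1 : a ≤ (1 + 40 * x) ^ (1 : ℝ) :=
      Real.rpow_le_rpow_of_exponent_le (by linarith) hγ1.le
    rw [Real.rpow_one] at h1
    linarith
  have hale' : a ≤ 42 * x ^ γ := by
    have h1 : a ≤ (42 * x) ^ γ := Real.rpow_le_rpow (by linarith) (by linarith) hγ0.le
    have h2 : (42 * x) ^ γ = 42 ^ γ * x ^ γ := Real.mul_rpow (by norm_num) hx0.le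
    have h3 : (42 : ℝ) ^ γ ≤ 42 ^ (1 : ℝ) :=
      Real.rpow_le_rpow_of_exponent_le (by norm_num) hγ1.le
    rw [Real.rpow_one] at h3
    have h4 : 0 ≤ x ^ γ := (Real.rpow_pos_of_pos hx0 γ).le
    calc a ≤ 42 ^ γ * x ^ γ := by rw [← h2]; exact h1
      _ ≤ 42 * x ^ γ := mul_le_mul_of_nonneg_right h3 h4
  set m : ℕ := ⌈C₁ * a⌉₊ with hm
  have hma : C₁ * a ≤ m := Nat.le_ceil _
  have hC₁a : 1 ≤ C₁ * a := one_le_mul_of_one_le_of_one_le hC₁1 ha1
  have hm1' : (1 : ℝ) ≤ m := le_trans hC₁a hma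
  have hm1 : 1 ≤ m := by exact_mod_cast hm1'
  have hmle : (m : ℝ) ≤ 2 * (C₁ * a) := by
    have := Nat.ceil_lt_add_one (show 0 ≤ C₁ * a by linarith)
    rw [← hm] at this
    linarith
  have hmx : (m : ℝ) ≤ 84 * C₁ * x := by
    have : C₁ * a ≤ C₁ * (42 * x) := mul_le_mul_of_nonneg_left hale (by linarith)
    linarith
  have hmxγ : (m : ℝ) ≤ 84 * C₁ * x ^ γ := by
    have : C₁ * a ≤ C₁ * (42 * x ^ γ) := mul_le_mul_of_nonneg_left hale' (by linarith)
    linarith
  clear_value m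
  -- J
  set J : ℕ := ⌈Real.log (1 + N / ε) / Real.log 2⌉₊ with hJ
  have hNε : (0 : ℝ) ≤ N / ε := by positivity
  have hJge : Real.log (1 + N / ε) / Real.log 2 ≤ J := Nat.le_ceil _
  have hlogN0 : 0 ≤ Real.log (1 + N / ε) := Real.log_nonneg (by linarith)
  have hlogN : Real.log (1 + N / ε) ≤ L0 + 6 * x := by
    have h1 : 1 + N / ε ≤ (1 + C₀ / ε) * (n : ℝ) ^ 6 := by
      have h2 : (1 : ℝ) ≤ (n : ℝ) ^ 6 := one_le_pow₀ (by linarith)
      have h3 : N / ε ≤ C₀ * (n : ℝ) ^ 6 / ε := div_le_div_of_nonneg_right hN hε.le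
      have h4 : C₀ * (n : ℝ) ^ 6 / ε = C₀ / ε * (n : ℝ) ^ 6 := by ring
      rw [add_mul, one_mul]
      linarith
    have h5 : Real.log (1 + N / ε) ≤ Real.log ((1 + C₀ / ε) * (n : ℝ) ^ 6) :=
      Real.log_le_log (by linarith) h1
    have h6 : 0 < 1 + C₀ / ε := by positivity
    rw [Real.log_mul h6.ne' (by positivity), Real.log_pow] at h5
    push_cast at h5
    rw [hL0, hx]
    exact h5
  have hJle : (J : ℝ) ≤ C₂ * x := by
    have h1 := Nat.ceil_lt_add_one (show 0 ≤ Real.log (1 + N / ε) / Real.log 2 by positivity)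
    rw [← hJ] at h1
    have h2 : Real.log (1 + N / ε) / Real.log 2 ≤ 2 * Real.log (1 + N / ε) := by
      rw [div_le_iff₀ (by linarith)]
      have := mul_nonneg hlogN0 (show 0 ≤ 2 * Real.log 2 - 1 by linarith)
      linarith
    have h3 : (J : ℝ) ≤ 2 * (L0 + 6 * x) + 1 := by linarith
    have h4 : L0 ≤ 2 * L0 * x := by
      have := mul_nonneg hL00 (show 0 ≤ 2 * x - 1 by linarith)
      linarith
    rw [hC₂]
    linarith
  have hJ2 : (J : ℝ) + 2 ≤ (C₂ + 4) * x := by linarith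
  clear_value J
  -- B and t
  set P : ℝ := ((40 * x) * 2 ^ (2 * m)) ^ p with hP
  have hP0 : 0 < P := by rw [hP]; positivity
  set Q : ℝ := 2 ^ p * (J + 2) * (C * ((n : ℝ) * n) * P) with hQ
  have hQ0 : 0 ≤ Q := by positivity
  set B : ℝ := 1 + Q / ε with hB
  have hB1 : 1 ≤ B := by
    rw [hB]
    have : 0 ≤ Q / ε := by positivity
    linarith
  set t : ℝ := 2 * Real.log B with ht
  have ht0 : 0 ≤ t := by
    have := Real.log_nonneg hB1
    positivity
  have hexpt : Real.exp (-(t / 2)) = 1 / B := by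
    rw [ht, Real.exp_neg]
    have : 2 * Real.log B / 2 = Real.log B := by ring
    rw [this, Real.exp_log (by linarith)]
    ring
  clear_value t B Q P
  -- bound for t
  set E : ℝ := p + (J + 2) + C / ε + 2 * x + p * (40 * x + 2 * m) with hE
  have hE0 : 0 ≤ E := by positivity
  have hBle : B ≤ Real.exp (E + 1) := by
    have e1 : (2 : ℝ) ^ p ≤ Real.exp p := two_rpow_le_exp p hp0.le
    have e2 : (J : ℝ) + 2 ≤ Real.exp (J + 2) := le_exp_self _
    have e3 : C / ε ≤ Real.exp (C / ε) := le_exp_self _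
    have e4 : (n : ℝ) * n = Real.exp (2 * x) := by
      rw [two_mul, Real.exp_add, hx, Real.exp_log hn0]
    have e5 : P ≤ Real.exp (p * (40 * x + 2 * m)) := by
      rw [hP]
      have h1 : (40 * x) * 2 ^ (2 * m) ≤ Real.exp (40 * x + 2 * m) := by
        rw [Real.exp_add]
        have h2 := two_pow_le_exp (2 * m)
        push_cast at h2
        exact mul_le_mul (le_exp_self _) h2 (by positivity) (Real.exp_pos _).le
      calc ((40 * x) * 2 ^ (2 * m)) ^ p ≤ (Real.exp (40 * x + 2 * m)) ^ p :=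
            Real.rpow_le_rpow (by positivity) h1 hp0.le
        _ = Real.exp (p * (40 * x + 2 * m)) := by
            rw [← Real.exp_mul]; ring_nf
    have hQε : Q / ε ≤ Real.exp E := by
      have h1 : Q / ε = 2 ^ p * (J + 2) * (C / ε) * ((n : ℝ) * n) * P := by rw [hQ]; ring
      have h2 : Real.exp E = Real.exp p * Real.exp (J + 2) * Real.exp (C / ε) * Real.exp (2 * x)
          * Real.exp (p * (40 * x + 2 * m)) := by
        rw [hE, Real.exp_add, Real.exp_add, Real.exp_add, Real.exp_add]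
      rw [h1, h2, e4]
      gcongr
    have h3 : (1 : ℝ) ≤ Real.exp E := Real.one_le_exp hE0
    have h4 : (2 : ℝ) ≤ Real.exp 1 := by
      have := Real.add_one_le_exp (1 : ℝ); linarith
    calc B = 1 + Q / ε := hB
      _ ≤ Real.exp E + Real.exp E := by linarith
      _ = Real.exp E * 2 := by ring
      _ ≤ Real.exp E * Real.exp 1 := by gcongr
      _ = Real.exp (E + 1) := (Real.exp_add E 1).symm
  have hE1 : E + 1 ≤ C₄ * x := by
    have h1 : p ≤ 2 * p * x := by
      have := mul_nonneg hp0.le (show 0 ≤ 2 * x - 1 by linarith)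
      linarith
    have h2 : C / ε ≤ 2 * (C / ε) * x := by
      have := mul_nonneg hCε (show 0 ≤ 2 * x - 1 by linarith)
      linarith
    have h3 : p * (40 * x + 2 * m) ≤ p * (40 + 168 * C₁) * x := by
      have : 40 * x + 2 * (m : ℝ) ≤ (40 + 168 * C₁) * x := by linarith
      calc p * (40 * x + 2 * m) ≤ p * ((40 + 168 * C₁) * x) :=
            mul_le_mul_of_nonneg_left this hp0.le
        _ = _ := by ring
    have h4 : C₄ * x = 2 * p * x + (C₂ + 4) * x + 2 * (C / ε) * x + 2 * x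
        + p * (40 + 168 * C₁) * x + 2 * x := by rw [hC₄]; ring
    rw [h4, hE]
    linarith
  have htle : t ≤ 2 * C₄ * x := by
    have h1 : Real.log B ≤ E + 1 := by
      rw [Real.log_le_iff_le_exp (by linarith)]
      exact hBle
    rw [ht]
    linarith
  clear_value E a x
  refine ⟨m, J, t, hm1, ht0, ?_, ?_, ?_⟩
  · calc a ≤ C₁ * a := le_mul_of_one_le_left (by linarith) hC₁1
      _ ≤ m := hma
  · -- N 2^{-Jp} ≤ ε
    have h1 : (2 : ℝ) ^ (-((J : ℝ) * p)) ≤ (2 : ℝ) ^ (-(J : ℝ)) := by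
      apply Real.rpow_le_rpow_of_exponent_le (by norm_num)
      have : (J : ℝ) * 1 ≤ J * p := mul_le_mul_of_nonneg_left hp.le (by positivity)
      linarith
    have h2 : 1 + N / ε ≤ (2 : ℝ) ^ (J : ℝ) := by
      rw [Real.rpow_def_of_pos (by norm_num)]
      rw [← Real.log_le_iff_le_exp (by linarith)]
      rw [div_le_iff₀ (by linarith)] at hJge
      linarith
    have h3 : (2 : ℝ) ^ (-(J : ℝ)) = 1 / (2 : ℝ) ^ (J : ℝ) := by
      rw [Real.rpow_neg (by norm_num)]; ring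
    calc (N : ℝ) * (2 : ℝ) ^ (-((J : ℝ) * p)) ≤ N * (1 / (2 : ℝ) ^ (J : ℝ)) := by
          rw [← h3]; exact mul_le_mul_of_nonneg_left h1 (by positivity)
      _ ≤ ε := by
          have hpos : (0 : ℝ) < (2 : ℝ) ^ (J : ℝ) := by positivity
          rw [mul_one_div, div_le_iff₀ hpos]
          have h4 : (N : ℝ) / ε ≤ (2 : ℝ) ^ (J : ℝ) := by linarith
          rw [div_le_iff₀ hε] at h4
          linarith
  · intro c hc
    have h2np : (2 : ℝ) ^ (-p) = 1 / 2 ^ p := by rw [Real.rpow_neg (by norm_num)]; ring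
    rw [h2np] at hc
    have hm0 : (0 : ℝ) < m := by linarith
    have hc0 : 0 < c := lt_of_lt_of_le (by positivity) hc
    have hmc : (m : ℝ) ≤ 2 ^ p * c := by
      have h1 : 1 / 2 ^ p * (m : ℝ) = m / 2 ^ p := by ring
      rw [h1, div_le_iff₀ h2p] at hc
      linarith
    have hC₁ge : 2 ^ p * (C + C') / ε ≤ C₁ := by rw [hC₁]; linarith
    have hC₁ge' : 2 ^ p * (C + C') ≤ C₁ * ε := by
      rwa [div_le_iff₀ hε] at hC₁ge
    have hratio : (((J + 2 * m : ℕ) : ℝ) / c) ≤ 2 ^ p * (J + 2) := by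
      rw [div_le_iff₀ hc0]
      push_cast
      have h1 : (J : ℝ) + 2 * m ≤ (J + 2) * m := by
        have := le_mul_of_one_le_right (show (0 : ℝ) ≤ J by positivity) hm1'
        linarith
      calc (J : ℝ) + 2 * m ≤ (J + 2) * m := h1
        _ ≤ (J + 2) * (2 ^ p * c) := by gcongr
        _ = 2 ^ p * (J + 2) * c := by ring
    have hratio0 : 0 ≤ (((J + 2 * m : ℕ) : ℝ) / c) := by positivity
    refine ⟨?_, ?_, ?_, ?_⟩
    · rw [div_le_iff₀ hc0]
      -- C' a ≤ ε c
      have h1 : 2 ^ p * (C' * a) ≤ 2 ^ p * (ε * c) := by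
        calc 2 ^ p * (C' * a) = (2 ^ p * C') * a := by ring
          _ ≤ (2 ^ p * (C + C')) * a := by
              apply mul_le_mul_of_nonneg_right _ (by linarith)
              apply mul_le_mul_of_nonneg_left (by linarith) h2p.le
          _ ≤ (C₁ * ε) * a := mul_le_mul_of_nonneg_right hC₁ge' (by linarith)
          _ = ε * (C₁ * a) := by ring
          _ ≤ ε * m := by gcongr
          _ ≤ ε * (2 ^ p * c) := by gcongr
          _ = 2 ^ p * (ε * c) := by ring
      exact le_of_mul_le_mul_left h1 h2p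
    · rw [div_le_iff₀ hc0]
      have h1 : 2 ^ p * C ≤ 2 ^ p * (ε * c) := by
        calc 2 ^ p * C ≤ 2 ^ p * (C + C') := by
              apply mul_le_mul_of_nonneg_left (by linarith) h2p.le
          _ ≤ C₁ * ε := hC₁ge'
          _ ≤ (C₁ * ε) * a := le_mul_of_one_le_right (by positivity) ha1
          _ = ε * (C₁ * a) := by ring
          _ ≤ ε * m := by gcongr
          _ ≤ ε * (2 ^ p * c) := by gcongr
          _ = 2 ^ p * (ε * c) := by ring
      exact le_of_mul_le_mul_left h1 h2p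
    · rw [hexpt, ← hP]
      have hB0 : 0 < B := by linarith
      calc (((J + 2 * m : ℕ) : ℝ) / c) * (C * ((n : ℝ) * n) * P * (1 / B))
          ≤ (2 ^ p * (J + 2)) * (C * ((n : ℝ) * n) * P * (1 / B)) := by
            apply mul_le_mul_of_nonneg_right hratio (by positivity)
        _ = Q / B := by rw [hQ]; ring
        _ ≤ ε := by
            rw [div_le_iff₀ hB0, hB]
            have : ε * (1 + Q / ε) = ε + Q := by field_simp
            rw [this]; linarith
    · have h1 : (((J + 2 * m : ℕ) : ℝ) / c) ^ (1 / p) ≤ 2 * (J + 2) := by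
        calc (((J + 2 * m : ℕ) : ℝ) / c) ^ (1 / p) ≤ (2 ^ p * (J + 2)) ^ (1 / p) :=
              Real.rpow_le_rpow hratio0 hratio (by positivity)
          _ = 2 * (J + 2) ^ (1 / p) := by
              rw [Real.mul_rpow h2p.le (by positivity), ← Real.rpow_mul (by norm_num)]
              rw [mul_one_div_cancel hp0.ne', Real.rpow_one]
          _ ≤ 2 * (J + 2) := by
              have hJ21 : (1 : ℝ) ≤ J + 2 := by
                have : (0 : ℝ) ≤ J := by positivity
                linarith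
              have h2 : ((J : ℝ) + 2) ^ (1 / p) ≤ (J + 2) ^ (1 : ℝ) := by
                apply Real.rpow_le_rpow_of_exponent_le hJ21
                rw [div_le_one hp0]; exact hp.le
              rw [Real.rpow_one] at h2
              linarith
      have h2 : (2 : ℝ) ^ (2 * m) ≤ Real.exp (168 * C₁ * x ^ γ) := by
        refine (two_pow_le_exp (2 * m)).trans (Real.exp_le_exp.mpr ?_)
        push_cast
        linarith
      have hxγ : 1 ≤ 2 * x ^ γ := by
        have h3 : (1 / 2 : ℝ) ^ γ ≤ x ^ γ := Real.rpow_le_rpow (by norm_num) (by linarith) hγ0.le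
        have h4 : (1 / 2 : ℝ) ^ (1 : ℝ) ≤ (1 / 2 : ℝ) ^ γ :=
          Real.rpow_le_rpow_of_exponent_ge (by norm_num) (by norm_num) hγ1.le
        rw [Real.rpow_one] at h4
        linarith
      have hxexp := le_exp_rpow x γ hx0 hγ0
      have hx3 : x ^ 3 ≤ Real.exp (3 / γ * x ^ γ) := by
        calc x ^ 3 ≤ (Real.exp (x ^ γ / γ)) ^ 3 := pow_le_pow_left₀ hx0.le hxexp 3
          _ = Real.exp (3 / γ * x ^ γ) := by
              rw [← Real.exp_nat_mul]; congr 1; push_cast; ring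
      set C₅ : ℝ := 160 * (C₂ + 4) * C₄ with hC₅
      have hC₅0 : 0 ≤ C₅ := by positivity
      have hC₅e : C₅ ≤ Real.exp (2 * C₅ * x ^ γ) := by
        refine (le_exp_self _).trans (Real.exp_le_exp.mpr ?_)
        have := mul_nonneg hC₅0 (show 0 ≤ 2 * x ^ γ - 1 by linarith)
        linarith
      calc (((J + 2 * m : ℕ) : ℝ) / c) ^ (1 / p) * (t * ((40 * x) * 2 ^ (2 * m)))
          ≤ (2 * ((C₂ + 4) * x)) * ((2 * C₄ * x) * ((40 * x) * Real.exp (168 * C₁ * x ^ γ))) := by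
            refine mul_le_mul (h1.trans (by linarith)) ?_ (by positivity) (by positivity)
            refine mul_le_mul htle ?_ (by positivity) (by positivity)
            gcongr
        _ = C₅ * x ^ 3 * Real.exp (168 * C₁ * x ^ γ) := by rw [hC₅]; ring
        _ ≤ Real.exp (2 * C₅ * x ^ γ) * Real.exp (3 / γ * x ^ γ) * Real.exp (168 * C₁ * x ^ γ) := by
            gcongr
        _ = Real.exp ((2 * C₅ + 3 / γ + 168 * C₁) * x ^ γ) := by
            rw [← Real.exp_add, ← Real.exp_add]; ring_nf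

end Crest.Agent.R232
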