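import Crest.Agent.R232.Defs

/-! # Row 232, piece PM: a power mean lemma

`S_q = ∑ a^q`. Hölder / power mean: `S_q ≤ m^{1/(q+1)} S_{q+1}^{q/(q+1)}` (`m = card E`), so
`S_{q+1} ≤ K S_q` gives `S_{q+1}^{1/(q+1)} ≤ K m^{1/(q+1)}` and `a e ≤ S_{q+1}^{1/(q+1)}`.
(Alternative without Hölder: let `A = max a`, and suppose `A > K m^{1/(q+1)}`; split the sum
`∑ a^q (a - K) ≤ 0`... the Hölder route is short: `inner_le_Lp_mul_Lq` or
`Real.inner_le_Lp_mul_Lq`, or `inner_le_nnorm_mul_nnorm`, or `Real.pow_arith_mean_le_arith_mean_pow`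
with real exponent `Real.rpow_arith_mean_le_arith_mean_rpow` applied to `a^q`, exponent `(q+1)/q`.) -/

set_option autoImplicit false

namespace Crest.Agent.R232

theorem pow_mean {E : Type} [Fintype E] (a : E → ℝ) (ha : ∀ e, 1 ≤ a e) (q : ℕ) (K : ℝ)
    (h : ∑ e, a e ^ (q + 1) ≤ K * ∑ e, a e ^ q) (e : E) :
    a e ≤ K * (Fintype.card E : ℝ) ^ (1 / ((q : ℝ) + 1)) := by
  have ha0 : ∀ e, 0 ≤ a e := fun e => zero_le_one.trans (ha e)
  set S : ℝ := ∑ e, a e ^ (q + 1) with hS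
  set S' : ℝ := ∑ e, a e ^ q with hS'
  set n : ℝ := (Fintype.card E : ℝ) with hn
  have hn0 : 0 ≤ n := Nat.cast_nonneg _
  have hae : a e ^ (q + 1) ≤ S :=
    Finset.single_le_sum (f := fun e => a e ^ (q + 1)) (fun i _ => pow_nonneg (ha0 i) _)
      (Finset.mem_univ e)
  have hSpos : 0 < S := lt_of_lt_of_le (pow_pos (zero_lt_one.trans_le (ha e)) _) hae
  have hS'pos : 0 < S' := lt_of_lt_of_le (pow_pos (zero_lt_one.trans_le (ha e)) _)
    (Finset.single_le_sum (f := fun e => a e ^ q) (fun i _ => pow_nonneg (ha0 i) _)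
      (Finset.mem_univ e))
  have hq1 : (0 : ℝ) < (q : ℝ) + 1 := by positivity
  -- power mean: `S' ^ (q+1) ≤ n * S ^ q`
  have hpm : S' ^ (q + 1) ≤ n * S ^ q := by
    rcases Nat.eq_zero_or_pos q with hq | hq
    · subst hq
      simp [hS', hn]
    have hqr : (0 : ℝ) < q := by exact_mod_cast hq
    have h1 := Real.rpow_sum_le_const_mul_sum_rpow_of_nonneg (p := ((q : ℝ) + 1) / q)
      (Finset.univ : Finset E) (f := fun e => a e ^ q)
      (by rw [le_div_iff₀ hqr]; linarith) (fun i _ => pow_nonneg (ha0 i) _)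
    have e1 : ∀ i, (a i ^ q) ^ (((q : ℝ) + 1) / q) = a i ^ (q + 1) := by
      intro i
      rw [← Real.rpow_natCast, ← Real.rpow_mul (ha0 i), ← Real.rpow_natCast]
      congr 1
      push_cast
      field_simp
    simp only [e1] at h1
    have h2 := pow_le_pow_left₀ (by positivity) h1 q
    have e2 : ((∑ e, a e ^ q) ^ (((q : ℝ) + 1) / q)) ^ q = S' ^ (q + 1) := by
      rw [← Real.rpow_natCast, ← Real.rpow_mul hS'pos.le, ← Real.rpow_natCast]
      congr 1
      push_cast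
      field_simp
    have e3 : (((Finset.univ : Finset E).card : ℝ) ^ (((q : ℝ) + 1) / q - 1) *
        ∑ e, a e ^ (q + 1)) ^ q = n * S ^ q := by
      rw [mul_pow, Finset.card_univ, ← Real.rpow_natCast, ← Real.rpow_mul hn0]
      congr 1
      have : (((q : ℝ) + 1) / q - 1) * (q : ℝ) = 1 := by field_simp; ring
      rw [this, Real.rpow_one]
    rw [e2, e3] at h2
    exact h2
  have hK : 0 < K := by
    by_contra hK
    push Not at hK
    have : K * S' ≤ 0 := mul_nonpos_of_nonpos_of_nonneg hK hS'pos.le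
    linarith
  -- `S ≤ K^(q+1) n`
  have h1 : S ≤ K ^ (q + 1) * n := by
    have h2 : S ^ (q + 1) ≤ K ^ (q + 1) * (n * S ^ q) := by
      calc S ^ (q + 1) ≤ (K * S') ^ (q + 1) := pow_le_pow_left₀ hSpos.le h _
        _ = K ^ (q + 1) * S' ^ (q + 1) := mul_pow _ _ _
        _ ≤ K ^ (q + 1) * (n * S ^ q) := mul_le_mul_of_nonneg_left hpm (by positivity)
    have h3 : S * S ^ q ≤ (K ^ (q + 1) * n) * S ^ q := by
      calc S * S ^ q = S ^ (q + 1) := by ring
        _ ≤ _ := h2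
        _ = _ := by ring
    exact le_of_mul_le_mul_right h3 (by positivity)
  have h4 : a e ^ (q + 1) ≤ K ^ (q + 1) * n := hae.trans h1
  have h5 : (K * n ^ (1 / ((q : ℝ) + 1))) ^ (q + 1) = K ^ (q + 1) * n := by
    rw [mul_pow]
    congr 1
    rw [← Real.rpow_natCast, ← Real.rpow_mul hn0]
    push_cast
    rw [one_div, inv_mul_cancel₀ hq1.ne', Real.rpow_one]
  rw [← h5] at h4
  exact le_of_pow_le_pow_left₀ (by omega) (by positivity) h4

end Crest.Agent.R232
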