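import Mathlib

/-! # Row 232, piece S359: the lower bound S0359 (isometric embeddings need `≥ m²` dimensions)

`m = (n-1)/4 ≥ 2`. `α = Fin m × Fin m` with counting measure (finite, every function is in `Lp`).
Points: `0`, `± u_i` (indicator of row `i`), `± v_j` (indicator of column `j`), `4m+1 ≤ n` points,
and further distinct points (e.g. `k • u_0`, `k = 2, 3, …`) to have exactly `n` distinct points.
Let `y, s` be given by `hd`, `U_i = y(u_i) - y(0)`, `V_j = y(v_j) - y(0)`.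
(a) `‖y(u_i) - y(-u_i)‖ = 2 s ‖u_i‖ = ‖y(u_i)-y(0)‖ + ‖y(0)-y(-u_i)‖` and both are equal, so strict
convexity gives `y(-u_i) - y(0) = -U_i` (`clarkson`-free: `antipode` below); same for `V_j`.
So `‖U_i ± U_i'‖ = s ‖u_i ± u_i'‖`, `‖U_i ± V_j‖ = s ‖u_i ± v_j‖`, ….
(b) `disj`: `∑|a+b|^p + ∑|a-b|^p = 2 (∑|a|^p + ∑|b|^p)` iff `a k = 0 ∨ b k = 0` for all `k`
(pointwise strict Clarkson inequality, one direction for `p < 2`, the other for `p > 2`).
`u_i, u_i'` (`i ≠ i'`) have disjoint supports, so `U_i, U_i'` too; same for `V_j, V_j'`.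
(c) `‖u_i+v_j‖^p + ‖u_i-v_j‖^p = 2(2m-2) + 2^p ≠ 4m`, so for all `i, j` there is `k(i,j) : Fin d` with
`U_i k ≠ 0 ≠ V_j k`. `(i,j) ↦ k(i,j)` is injective by (b): `m² ≤ d`.
The `Lp` norms: `Lp ℝ p` of the counting measure on a finite type; convenient: `‖f‖^p = ∑ |f a|^p`
via `MeasureTheory.Lp.norm_def`, `eLpNorm_eq_lintegral_rpow_enorm`, `lintegral_count`/
`lintegral_fintype`; all functions on a finite measurable space (`⊤`) are measurable. -/

set_option autoImplicit false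

open MeasureTheory
open scoped ENNReal

namespace Crest.Agent.R232

namespace Q359aux

theorem sq_rpow_half (p a : ℝ) : (a ^ 2) ^ (p / 2) = |a| ^ p := by
  rw [← sq_abs, ← Real.rpow_natCast, ← Real.rpow_mul (abs_nonneg a)]
  congr 1
  push_cast
  ring

theorem sub_strict (q : ℝ) (hq1 : q < 1) (x y : ℝ) (hx : 0 < x) (hy : 0 < y) :
    (x + y) ^ q < x ^ q + y ^ q := by
  have hs : 0 < x + y := by linarith
  have h1 : ∀ t : ℝ, 0 < t → t < x + y → (x + y) ^ q * (t / (x + y)) < t ^ q := by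
    intro t ht ht'
    have h2 : (t / (x + y)) ^ (1:ℝ) < (t / (x + y)) ^ q :=
      Real.rpow_lt_rpow_of_exponent_gt (by positivity) (by rw [div_lt_one hs]; exact ht') hq1
    rw [Real.rpow_one] at h2
    have h3 : t ^ q = (x + y) ^ q * (t / (x + y)) ^ q := by
      rw [← Real.mul_rpow hs.le (by positivity), mul_div_cancel₀ _ hs.ne']
    rw [h3]
    exact mul_lt_mul_of_pos_left h2 (Real.rpow_pos_of_pos hs q)
  have h4 := h1 x hx (by linarith)
  have h5 := h1 y hy (by linarith)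
  calc (x + y) ^ q = (x + y) ^ q * (x / (x + y)) + (x + y) ^ q * (y / (x + y)) := by
        rw [← mul_add, ← add_div, div_self hs.ne', mul_one]
    _ < _ := add_lt_add h4 h5

theorem super_strict (q : ℝ) (hq1 : 1 < q) (x y : ℝ) (hx : 0 < x) (hy : 0 < y) :
    x ^ q + y ^ q < (x + y) ^ q := by
  have hs : 0 < x + y := by linarith
  have h1 : ∀ t : ℝ, 0 < t → t < x + y → t ^ q < (x + y) ^ q * (t / (x + y)) := by
    intro t ht ht'
    have h2 : (t / (x + y)) ^ q < (t / (x + y)) ^ (1:ℝ) :=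
      Real.rpow_lt_rpow_of_exponent_gt (by positivity) (by rw [div_lt_one hs]; exact ht') hq1
    rw [Real.rpow_one] at h2
    have h3 : t ^ q = (x + y) ^ q * (t / (x + y)) ^ q := by
      rw [← Real.mul_rpow hs.le (by positivity), mul_div_cancel₀ _ hs.ne']
    rw [h3]
    exact mul_lt_mul_of_pos_left h2 (Real.rpow_pos_of_pos hs q)
  have h4 := h1 x hx (by linarith)
  have h5 := h1 y hy (by linarith)
  calc x ^ q + y ^ q < (x + y) ^ q * (x / (x + y)) + (x + y) ^ q * (y / (x + y)) :=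
        add_lt_add h4 h5
    _ = (x + y) ^ q := by
        rw [← mul_add, ← add_div, div_self hs.ne', mul_one]

end Q359aux

open Q359aux

/-- pointwise Clarkson, equality case -/
theorem clarkson_pt_low (p : ℝ) (hp : 1 < p) (hp2 : p < 2) (a b : ℝ) :
    |a + b| ^ p + |a - b| ^ p ≤ 2 * (|a| ^ p + |b| ^ p) ∧
      (|a + b| ^ p + |a - b| ^ p = 2 * (|a| ^ p + |b| ^ p) → a = 0 ∨ b = 0) := by
  have hq0 : 0 ≤ p / 2 := by linarith
  have hq1 : p / 2 < 1 := by linarith
  have h1 : |a + b| ^ p + |a - b| ^ p ≤ 2 * (a ^ 2 + b ^ 2) ^ (p / 2) := by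
    have h := (Real.concaveOn_rpow hq0 hq1.le).2 
      (Set.mem_Ici.mpr (sq_nonneg (a + b))) (Set.mem_Ici.mpr (sq_nonneg (a - b)))
      (by norm_num : (0:ℝ) ≤ 1 / 2) (by norm_num : (0:ℝ) ≤ 1 / 2) (by norm_num)
    simp only [smul_eq_mul] at h
    rw [sq_rpow_half, sq_rpow_half] at h
    have h2 : 1 / 2 * (a + b) ^ 2 + 1 / 2 * (a - b) ^ 2 = a ^ 2 + b ^ 2 := by ring
    rw [h2] at h
    linarith
  by_cases ha : a = 0
  · refine ⟨?_, fun _ => Or.inl ha⟩
    subst ha
    have h3 : |0 - b| = |b| := by rw [zero_sub, abs_neg]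
    rw [zero_add, h3, abs_zero, Real.zero_rpow (by linarith)]
    linarith
  by_cases hb : b = 0
  · refine ⟨?_, fun _ => Or.inr hb⟩
    subst hb
    rw [add_zero, sub_zero, abs_zero, Real.zero_rpow (by linarith)]
    linarith
  have h4 := sub_strict (p / 2) hq1 (a ^ 2) (b ^ 2) (by positivity) (by positivity)
  rw [sq_rpow_half, sq_rpow_half] at h4
  constructor
  · linarith
  · intro h; linarith

theorem clarkson_pt_high (p : ℝ) (hp2 : 2 < p) (a b : ℝ) :
    2 * (|a| ^ p + |b| ^ p) ≤ |a + b| ^ p + |a - b| ^ p ∧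
      (|a + b| ^ p + |a - b| ^ p = 2 * (|a| ^ p + |b| ^ p) → a = 0 ∨ b = 0) := by
  have hq1 : 1 < p / 2 := by linarith
  have h1 : 2 * (a ^ 2 + b ^ 2) ^ (p / 2) ≤ |a + b| ^ p + |a - b| ^ p := by
    have h := (convexOn_rpow hq1.le).2 
      (Set.mem_Ici.mpr (sq_nonneg (a + b))) (Set.mem_Ici.mpr (sq_nonneg (a - b)))
      (by norm_num : (0:ℝ) ≤ 1 / 2) (by norm_num : (0:ℝ) ≤ 1 / 2) (by norm_num)
    simp only [smul_eq_mul] at h
    rw [sq_rpow_half, sq_rpow_half] at h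
    have h2 : 1 / 2 * (a + b) ^ 2 + 1 / 2 * (a - b) ^ 2 = a ^ 2 + b ^ 2 := by ring
    rw [h2] at h
    linarith
  by_cases ha : a = 0
  · refine ⟨?_, fun _ => Or.inl ha⟩
    subst ha
    have h3 : |0 - b| = |b| := by rw [zero_sub, abs_neg]
    rw [zero_add, h3, abs_zero, Real.zero_rpow (by linarith)]
    linarith
  by_cases hb : b = 0
  · refine ⟨?_, fun _ => Or.inr hb⟩
    subst hb
    rw [add_zero, sub_zero, abs_zero, Real.zero_rpow (by linarith)]
    linarith
  have h4 := super_strict (p / 2) hq1 (a ^ 2) (b ^ 2) (by positivity) (by positivity)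
  rw [sq_rpow_half, sq_rpow_half] at h4
  constructor
  · linarith
  · intro h; linarith

theorem disj (p : ℝ) (hp : 1 < p) (hp2 : p ≠ 2) (d : ℕ) (a b : Fin d → ℝ)
    (h : ∑ k, |a k + b k| ^ p + ∑ k, |a k - b k| ^ p = 2 * (∑ k, |a k| ^ p + ∑ k, |b k| ^ p))
    (k : Fin d) : a k = 0 ∨ b k = 0 := by
  rw [← Finset.sum_add_distrib, ← Finset.sum_add_distrib, Finset.mul_sum] at h
  rcases lt_or_gt_of_ne hp2 with h2 | h2
  · have h3 := (Finset.sum_eq_sum_iff_of_le
      (fun k _ => (clarkson_pt_low p hp h2 (a k) (b k)).1)).mp h k (Finset.mem_univ k)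
    exact (clarkson_pt_low p hp h2 (a k) (b k)).2 h3
  · have h3 := (Finset.sum_eq_sum_iff_of_le
      (fun k _ => (clarkson_pt_high p h2 (a k) (b k)).1)).mp h.symm k (Finset.mem_univ k)
    exact (clarkson_pt_high p h2 (a k) (b k)).2 h3.symm

/-- strict convexity: an isometric midpoint is the midpoint -/
theorem antipode (p : ℝ) (hp : 1 < p) (d : ℕ) (a b : Fin d → ℝ)
    (h1 : ∑ k, |a k| ^ p = ∑ k, |b k| ^ p)
    (h2 : ∑ k, |a k - b k| ^ p = 2 ^ p * ∑ k, |a k| ^ p) (k : Fin d) : b k = - a k := by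
  have hp0 : 0 < p := by linarith
  have h2p : (0:ℝ) < 2 ^ p := by positivity
  -- pointwise
  have hpt : ∀ x y : ℝ, |x - y| ^ p ≤ 2 ^ p * (1 / 2 * |x| ^ p + 1 / 2 * |y| ^ p) ∧
      (|x - y| ^ p = 2 ^ p * (1 / 2 * |x| ^ p + 1 / 2 * |y| ^ p) → y = -x) := by
    intro x y
    have h3 : |x - y| ≤ |x| + |y| := abs_sub x y
    have h4 : |x - y| ^ p ≤ (|x| + |y|) ^ p :=
      Real.rpow_le_rpow (abs_nonneg _) h3 hp0.le
    have h5 : (|x| + |y|) ^ p = 2 ^ p * (1 / 2 * |x| + 1 / 2 * |y|) ^ p := by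
      rw [← Real.mul_rpow (by norm_num) (by positivity)]
      congr 1
      ring
    by_cases hxy : |x| = |y|
    · have h6 : (1 / 2 * |x| + 1 / 2 * |y|) = |x| := by rw [← hxy]; ring
      have h7 : 1 / 2 * |x| ^ p + 1 / 2 * |y| ^ p = |x| ^ p := by rw [← hxy]; ring
      rw [h5, h6] at h4
      rw [h7]
      refine ⟨h4, fun h => ?_⟩
      rcases abs_eq_abs.mp hxy with h8 | h8
      · subst h8
        rw [sub_self, abs_zero, Real.zero_rpow hp0.ne'] at h
        have h9 : |x| ^ p = 0 := by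
          rcases mul_eq_zero.mp h.symm with h10 | h10
          · exact absurd h10 h2p.ne'
          · exact h10
        have h10 : |x| = 0 := (Real.rpow_eq_zero (abs_nonneg x) hp0.ne').mp h9
        have h11 : x = 0 := abs_eq_zero.mp h10
        rw [h11, neg_zero]
      · rw [h8, neg_neg]
    · have h6 := (strictConvexOn_rpow hp).2 
        (Set.mem_Ici.mpr (abs_nonneg x)) (Set.mem_Ici.mpr (abs_nonneg y)) hxy
        (by norm_num : (0:ℝ) < 1 / 2) (by norm_num : (0:ℝ) < 1 / 2) (by norm_num)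
      simp only [smul_eq_mul] at h6
      have h7 : |x - y| ^ p < 2 ^ p * (1 / 2 * |x| ^ p + 1 / 2 * |y| ^ p) := by
        calc |x - y| ^ p ≤ (|x| + |y|) ^ p := h4
          _ = 2 ^ p * (1 / 2 * |x| + 1 / 2 * |y|) ^ p := h5
          _ < _ := mul_lt_mul_of_pos_left h6 h2p
      exact ⟨h7.le, fun h => absurd h h7.ne⟩
  have hsum : ∑ k, |a k - b k| ^ p = ∑ k, 2 ^ p * (1 / 2 * |a k| ^ p + 1 / 2 * |b k| ^ p) := by
    rw [← Finset.mul_sum, Finset.sum_add_distrib, ← Finset.mul_sum, ← Finset.mul_sum, ← h1, h2]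
    ring
  have h3 := (Finset.sum_eq_sum_iff_of_le (fun k _ => (hpt (a k) (b k)).1)).mp hsum k
    (Finset.mem_univ k)
  exact (hpt (a k) (b k)).2 h3

end Crest.Agent.R232
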