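import Crest.Agent.R232.Defs

/-! # Row 232, piece SAMP: sampling lemma (deterministic, by a potential function)

Write `w = ∑_i λ_i w_i` (finite convex combination, `w_i ∈ W`; `mem_convexHull_iff_exists_fintype`
or `Finset.centerMass`). Let `s = ε/(2R²)` (so `sR ≤ 1/2`) and
`Φ(y) = ∑_e (exp(s y e) + exp(-s y e))`. For every `y : E → ℝ` some `i` has
`Φ(y + (w_i - w)) ≤ exp(s² R²) Φ(y)`: average over `i` with the weights `λ_i`, using
`exp u ≤ 1 + u + u²` for `|u| ≤ 1` (`Real.abs_exp_sub_one_sub_id_le`) at `u = ± s (w_i e - w e)`,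
`|w_i e - w e| ≤ R`, `∑ λ_i (w_i - w) = 0`, so `∑_i λ_i exp(± s(w_i e - w e)) ≤ 1 + s²R² ≤ exp(s²R²)`.
Choose `v 0, v 1, …, v (N-1)` successively: `Φ(∑ (v k - w)) ≤ 2 (card E) exp(N s²R²)`. Hence
`s |∑_k (v k e - w e)| ≤ log(2 card E) + N s² R²`, and dividing by `sN`:
`|avg - w| ≤ log(2 card E)/(sN) + sR² ≤ ε/2 + ε/2`. -/

set_option autoImplicit false

namespace Crest.Agent.R232

/-- one step of the sampling -/
theorem sampling_step {E : Type} [Fintype E] (W : Set (E → ℝ)) (R : ℝ) (hR : 0 < R)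
    (hW : ∀ w ∈ W, ∀ e, 0 ≤ w e ∧ w e ≤ R) (w : E → ℝ) (hw : w ∈ convexHull ℝ W)
    (s : ℝ) (hs : 0 < s) (hsR : s * R ≤ 1) (y : E → ℝ) :
    ∃ v ∈ W, ∑ e, (Real.exp (s * (y e + (v e - w e))) + Real.exp (-(s * (y e + (v e - w e))))) ≤
      Real.exp (s ^ 2 * R ^ 2) * ∑ e, (Real.exp (s * y e) + Real.exp (-(s * y e))) := by
  have hwb : ∀ e, 0 ≤ w e ∧ w e ≤ R := by
    have h1 : convexHull ℝ W ⊆ Set.Icc (0 : E → ℝ) (fun _ => R) := by
      refine convexHull_min (fun v hv => ?_) (convex_Icc _ _)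
      exact ⟨fun e => (hW v hv e).1, fun e => (hW v hv e).2⟩
    intro e
    exact ⟨(h1 hw).1 e, (h1 hw).2 e⟩
  let L : (E → ℝ) →ₗ[ℝ] ℝ := ∑ e, (s * (Real.exp (s * y e) - Real.exp (-(s * y e)))) •
    (LinearMap.proj e : (E → ℝ) →ₗ[ℝ] ℝ)
  have hL : ∀ v, L v = ∑ e, (s * (Real.exp (s * y e) - Real.exp (-(s * y e)))) * v e := by
    intro v
    simp [L, LinearMap.sum_apply]
  obtain ⟨v, hv, hvL⟩ : ∃ v ∈ W, L v ≤ L w := by
    by_contra hcon
    push Not at hcon
    have h1 : convexHull ℝ W ⊆ {v | L w < L v} :=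
      convexHull_min (fun v hv => hcon v hv) (convex_halfSpace_gt L.isLinear _)
    have h2 : L w < L w := h1 hw
    exact lt_irrefl _ h2
  refine ⟨v, hv, ?_⟩
  have hd : ∀ e, |v e - w e| ≤ R := by
    intro e
    have h1 := hW v hv e
    have h2 := hwb e
    rw [abs_le]; constructor <;> linarith [h1.1, h1.2, h2.1, h2.2]
  have hsd : ∀ e, |s * (v e - w e)| ≤ 1 := by
    intro e
    rw [abs_mul, abs_of_pos hs]
    exact (mul_le_mul_of_nonneg_left (hd e) hs.le).trans hsR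
  have hsq : ∀ e, (s * (v e - w e)) ^ 2 ≤ s ^ 2 * R ^ 2 := by
    intro e
    rw [mul_pow]
    refine mul_le_mul_of_nonneg_left ?_ (sq_nonneg s)
    exact sq_le_sq' (by linarith [(abs_le.1 (hd e)).1]) (abs_le.1 (hd e)).2
  have hterm : ∀ e, Real.exp (s * (y e + (v e - w e))) + Real.exp (-(s * (y e + (v e - w e)))) ≤
      (1 + s ^ 2 * R ^ 2) * (Real.exp (s * y e) + Real.exp (-(s * y e))) +
      (s * (Real.exp (s * y e) - Real.exp (-(s * y e)))) * (v e - w e) := by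
    intro e
    have e1 : s * (y e + (v e - w e)) = s * y e + s * (v e - w e) := by ring
    have e2 : -(s * (y e + (v e - w e))) = -(s * y e) + -(s * (v e - w e)) := by ring
    rw [e1, show -(s * y e + s * (v e - w e)) = -(s * y e) + -(s * (v e - w e)) by ring,
      Real.exp_add, Real.exp_add]
    have h1 := (abs_le.1 (Real.abs_exp_sub_one_sub_id_le (hsd e))).2
    have h2 := (abs_le.1 (Real.abs_exp_sub_one_sub_id_le
      (x := -(s * (v e - w e))) (by rw [abs_neg]; exact hsd e))).2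
    rw [neg_sq] at h2
    have h3 := hsq e
    have p1 := Real.exp_pos (s * y e)
    have p2 := Real.exp_pos (-(s * y e))
    have h4 : Real.exp (s * (v e - w e)) ≤ 1 + s * (v e - w e) + s ^ 2 * R ^ 2 := by linarith
    have h5 : Real.exp (-(s * (v e - w e))) ≤ 1 - s * (v e - w e) + s ^ 2 * R ^ 2 := by linarith
    have h6 := mul_le_mul_of_nonneg_left h4 p1.le
    have h7 := mul_le_mul_of_nonneg_left h5 p2.le
    nlinarith [h6, h7]
  have hsum := Finset.sum_le_sum (s := Finset.univ) fun e (_ : e ∈ Finset.univ) => hterm e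
  refine hsum.trans ?_
  rw [Finset.sum_add_distrib, ← Finset.mul_sum]
  have h8 : ∑ e, (s * (Real.exp (s * y e) - Real.exp (-(s * y e)))) * (v e - w e) = L v - L w := by
    rw [hL, hL, ← Finset.sum_sub_distrib]
    exact Finset.sum_congr rfl fun e _ => by ring
  rw [h8]
  have h9 : (1 + s ^ 2 * R ^ 2) ≤ Real.exp (s ^ 2 * R ^ 2) := by
    linarith [Real.add_one_le_exp (s ^ 2 * R ^ 2)]
  have h10 : 0 ≤ ∑ e, (Real.exp (s * y e) + Real.exp (-(s * y e))) :=
    Finset.sum_nonneg fun e _ => by positivity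
  have h11 := mul_le_mul_of_nonneg_right h9 h10
  linarith

theorem sampling_seq {E : Type} [Fintype E] (W : Set (E → ℝ)) (R : ℝ) (hR : 0 < R)
    (hW : ∀ w ∈ W, ∀ e, 0 ≤ w e ∧ w e ≤ R) (w : E → ℝ) (hw : w ∈ convexHull ℝ W)
    (s : ℝ) (hs : 0 < s) (hsR : s * R ≤ 1) (N : ℕ) :
    ∃ v : Fin N → (E → ℝ), (∀ k, v k ∈ W) ∧
      ∑ e, (Real.exp (s * ∑ k, (v k e - w e)) + Real.exp (-(s * ∑ k, (v k e - w e)))) ≤
      Real.exp (N * (s ^ 2 * R ^ 2)) * (2 * Fintype.card E) := by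
  induction N with
  | zero =>
    refine ⟨fun k => k.elim0, fun k => k.elim0, ?_⟩
    simp only [Finset.univ_eq_empty, Finset.sum_empty, mul_zero, neg_zero, Real.exp_zero,
      Nat.cast_zero, zero_mul, one_mul, Finset.sum_const, Finset.card_univ, nsmul_eq_mul]
    rw [mul_comm]; norm_num
  | succ N ih =>
    obtain ⟨v, hv, hΦ⟩ := ih
    obtain ⟨v0, hv0, hstep⟩ := sampling_step W R hR hW w hw s hs hsR (fun e => ∑ k, (v k e - w e))
    refine ⟨Fin.cons v0 v, ?_, ?_⟩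
    · intro k
      refine Fin.cases ?_ (fun i => ?_) k
      · simpa using hv0
      · simpa using hv i
    · have e1 : ∀ e, ∑ k, ((Fin.cons v0 v : Fin (N + 1) → E → ℝ) k e - w e) =
          ∑ k, (v k e - w e) + (v0 e - w e) := by
        intro e
        rw [Fin.sum_univ_succ]
        simp only [Fin.cons_zero, Fin.cons_succ]
        ring
      simp_rw [e1]
      refine hstep.trans ?_
      have h1 := mul_le_mul_of_nonneg_left hΦ (Real.exp_pos (s ^ 2 * R ^ 2)).le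
      refine h1.trans (le_of_eq ?_)
      rw [← mul_assoc, ← Real.exp_add]
      push_cast
      ring_nf

theorem sampling {E : Type} [Fintype E] [Nonempty E] (W : Set (E → ℝ)) (R : ℝ) (hR : 0 < R)
    (hW : ∀ w ∈ W, ∀ e, 0 ≤ w e ∧ w e ≤ R) (w : E → ℝ) (hw : w ∈ convexHull ℝ W)
    (ε : ℝ) (hε : 0 < ε) (hεR : ε ≤ R) (N : ℕ) (hN : 1 ≤ N)
    (hN' : 4 * R ^ 2 * Real.log (2 * Fintype.card E) / ε ^ 2 ≤ N) :
    ∃ v : Fin N → (E → ℝ), (∀ k, v k ∈ W) ∧ ∀ e, |(1 / (N : ℝ)) * ∑ k, v k e - w e| ≤ ε := by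
  have hs : 0 < ε / (2 * R ^ 2) := by positivity
  have hsR : ε / (2 * R ^ 2) * R ≤ 1 := by
    rw [div_mul_eq_mul_div, div_le_one (by positivity)]
    nlinarith
  obtain ⟨v, hv, hΦ⟩ := sampling_seq W R hR hW w hw _ hs hsR N
  refine ⟨v, hv, fun e => ?_⟩
  have hN0 : (0 : ℝ) < N := by exact_mod_cast hN
  have hcard : (0 : ℝ) < 2 * Fintype.card E := by
    have : 0 < Fintype.card E := Fintype.card_pos
    positivity
  set s := ε / (2 * R ^ 2) with hsdef
  set y : ℝ := ∑ k, (v k e - w e) with hy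
  have h1 : Real.exp (s * |y|) ≤ Real.exp (N * (s ^ 2 * R ^ 2)) * (2 * Fintype.card E) := by
    refine le_trans ?_ hΦ
    refine le_trans ?_ (Finset.single_le_sum (f := fun e => Real.exp (s * ∑ k, (v k e - w e)) +
      Real.exp (-(s * ∑ k, (v k e - w e)))) (fun i _ => by positivity) (Finset.mem_univ e))
    simp only [← hy]
    rcases abs_cases y with ⟨h, -⟩ | ⟨h, -⟩
    · rw [h]; linarith [Real.exp_pos (-(s * y))]
    · rw [h, mul_neg]; linarith [Real.exp_pos (s * y)]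
  have h2 : s * |y| ≤ N * (s ^ 2 * R ^ 2) + Real.log (2 * Fintype.card E) := by
    have := Real.log_le_log (Real.exp_pos _) h1
    rwa [Real.log_exp, Real.log_mul (Real.exp_pos _).ne' hcard.ne', Real.log_exp] at this
  have h3 : (1 / (N : ℝ)) * ∑ k, v k e - w e = y / N := by
    rw [hy, Finset.sum_sub_distrib]
    simp only [Finset.sum_const, Finset.card_univ, Fintype.card_fin, nsmul_eq_mul]
    field_simp
  rw [h3, abs_div, abs_of_pos hN0, div_le_iff₀ hN0]
  have h4 : Real.log (2 * Fintype.card E) ≤ N * ε ^ 2 / (4 * R ^ 2) := by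
    rw [div_le_iff₀ (by positivity)] at hN'
    rw [le_div_iff₀ (by positivity)]
    linarith
  have h5 : (N : ℝ) * (s ^ 2 * R ^ 2) = N * ε ^ 2 / (4 * R ^ 2) := by
    rw [hsdef]; field_simp; ring
  have h6 : s * |y| ≤ s * (ε * N) := by
    have : s * (ε * N) = N * ε ^ 2 / (4 * R ^ 2) + N * ε ^ 2 / (4 * R ^ 2) := by
      rw [hsdef]; field_simp; ring
    rw [this]; linarith
  exact le_of_mul_le_mul_left h6 hs

end Crest.Agent.R232
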