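import Crest.Agent.R232.Unif
import Crest.Agent.R232.Sampling

/-! # Row 232, piece STEPC: the main dimension reduction from `N ≤ C₀ n⁶` coordinates

`d = lpd p z` is an `IsDist`; `∑_ω |grad d (z·ω) e|^p = 1` off the diagonal and `0` on it.
`unif` (small `ε < 1/2` with `((1+2ε)/(1-2ε))^{1/p} ≤ D`) gives `w` in the hull of `Wset p d K`; all
`v ∈ Wset` have `0 ≤ v e ≤ K^p =: R`, `K ≥ 1` (take `K₀ ≥ 0`). `sampling` with
`N' = ⌈4R² log(2n²)/ε²⌉₊ (≥ 1)` gives `φ_k`, `k < N'`, with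
`|(1/N') ∑_k |grad φ_k e|^p - w e| ≤ ε`. Put `z' i k = φ_k i / N'^{1/p}`. Then for `i ≠ j`
`lpd p z' i j = d i j * ((1/N') ∑_k |grad φ_k (i,j)|^p)^{1/p}`, in
`[(1-2ε)^{1/p}, (1+2ε)^{1/p}] * d i j`. `N' ≤ exp(C (log n)^γ)`: `log n ≤ exp(C (log n)^γ)` and
constants are absorbed since `(log n)^γ ≥ (log 2)^γ > 0`. -/

set_option autoImplicit false

namespace Crest.Agent.R232

theorem lpd_isDist {V : Type} (p : ℝ) (hp : 1 < p) {N : ℕ} (z : V → Fin N → ℝ)
    (h : ∀ i j, i ≠ j → 0 < lpd p z i j) : IsDist (lpd p z) := by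
  have hp0 : p ≠ 0 := by linarith
  refine ⟨fun x y => ?_, fun x => ?_, fun x y hxy => h x y hxy⟩
  · unfold lpd
    congr 1
    exact Finset.sum_congr rfl fun k _ => by rw [abs_sub_comm]
  · unfold lpd
    have : ∑ k : Fin N, |z x k - z x k| ^ p = 0 := by
      apply Finset.sum_eq_zero
      intro k _
      rw [sub_self, abs_zero, Real.zero_rpow hp0]
    rw [this, Real.zero_rpow (by positivity)]

theorem lpd_self {V : Type} (p : ℝ) (hp : 1 < p) {N : ℕ} (z : V → Fin N → ℝ) (x : V) :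
    lpd p z x x = 0 := by
  have hp0 : p ≠ 0 := by linarith
  unfold lpd
  have : ∑ k : Fin N, |z x k - z x k| ^ p = 0 := by
    apply Finset.sum_eq_zero
    intro k _
    rw [sub_self, abs_zero, Real.zero_rpow hp0]
  rw [this, Real.zero_rpow (by positivity)]

theorem lpd_rpow {V : Type} (p : ℝ) (hp : 1 < p) {N : ℕ} (z : V → Fin N → ℝ) (i j : V) :
    (lpd p z i j) ^ p = ∑ k, |z i k - z j k| ^ p := by
  have hp0 : p ≠ 0 := by linarith
  unfold lpd
  rw [← Real.rpow_mul (Finset.sum_nonneg fun k _ => Real.rpow_nonneg (abs_nonneg _) _)]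
  rw [one_div_mul_cancel hp0, Real.rpow_one]

theorem sum_grad_le (p : ℝ) (hp : 1 < p) {n N : ℕ} (z : Fin n → Fin N → ℝ)
    (h : ∀ i j, i ≠ j → 0 < lpd p z i j) (e : Fin n × Fin n) :
    ∑ ω, |grad (lpd p z) (fun i => z i ω) e| ^ p = if e.1 = e.2 then 0 else 1 := by
  have hp0 : p ≠ 0 := by linarith
  obtain ⟨i, j⟩ := e
  by_cases hij : i = j
  · subst hij
    simp only [if_true]
    apply Finset.sum_eq_zero
    intro k _
    unfold grad
    simp only [sub_self, zero_div, abs_zero]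
    exact Real.zero_rpow hp0
  · simp only [if_neg hij]
    have hd := h i j hij
    have hdp : 0 < (lpd p z i j) ^ p := Real.rpow_pos_of_pos hd p
    have : ∀ ω, |grad (lpd p z) (fun i => z i ω) (i, j)| ^ p
        = |z i ω - z j ω| ^ p / (lpd p z i j) ^ p := by
      intro ω
      unfold grad
      simp only
      rw [abs_div, abs_of_pos hd, Real.div_rpow (abs_nonneg _) hd.le]
    rw [Finset.sum_congr rfl fun ω _ => this ω, ← Finset.sum_div, ← lpd_rpow p hp z i j,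
      div_self hdp.ne']

theorem Wset_mono {V : Type} (p : ℝ) (d : V → V → ℝ) (hd : IsDist d) {K K' : ℝ} (hK : K ≤ K') :
    Wset p d K ⊆ Wset p d K' := by
  rintro w ⟨φ, h1, h2⟩
  exact ⟨φ, fun i j => (h1 i j).trans (mul_le_mul_of_nonneg_right hK (hd.nonneg i j)), h2⟩

theorem Wset_bound {V : Type} (p : ℝ) (hp : 1 < p) (d : V → V → ℝ) (hd : IsDist d) {K : ℝ}
    (hK : 0 < K) (w : V × V → ℝ) (hw : w ∈ Wset p d K) (e : V × V) :
    0 ≤ w e ∧ w e ≤ K ^ p := by
  have hp0 : p ≠ 0 := by linarith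
  obtain ⟨φ, h1, h2⟩ := hw
  rw [h2 e]
  refine ⟨Real.rpow_nonneg (abs_nonneg _) _, ?_⟩
  apply Real.rpow_le_rpow (abs_nonneg _) _ (by linarith)
  obtain ⟨i, j⟩ := e
  unfold grad
  simp only
  classical
  by_cases hij : i = j
  · subst hij
    simp only [sub_self, zero_div, abs_zero]
    exact hK.le
  · have hdp := hd.pos i j hij
    rw [abs_div, abs_of_pos hdp, div_le_iff₀ hdp]
    exact h1 i j

theorem dst_of_avg (p : ℝ) (hp : 1 < p) {n N' : ℕ} (d : Fin n → Fin n → ℝ) (hd : IsDist d)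
    (hN' : 1 ≤ N') (φ : Fin N' → Fin n → ℝ) (D δ : ℝ) (hD : 0 < D) (_hδ : 0 ≤ δ) (hδ1 : δ < 1)
    (hDδ : 1 + δ = D ^ p * (1 - δ))
    (h : ∀ i j, i ≠ j → |(1 / (N' : ℝ)) * ∑ k, |grad d (φ k) (i, j)| ^ p - 1| ≤ δ) :
    Dst D d (lpd p (fun i k => φ k i / (N' : ℝ) ^ (1 / p))) := by
  have hp0 : p ≠ 0 := by linarith
  have hN0 : (0 : ℝ) < N' := by exact_mod_cast hN'
  set c : ℝ := (N' : ℝ) ^ (1 / p) with hc
  have hcpos : 0 < c := Real.rpow_pos_of_pos hN0 _
  have hcp : c ^ p = N' := by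
    rw [hc, ← Real.rpow_mul hN0.le, one_div_mul_cancel hp0, Real.rpow_one]
  refine ⟨(1 - δ) ^ (1 / p), Real.rpow_pos_of_pos (by linarith) _, fun i j => ?_⟩
  by_cases hij : i = j
  · subst hij
    rw [lpd_self p hp, hd.diag]
    simp
  · have hdp := hd.pos i j hij
    set avg : ℝ := (1 / (N' : ℝ)) * ∑ k, |grad d (φ k) (i, j)| ^ p with havg
    have hav := h i j hij
    rw [← havg] at hav
    rw [abs_le] at hav
    have havpos : 0 ≤ avg := by linarith [hav.1]
    have key : lpd p (fun i k => φ k i / c) i j = d i j * avg ^ (1 / p) := by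
      unfold lpd
      have : ∀ k : Fin N', |φ k i / c - φ k j / c| ^ p
          = (d i j) ^ p * ((1 / (N' : ℝ)) * |grad d (φ k) (i, j)| ^ p) := by
        intro k
        unfold grad
        simp only
        rw [← sub_div, abs_div, abs_div, abs_of_pos hcpos, abs_of_pos hdp,
          Real.div_rpow (abs_nonneg _) hcpos.le, Real.div_rpow (abs_nonneg _) hdp.le, hcp]
        have : (d i j) ^ p ≠ 0 := (Real.rpow_pos_of_pos hdp p).ne'
        field_simp
      rw [Finset.sum_congr rfl fun k _ => this k, ← Finset.mul_sum, ← Finset.mul_sum, ← havg,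
        Real.mul_rpow (Real.rpow_nonneg hdp.le _) havpos, ← Real.rpow_mul hdp.le,
        mul_one_div_cancel hp0, Real.rpow_one]
    rw [key]
    have h1p : (0 : ℝ) ≤ 1 / p := by positivity
    constructor
    · rw [mul_comm]
      apply mul_le_mul_of_nonneg_left _ hdp.le
      apply Real.rpow_le_rpow (by linarith) (by linarith [hav.1]) h1p
    · have hDs : D * (1 - δ) ^ (1 / p) = (1 + δ) ^ (1 / p) := by
        rw [hDδ, Real.mul_rpow (Real.rpow_nonneg hD.le _) (by linarith), ← Real.rpow_mul hD.le,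
          mul_one_div_cancel hp0, Real.rpow_one]
      rw [hDs, mul_comm]
      apply mul_le_mul_of_nonneg_right _ hdp.le
      apply Real.rpow_le_rpow havpos (by linarith [hav.2]) h1p

theorem numC (p : ℝ) (hp : 1 < p) (γ : ℝ) (hγ : 0 < γ) (K₀ : ℝ) (hK₀ : 0 ≤ K₀) (ε : ℝ)
    (hε : 0 < ε) :
    ∃ C : ℝ, ∀ n : ℕ, 2 ≤ n →
      4 * ((Real.exp (K₀ * Real.log n ^ γ)) ^ p) ^ 2 * Real.log (2 * ((n : ℝ) * n)) / ε ^ 2 + 2
        ≤ Real.exp (C * Real.log n ^ γ) := by
  set l0 : ℝ := (Real.log 2) ^ γ with hl0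
  have hlog2 : 0 < Real.log 2 := Real.log_pos (by norm_num)
  have hl0pos : 0 < l0 := Real.rpow_pos_of_pos hlog2 γ
  set A : ℝ := 12 / ε ^ 2 + 2 with hA
  have hA1 : 1 ≤ A := by
    have : 0 ≤ 12 / ε ^ 2 := by positivity
    linarith
  refine ⟨Real.log A / l0 + (2 * p * K₀ + 1 / γ), fun n hn => ?_⟩
  have hn2 : (2 : ℝ) ≤ n := by exact_mod_cast hn
  have hlogn2 : Real.log 2 ≤ Real.log n := Real.log_le_log (by norm_num) hn2
  have hlogn : 0 < Real.log n := lt_of_lt_of_le hlog2 hlogn2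
  set L : ℝ := (Real.log n) ^ γ with hL
  have hLpos : 0 < L := Real.rpow_pos_of_pos hlogn γ
  have hLl0 : l0 ≤ L := Real.rpow_le_rpow hlog2.le hlogn2 hγ.le
  -- log n ≤ exp (L/γ)
  have hlogL : Real.log n ≤ Real.exp ((1 / γ) * L) := by
    rw [← Real.log_le_iff_le_exp hlogn]
    have h1 : Real.log L = γ * Real.log (Real.log n) := by
      rw [hL, Real.log_rpow hlogn]
    have h2 : Real.log L ≤ L := (Real.log_le_sub_one_of_pos hLpos).trans (by linarith)
    have h3 : Real.log (Real.log n) = (1 / γ) * Real.log L := by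
      rw [h1]; field_simp
    rw [h3]
    exact mul_le_mul_of_nonneg_left h2 (by positivity)
  have hR : ((Real.exp (K₀ * L)) ^ p) ^ 2 = Real.exp (2 * p * K₀ * L) := by
    rw [← Real.exp_mul, ← Real.exp_nat_mul]
    congr 1
    push_cast
    ring
  rw [hR]
  have hlog2n : Real.log (2 * ((n : ℝ) * n)) ≤ 3 * Real.log n := by
    have hn0 : (n : ℝ) ≠ 0 := by linarith
    rw [Real.log_mul (by norm_num) (by positivity), Real.log_mul hn0 hn0]
    linarith
  have hexp1 : (1 : ℝ) ≤ Real.exp ((2 * p * K₀ + 1 / γ) * L) := by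
    apply Real.one_le_exp
    positivity
  have hmain : 4 * Real.exp (2 * p * K₀ * L) * Real.log (2 * ((n : ℝ) * n)) / ε ^ 2 + 2
      ≤ A * Real.exp ((2 * p * K₀ + 1 / γ) * L) := by
    have h1 : 4 * Real.exp (2 * p * K₀ * L) * Real.log (2 * ((n : ℝ) * n)) / ε ^ 2
        ≤ 12 / ε ^ 2 * Real.exp ((2 * p * K₀ + 1 / γ) * L) := by
      have h2 : Real.exp ((2 * p * K₀ + 1 / γ) * L)
          = Real.exp (2 * p * K₀ * L) * Real.exp ((1 / γ) * L) := by
        rw [← Real.exp_add]; congr 1; ring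
      rw [h2, div_mul_eq_mul_div]
      apply div_le_div_of_nonneg_right _ (by positivity)
      have h3 : Real.log (2 * ((n : ℝ) * n)) ≤ 3 * Real.exp ((1 / γ) * L) :=
        hlog2n.trans (by linarith)
      have h4 : (0 : ℝ) ≤ 4 * Real.exp (2 * p * K₀ * L) := by positivity
      calc 4 * Real.exp (2 * p * K₀ * L) * Real.log (2 * ((n : ℝ) * n))
          ≤ 4 * Real.exp (2 * p * K₀ * L) * (3 * Real.exp ((1 / γ) * L)) :=
            mul_le_mul_of_nonneg_left h3 h4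
        _ = 12 * (Real.exp (2 * p * K₀ * L) * Real.exp ((1 / γ) * L)) := by ring
    rw [hA, add_mul]
    linarith
  refine hmain.trans ?_
  have hAexp : A ≤ Real.exp (Real.log A / l0 * L) := by
    have h1 : A = Real.exp (Real.log A) := (Real.exp_log (by linarith)).symm
    have h2 : Real.log A ≤ Real.log A / l0 * L := by
      have h3 : 0 ≤ Real.log A := Real.log_nonneg hA1
      rw [div_mul_eq_mul_div, le_div_iff₀ hl0pos]
      exact mul_le_mul_of_nonneg_left hLl0 h3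
    calc A = Real.exp (Real.log A) := h1
      _ ≤ _ := Real.exp_le_exp.mpr h2
  calc A * Real.exp ((2 * p * K₀ + 1 / γ) * L)
      ≤ Real.exp (Real.log A / l0 * L) * Real.exp ((2 * p * K₀ + 1 / γ) * L) :=
        mul_le_mul_of_nonneg_right hAexp (Real.exp_pos _).le
    _ = Real.exp ((Real.log A / l0 + (2 * p * K₀ + 1 / γ)) * L) := by
        rw [← Real.exp_add]; congr 1; ring

theorem stepC (p : ℝ) (hp : 1 < p) (hp2 : p ≠ 2) (D : ℝ) (hD : 1 < D) (C₀ : ℝ) (hC₀ : 0 ≤ C₀) :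
    ∃ C : ℝ, ∀ n : ℕ, 2 ≤ n → ∀ (N : ℕ) (z : Fin n → Fin N → ℝ), (N : ℝ) ≤ C₀ * (n : ℝ) ^ 6 →
      (∀ i j, i ≠ j → 0 < lpd p z i j) →
      ∃ N' : ℕ, (N' : ℝ) ≤ Real.exp (C * Real.log n ^ gam p) ∧ ∃ z' : Fin n → Fin N' → ℝ,
        Dst D (lpd p z) (lpd p z') := by
  have hp0 : p ≠ 0 := by linarith
  have hDp : 1 < D ^ p := Real.one_lt_rpow hD (by linarith)
  set ε : ℝ := (D ^ p - 1) / (D ^ p + 1) / 2 with hεdef
  have hε : 0 < ε := by
    apply div_pos (div_pos (by linarith) (by linarith)) (by norm_num)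
  have h2ε : 2 * ε = (D ^ p - 1) / (D ^ p + 1) := by rw [hεdef]; ring
  have h2ε1 : 2 * ε < 1 := by
    rw [h2ε, div_lt_one (by linarith)]; linarith
  have hDε : 1 + 2 * ε = D ^ p * (1 - 2 * ε) := by
    rw [h2ε]
    have : D ^ p + 1 ≠ 0 := by linarith
    field_simp
    ring
  obtain ⟨K₁, hK₁⟩ := unif p hp hp2 ε C₀ hε hC₀
  set K₀ : ℝ := max K₁ 0 with hK₀
  have hK₀0 : 0 ≤ K₀ := le_max_right _ _
  obtain ⟨C, hC⟩ := numC p hp (gam p) (gam_pos p hp hp2) K₀ hK₀0 ε hε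
  refine ⟨C, fun n hn N z hN hz => ?_⟩
  have hd : IsDist (lpd p z) := lpd_isDist p hp z hz
  have hn2 : (2 : ℝ) ≤ n := by exact_mod_cast hn
  have hlogn : 0 ≤ Real.log n := Real.log_nonneg (by linarith)
  have hL : 0 ≤ Real.log n ^ gam p := Real.rpow_nonneg hlogn _
  obtain ⟨w, hw, hwe⟩ := hK₁ n hn (lpd p z) hd N (fun ω i => z i ω) hN (by
    intro e
    rw [sum_grad_le p hp z hz e]
    split_ifs <;> norm_num)
  set K : ℝ := Real.exp (K₀ * Real.log n ^ gam p) with hKdef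
  have hKpos : 0 < K := Real.exp_pos _
  have hK1 : 1 ≤ K := Real.one_le_exp (mul_nonneg hK₀0 hL)
  have hKK : Real.exp (K₁ * Real.log n ^ gam p) ≤ K :=
    Real.exp_le_exp.mpr (mul_le_mul_of_nonneg_right (le_max_left _ _) hL)
  have hw' : w ∈ convexHull ℝ (Wset p (lpd p z) K) :=
    convexHull_mono (Wset_mono p (lpd p z) hd hKK) hw
  have : Nonempty (Fin n × Fin n) := ⟨(⟨0, by omega⟩, ⟨0, by omega⟩)⟩
  set R : ℝ := K ^ p with hRdef
  have hR1 : 1 ≤ R := Real.one_le_rpow hK1 (by linarith)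
  set x : ℝ := 4 * R ^ 2 * Real.log (2 * ((n : ℝ) * n)) / ε ^ 2 with hx
  have hcard : (Fintype.card (Fin n × Fin n) : ℝ) = (n : ℝ) * n := by
    rw [Fintype.card_prod, Fintype.card_fin]; push_cast; ring
  obtain ⟨v, hvW, hv⟩ := sampling (Wset p (lpd p z) K) R (by linarith)
    (fun w hw e => Wset_bound p hp (lpd p z) hd hKpos w hw e) w hw' ε hε (by linarith)
    (⌈x⌉₊ + 1) (by omega) (by
      rw [hcard]
      refine (Nat.le_ceil x).trans ?_
      push_cast
      linarith)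
  have hx0 : 0 ≤ x := by
    rw [hx]
    apply div_nonneg _ (by positivity)
    apply mul_nonneg (by positivity)
    apply Real.log_nonneg
    nlinarith
  choose φ hφ1 hφ2 using hvW
  refine ⟨⌈x⌉₊ + 1, ?_, fun i k => φ k i / ((⌈x⌉₊ + 1 : ℕ) : ℝ) ^ (1 / p), ?_⟩
  · refine le_trans ?_ (hC n hn)
    have := (Nat.ceil_lt_add_one hx0).le
    push_cast
    rw [← hKdef, ← hRdef, ← hx]
    linarith
  · apply dst_of_avg p hp (lpd p z) hd (by omega) φ D (2 * ε) (by linarith) (by linarith) h2ε1 hDε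
    intro i j hij
    have h1 := hv (i, j)
    have h2 := hwe (i, j)
    rw [sum_grad_le p hp z hz (i, j)] at h2
    simp only [if_neg hij] at h2
    have h3 : ∑ k, v k (i, j) = ∑ k, |grad (lpd p z) (φ k) (i, j)| ^ p :=
      Finset.sum_congr rfl fun k _ => hφ2 k (i, j)
    rw [h3] at h1
    rw [abs_le] at h1 h2 ⊢
    constructor <;> linarith [h1.1, h1.2, h2.1, h2.2]

end Crest.Agent.R232
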