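import Crest.Agent.R232.Loc
import Crest.Agent.R232.ContG
import Crest.Agent.R232.PowMean
import Crest.Agent.Lib.BrouwerA

/-! # Row 232, piece THMA: uniform localization for suitable weights (Brouwer)

`E = V × V`, `m = card E = n²`, `n = card V ≥ 2`, `ν_ρ e = ν₀ e + 1/m + ρ e` for `ρ` in
`stdSimplex ℝ E` (compact, convex). `a_ρ e = 1 + ∑_{e'} ν_ρ e' |G d ν_ρ e e'| ≥ 1`, continuous in
`ρ` on the simplex (`continuousOn_G`). `q = ⌈2 log n⌉₊`. The map
`ρ ↦ (e ↦ a_ρ e ^ q / ∑ a_ρ ^ q)` is a continuous self-map of the simplex, so by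
`brouwer_convex` (see `Crest/Agent/Lib/BrouwerA.lean` for its namespace) it has a fixed point `ρ`.
Then with `ν = ν_ρ` (`∑ ν ≤ 3`): `∑_e ρ e a e ≤ 1 + ∑_e ν e ∑_{e'} ν e' |G e e'| ≤ 1 + 12 log n =: K`
(`loc`), i.e. `∑ a^{q+1} ≤ K ∑ a^q`; `pow_mean` gives `a e ≤ K m^{1/(q+1)} ≤ K e`
(`m^{1/(q+1)} = exp(2 log n/(q+1)) ≤ e`), so `∑_{e'} ν e'|G| ≤ e(1 + 12 log n) - 1 ≤ 40 log n`
(`log n ≥ log 2 ≥ 0.69`, `Real.exp_one_lt_d9`). -/

set_option autoImplicit false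

namespace Crest.Agent.R232

theorem thmA {V : Type} [Fintype V] [DecidableEq V] (hV : 2 ≤ Fintype.card V) (d : V → V → ℝ)
    (hd : IsDist d) (ν₀ : V × V → ℝ) (h0 : ∀ e, 0 ≤ ν₀ e) (h1 : ∑ e, ν₀ e ≤ 1) :
    ∃ ν : V × V → ℝ, (∀ e, 0 < ν e) ∧ (∀ e, ν₀ e ≤ ν e) ∧ ∑ e, ν e ≤ 3 ∧
      ∀ e, ∑ e', ν e' * |G d ν e e'| ≤ 40 * Real.log (Fintype.card V) := by
  classical
  have hne : Nonempty V := by
    rw [← Fintype.card_pos_iff]; omega
  obtain ⟨v0⟩ := hne
  haveI : Nonempty V := ⟨v0⟩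
  set m : ℝ := (Fintype.card (V × V) : ℝ) with hm
  set n : ℝ := (Fintype.card V : ℝ) with hn
  have hn2 : (2 : ℝ) ≤ n := by rw [hn]; exact_mod_cast hV
  have hmn : m = n ^ 2 := by
    rw [hm, Fintype.card_prod, Nat.cast_mul, ← hn, sq]
  have hmpos : 0 < m := by rw [hmn]; positivity
  have hlog2 : (0.69 : ℝ) < Real.log n :=
    lt_of_lt_of_le (lt_trans (by norm_num) Real.log_two_gt_d9)
      (Real.log_le_log (by norm_num) hn2)
  let nu : (V × V → ℝ) → V × V → ℝ := fun ρ e => ν₀ e + 1 / m + ρ e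
  have hnu_pos : ∀ ρ ∈ stdSimplex ℝ (V × V), ∀ e, 0 < nu ρ e := by
    intro ρ hρ e
    have h2 := hρ.1 e
    have h3 := h0 e
    have h4 : 0 < 1 / m := by positivity
    simp only [nu]
    linarith
  let a : (V × V → ℝ) → V × V → ℝ := fun ρ e => 1 + ∑ e', nu ρ e' * |G d (nu ρ) e e'|
  have ha1 : ∀ ρ ∈ stdSimplex ℝ (V × V), ∀ e, 1 ≤ a ρ e := by
    intro ρ hρ e
    simp only [a]
    have : 0 ≤ ∑ e', nu ρ e' * |G d (nu ρ) e e'| :=
      Finset.sum_nonneg fun e' _ => mul_nonneg (hnu_pos ρ hρ e').le (abs_nonneg _)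
    linarith
  have hnuc : Continuous nu := by
    refine continuous_pi fun e => ?_
    exact continuous_const.add (continuous_apply e)
  have hac : ∀ e, ContinuousOn (fun ρ => a ρ e) (stdSimplex ℝ (V × V)) := by
    intro e
    refine continuousOn_const.add (continuousOn_finsetSum _ fun e' _ => ?_)
    refine ContinuousOn.mul ((continuous_apply e').comp hnuc).continuousOn ?_
    have := (continuousOn_G d hd e e').comp (s := stdSimplex ℝ (V × V)) (f := nu)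
      hnuc.continuousOn (fun ρ hρ => hnu_pos ρ hρ)
    exact this.abs
  let q : ℕ := ⌈2 * Real.log n⌉₊
  have hq : 2 * Real.log n ≤ (q : ℝ) := Nat.le_ceil _
  have hSpos : ∀ ρ ∈ stdSimplex ℝ (V × V), 0 < ∑ e, a ρ e ^ q := by
    intro ρ hρ
    refine Finset.sum_pos (fun e _ => pow_pos (lt_of_lt_of_le one_pos (ha1 ρ hρ e)) q)
      ⟨(v0, v0), Finset.mem_univ _⟩
  let f : (V × V → ℝ) → V × V → ℝ := fun ρ e => a ρ e ^ q / ∑ e', a ρ e' ^ q
  have hfc : ContinuousOn f (stdSimplex ℝ (V × V)) := by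
    refine continuousOn_pi.2 fun e => ?_
    refine ContinuousOn.div ((hac e).pow q) (continuousOn_finsetSum _ fun e' _ => (hac e').pow q)
      (fun ρ hρ => (hSpos ρ hρ).ne')
  have hfm : Set.MapsTo f (stdSimplex ℝ (V × V)) (stdSimplex ℝ (V × V)) := by
    intro ρ hρ
    refine ⟨fun e => ?_, ?_⟩
    · exact div_nonneg (pow_nonneg (le_trans zero_le_one (ha1 ρ hρ e)) q) (hSpos ρ hρ).le
    · simp only [f]
      rw [← Finset.sum_div, div_self (hSpos ρ hρ).ne']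
  obtain ⟨ρ, hρ, hfix⟩ := Crest.Agent.Brouwer.brouwer_convex (convex_stdSimplex ℝ (V × V))
    (isCompact_stdSimplex ℝ (V × V)) ⟨_, single_mem_stdSimplex ℝ ((v0, v0) : V × V)⟩ f hfc hfm
  have hnp := hnu_pos ρ hρ
  have hsum : ∑ e, nu ρ e ≤ 3 := by
    simp only [nu, Finset.sum_add_distrib, hρ.2, Finset.sum_const, Finset.card_univ,
      nsmul_eq_mul]
    rw [← hm, mul_one_div, div_self hmpos.ne']
    linarith
  have hρle : ∀ e, ρ e ≤ nu ρ e := by
    intro e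
    have h3 := h0 e
    have h4 : 0 < 1 / m := by positivity
    simp only [nu]
    linarith
  refine ⟨nu ρ, hnp, fun e => ?_, hsum, ?_⟩
  · have h2 := hρ.1 e
    have h4 : 0 < 1 / m := by positivity
    simp only [nu]
    linarith
  -- the main estimate
  have hloc := loc d (nu ρ) hd hnp
  have hK1 : ∑ e, ρ e * a ρ e ≤ 1 + 12 * Real.log n := by
    have e1 : ∑ e, ρ e * a ρ e = 1 + ∑ e, ρ e * ∑ e', nu ρ e' * |G d (nu ρ) e e'| := by
      simp only [a, mul_add, mul_one, Finset.sum_add_distrib, hρ.2]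
    have e2 : ∑ e, ρ e * ∑ e', nu ρ e' * |G d (nu ρ) e e'| ≤
        ∑ e, ∑ e', nu ρ e * nu ρ e' * |G d (nu ρ) e e'| := by
      refine Finset.sum_le_sum fun e _ => ?_
      rw [Finset.mul_sum]
      refine Finset.sum_le_sum fun e' _ => ?_
      rw [mul_assoc]
      exact mul_le_mul_of_nonneg_right (hρle e) (mul_nonneg (hnp e').le (abs_nonneg _))
    have e3 : 4 * Real.log n * ∑ e, nu ρ e ≤ 12 * Real.log n := by
      nlinarith
    linarith
  have hK : ∑ e, a ρ e ^ (q + 1) ≤ (1 + 12 * Real.log n) * ∑ e, a ρ e ^ q := by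
    have e1 : ∑ e, ρ e * a ρ e = (∑ e, a ρ e ^ (q + 1)) / ∑ e, a ρ e ^ q := by
      rw [Finset.sum_div]
      refine Finset.sum_congr rfl fun e _ => ?_
      have : ρ e = a ρ e ^ q / ∑ e', a ρ e' ^ q := (congrFun hfix e).symm
      conv_lhs => rw [this]
      rw [pow_succ]
      ring
    rw [e1, div_le_iff₀ (hSpos ρ hρ)] at hK1
    exact hK1
  intro e
  have hpm := pow_mean (a ρ) (ha1 ρ hρ) q (1 + 12 * Real.log n) hK e
  have hexp : (Fintype.card (V × V) : ℝ) ^ (1 / ((q : ℝ) + 1)) ≤ Real.exp 1 := by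
    rw [← hm, hmn]
    have hnpos : 0 < n := by linarith
    rw [Real.rpow_def_of_pos (by positivity), Real.log_pow]
    apply Real.exp_le_exp.2
    rw [mul_one_div, div_le_one (by positivity)]
    push_cast
    linarith
  have hKnn : 0 ≤ 1 + 12 * Real.log n := by linarith
  have h5 : a ρ e ≤ (1 + 12 * Real.log n) * 2.7182818286 :=
    hpm.trans (mul_le_mul_of_nonneg_left (hexp.trans Real.exp_one_lt_d9.le) hKnn)
  have h6 : a ρ e = 1 + ∑ e', nu ρ e' * |G d (nu ρ) e e'| := rfl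
  rw [h6] at h5
  linarith

end Crest.Agent.R232
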