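import Crest.Agent.R232.Defs

/-! # Row 232, piece TWO: the entropy two point inequality

With `s = (a+b)/2`, `u = (a-b)/(a+b)`, `a = s(1+u)`, `b = s(1-u)`, `|u| ≤ 1`:
`RHS = (s/2) [(1+u) log(1+u) + (1-u) log(1-u)]` and `LHS = s u²/2`, so the claim is
`(1+u) log(1+u) + (1-u) log(1-u) ≥ u²` on `[-1,1]`: the difference `g` is even, `g(0)=0`,
`g'(u) = log(1+u) - log(1-u) - 2u ≥ 0` for `u ≥ 0` (derivative of that: `2/(1-u²) - 2 ≥ 0`);
at `u = ±1` use continuity (or the value `2 log 2 ≥ 1`, `Real.log_two_gt_d9`).
`a = b = 0` is trivial. -/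

set_option autoImplicit false

namespace Crest.Agent.R232

theorem two_point_aux {u : ℝ} (hu0 : 0 ≤ u) (hu1 : u ≤ 1) :
    u ^ 2 ≤ (1 + u) * Real.log (1 + u) + (1 - u) * Real.log (1 - u) := by
  let G : ℝ → ℝ := fun u => (1 + u) * Real.log (1 + u) + (1 - u) * Real.log (1 - u) - u ^ 2
  have hcont : Continuous G := by
    have h1 : Continuous fun u : ℝ => (1 + u) * Real.log (1 + u) :=
      Real.continuous_mul_log.comp (continuous_const.add continuous_id)
    have h2 : Continuous fun u : ℝ => (1 - u) * Real.log (1 - u) :=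
      Real.continuous_mul_log.comp (continuous_const.sub continuous_id)
    exact (h1.add h2).sub (continuous_id.pow 2)
  have hder : ∀ x ∈ Set.Ioo (0 : ℝ) 1,
      HasDerivAt G (Real.log (1 + x) - Real.log (1 - x) - 2 * x) x := by
    intro x hx
    have h1 : HasDerivAt (fun u : ℝ => 1 + u) 1 x := by simpa using (hasDerivAt_id x).const_add 1
    have h2 : HasDerivAt (fun u : ℝ => 1 - u) (-1) x := by
      simpa using (hasDerivAt_id x).const_sub 1
    have p1 : (1 + x) ≠ 0 := by linarith [hx.1]
    have p2 : (1 - x) ≠ 0 := by linarith [hx.2]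
    have h3 := h1.mul (h1.log p1)
    have h4 := h2.mul (h2.log p2)
    have h5 := (h3.add h4).sub (hasDerivAt_pow 2 x)
    have h6 : HasDerivAt G _ x := h5
    refine h6.congr_deriv ?_
    have e1 : (1 + x) * (1 / (1 + x)) = 1 := by field_simp
    have e2 : (1 - x) * (-1 / (1 - x)) = -1 := by field_simp
    rw [e1, e2]
    push_cast
    ring
  have hmono : MonotoneOn G (Set.Icc 0 1) := by
    refine monotoneOn_of_deriv_nonneg (convex_Icc 0 1) hcont.continuousOn ?_ ?_
    · rw [interior_Icc]
      intro x hx
      exact (hder x hx).differentiableAt.differentiableWithinAt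
    · rw [interior_Icc]
      intro x hx
      rw [(hder x hx).deriv]
      have hx1 : 0 < 1 - x := by linarith [hx.2]
      have h := Real.le_log_one_add_of_nonneg (x := 2 * x / (1 - x))
        (div_nonneg (by linarith [hx.1]) hx1.le)
      have e1 : 1 + 2 * x / (1 - x) = (1 + x) / (1 - x) := by field_simp; ring
      have e2 : 2 * (2 * x / (1 - x)) / (2 * x / (1 - x) + 2) = 2 * x := by
        have : 2 * x / (1 - x) + 2 = 2 / (1 - x) := by field_simp; ring
        rw [this]
        field_simp
      rw [e1, e2, Real.log_div (by linarith [hx.1]) hx1.ne'] at h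
      linarith
  have h0 := hmono (Set.left_mem_Icc.2 zero_le_one) ⟨hu0, hu1⟩ hu0
  simp only [G] at h0
  norm_num at h0
  linarith

theorem two_point_aux' {u : ℝ} (hu : |u| ≤ 1) :
    u ^ 2 ≤ (1 + u) * Real.log (1 + u) + (1 - u) * Real.log (1 - u) := by
  rcases le_total 0 u with h | h
  · exact two_point_aux h (le_trans (le_abs_self u) hu)
  · have := two_point_aux (u := -u) (by linarith) (le_trans (neg_le_abs u) hu)
    rw [neg_sq] at this
    have e1 : 1 + -u = 1 - u := by ring
    have e2 : 1 - -u = 1 + u := by ring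
    rw [e1, e2] at this
    linarith

theorem two_point (a b : ℝ) (ha : 0 ≤ a) (hb : 0 ≤ b) :
    (a - b) ^ 2 / (4 * (a + b)) ≤
      (a * Real.log a + b * Real.log b) / 2 - (a + b) / 2 * Real.log ((a + b) / 2) := by
  rcases eq_or_lt_of_le (add_nonneg ha hb) with h0 | h0
  · have ha0 : a = 0 := by linarith
    have hb0 : b = 0 := by linarith
    subst ha0; subst hb0
    simp
  · set s := (a + b) / 2 with hs
    have hs0 : 0 < s := by positivity
    set u := (a - b) / (a + b) with hu
    have hab : a + b ≠ 0 := h0.ne'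
    have ea : a = s * (1 + u) := by rw [hs, hu]; field_simp; ring
    have eb : b = s * (1 - u) := by rw [hs, hu]; field_simp; ring
    have hu1 : |u| ≤ 1 := by
      rw [hu, abs_div, abs_of_pos h0, div_le_one h0, abs_le]
      constructor <;> linarith
    have key := two_point_aux' hu1
    have hlog : ∀ y : ℝ, (s * y) * Real.log (s * y) = s * (y * Real.log s + y * Real.log y) := by
      intro y
      by_cases hy : y = 0
      · subst hy; simp
      · rw [Real.log_mul hs0.ne' hy]; ring
    have hla : a * Real.log a = s * ((1 + u) * Real.log s + (1 + u) * Real.log (1 + u)) := by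
      conv_lhs => rw [ea]
      exact hlog _
    have hlb : b * Real.log b = s * ((1 - u) * Real.log s + (1 - u) * Real.log (1 - u)) := by
      conv_lhs => rw [eb]
      exact hlog _
    have hL : (a - b) ^ 2 / (4 * (a + b)) = s * u ^ 2 / 2 := by
      rw [hs, hu]; field_simp; ring
    rw [hL, hla, hlb]
    nlinarith [mul_le_mul_of_nonneg_left key hs0.le]

end Crest.Agent.R232
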