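import Crest.Agent.R232.Avg
import Crest.Agent.R232.Num
import Crest.Agent.R232.Minimax
import Crest.Agent.R232.ThmA

/-! # Row 232, piece UNIF: uniform approximation by a convex combination (assembly)

`gam p ∈ (0,1)`. `θ = ε/16`-ish, `C, Cθ` from `avg_param`; `num` with `C`, `C' = Cθ`, small `ε`;
`Λ = 40 log n ≥ 1` (`log 2 > 0.69`). For a probability weight `ν₀` on `V × V`, `thmA` gives `ν`;
`avg_param` gives `w` in the hull of `Wset p d K'`, `K' ≤ K = exp(K₀ (log n)^γ)`, and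
`Wset p d K' ⊆ Wset p d K`. `minimax` (with `W` the convex hull) finishes.
`cM_ge` gives `2^{-p} m ≤ cM p m`. -/

set_option autoImplicit false

namespace Crest.Agent.R232

theorem gam_pos (p : ℝ) (hp : 1 < p) (hp2 : p ≠ 2) : 0 < gam p := by
  unfold gam
  split_ifs with h
  · linarith
  · have h2 : 2 < p := lt_of_le_of_ne (not_lt.1 h) (Ne.symm hp2)
    rw [sub_pos, div_lt_one (by linarith)]
    exact h2

theorem gam_lt (p : ℝ) (hp : 1 < p) : gam p < 1 := by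
  unfold gam
  split_ifs with h
  · linarith
  · have : 0 < 2 / p := by positivity
    linarith

theorem Wset_subset {V : Type} (p : ℝ) (d : V → V → ℝ) (hd : IsDist d) {K K' : ℝ} (h : K ≤ K') :
    Wset p d K ⊆ Wset p d K' := by
  rintro w ⟨φ, h1, h2⟩
  exact ⟨φ, fun i j => (h1 i j).trans (mul_le_mul_of_nonneg_right h (hd.nonneg i j)), h2⟩

theorem unif (p : ℝ) (hp : 1 < p) (hp2 : p ≠ 2) (ε C₀ : ℝ) (hε : 0 < ε) (hC₀ : 0 ≤ C₀) :
    ∃ K₀ : ℝ, ∀ n : ℕ, 2 ≤ n → ∀ (d : Fin n → Fin n → ℝ), IsDist d →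
      ∀ (N : ℕ) (z : Fin N → Fin n → ℝ), (N : ℝ) ≤ C₀ * (n : ℝ) ^ 6 →
      (∀ e, ∑ ω, |grad d (z ω) e| ^ p ≤ 1) →
      ∃ w ∈ convexHull ℝ (Wset p d (Real.exp (K₀ * Real.log n ^ gam p))),
        ∀ e, |w e - ∑ ω, |grad d (z ω) e| ^ p| ≤ ε := by
  obtain ⟨C, hC, havg⟩ := avg_param p hp hp2
  obtain ⟨Cθ, hCθ, havg⟩ := havg (ε / 16) (by positivity)
  set ε' : ℝ := min 1 (ε / 16) with hε'
  have hε'0 : 0 < ε' := lt_min one_pos (by positivity)
  have hε'1 : ε' ≤ 1 := min_le_left _ _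
  have hε'2 : ε' ≤ ε / 16 := min_le_right _ _
  obtain ⟨K₀, hK⟩ := num p hp (gam p) (gam_pos p hp hp2) (gam_lt p hp) C Cθ ε' C₀ hC hCθ hε'0 hC₀
  refine ⟨K₀, fun n hn d hd N z hN hz => ?_⟩
  haveI : Nonempty (Fin n) := ⟨⟨0, by omega⟩⟩
  obtain ⟨m, J, t, hm, ht, hγ, hJ, hc⟩ := hK n hn N hN
  have hlog : 1 ≤ 40 * Real.log n := by
    have h1 : Real.log 2 ≤ Real.log n :=
      Real.log_le_log (by norm_num) (by exact_mod_cast hn)
    have h2 := Real.log_two_gt_d9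
    linarith
  obtain ⟨h1, h2, h3, h4⟩ := hc (cM p m) (cM_ge p hp m hm)
  have key : ∀ ν₀ : Fin n × Fin n → ℝ, (∀ e, 0 ≤ ν₀ e) → ∑ e, ν₀ e = 1 →
      ∃ w ∈ convexHull ℝ (Wset p d (Real.exp (K₀ * Real.log n ^ gam p))),
        ∑ e, ν₀ e * |w e - ∑ ω, |grad d (z ω) e| ^ p| ≤ ε / 2 := by
    intro ν₀ hν0 hν1
    obtain ⟨ν, hν, hνν, hν3, hG⟩ := thmA (V := Fin n) (by simpa using hn) d hd ν₀ hν0 hν1.le
    rw [Fintype.card_fin] at hG
    obtain ⟨w, hw, hw'⟩ := havg (Fin n) d hd N z hz ν hν hν3 (40 * Real.log n) hlog hG ν₀ hν0 hνν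
      hν1 m J t hm hγ ht
    refine ⟨w, convexHull_mono (Wset_subset p d hd h4) hw, hw'.trans ?_⟩
    have hcard : (Fintype.card (Fin n × Fin n) : ℝ) = (n : ℝ) * n := by
      simp
    rw [hcard]
    have q1 : ε / 16 * (1 + C / cM p m) ≤ ε / 16 * 2 := by
      refine mul_le_mul_of_nonneg_left ?_ (by positivity)
      linarith
    linarith
  obtain ⟨w, hw, hw'⟩ := minimax (convexHull ℝ (Wset p d (Real.exp (K₀ * Real.log n ^ gam p))))
    (convex_convexHull ℝ _) (fun e => ∑ ω, |grad d (z ω) e| ^ p) (ε / 2) (by positivity) key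
  exact ⟨w, hw, fun e => (hw' e).trans (by linarith)⟩

end Crest.Agent.R232
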